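import Mathlib.Algebra.Order.Ring.Star
import Mathlib.Algebra.Order.Star.Real
import Mathlib.Analysis.SpecialFunctions.Trigonometric.DerivHyp
import Vale.Agent.Lib.P219.Defs

/-! # P219, curvature `-1`: volume and area of model balls -/

namespace Vale.Agent.Lib.P219

open MeasureTheory Set Filter Topology

noncomputable section

/-- volume of the ball of radius `R` in hyperbolic space -/
def volM (n : ℕ) (R : ℝ) : ℝ := n * om n * ∫ t in (0 : ℝ)..R, Real.sinh t ^ (n - 1)

/-- area of the sphere of radius `R` in hyperbolic space -/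
def areaM (n : ℕ) (R : ℝ) : ℝ := n * om n * Real.sinh R ^ (n - 1)

variable {n : ℕ}

theorem volM_zero : volM n 0 = 0 := by
  simp [volM]

private theorem model_om_pos (n : ℕ) : 0 < om n := by
  unfold om
  exact ENNReal.toReal_pos (Metric.measure_ball_pos volume _ one_pos).ne'
    measure_ball_lt_top.ne

private theorem model_cont (m : ℕ) : Continuous (fun t : ℝ => Real.sinh t ^ m) :=
  Real.continuous_sinh.pow m

theorem hasDerivAt_volM (R : ℝ) : HasDerivAt (volM n) (areaM n R) R := by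
  have h := intervalIntegral.integral_hasDerivAt_right
    ((model_cont (n - 1)).intervalIntegrable 0 R)
    ((model_cont (n - 1)).stronglyMeasurableAtFilter _ _) (model_cont (n - 1)).continuousAt
  exact h.const_mul _

theorem hasDerivAt_areaM (hn : 2 ≤ n) {R : ℝ} (hR : 0 < R) :
    HasDerivAt (areaM n) ((n - 1) * (Real.cosh R / Real.sinh R) * areaM n R) R := by
  have hs : Real.sinh R ≠ 0 := (Real.sinh_pos_iff.2 hR).ne'
  have h := ((Real.hasDerivAt_sinh R).pow (n - 1)).const_mul ((n : ℝ) * om n)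
  refine h.congr_deriv ?_
  obtain ⟨m, rfl⟩ : ∃ m, n = m + 2 := ⟨n - 2, by omega⟩
  have e1 : m + 2 - 1 = m + 1 := rfl
  simp only [areaM, e1, Nat.add_sub_cancel]
  push_cast
  field_simp
  ring

theorem areaM_pos (hn : 1 ≤ n) {R : ℝ} (hR : 0 < R) : 0 < areaM n R := by
  have h1 : (0 : ℝ) < n := by exact_mod_cast hn
  have h2 := model_om_pos n
  have h3 : 0 < Real.sinh R := Real.sinh_pos_iff.2 hR
  unfold areaM
  positivity

theorem volM_strictMonoOn (hn : 1 ≤ n) : StrictMonoOn (volM n) (Ici 0) := by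
  refine strictMonoOn_of_deriv_pos (convex_Ici 0)
    (fun R _ => (hasDerivAt_volM R).continuousAt.continuousWithinAt) fun R hR => ?_
  rw [interior_Ici] at hR
  rw [(hasDerivAt_volM R).deriv]
  exact areaM_pos hn hR

theorem volM_pos (hn : 1 ≤ n) {R : ℝ} (hR : 0 < R) : 0 < volM n R := by
  have h := volM_strictMonoOn hn (mem_Ici.2 le_rfl) (mem_Ici.2 hR.le) hR
  rwa [volM_zero] at h

/-- `V ≥ ω_n R^n` -/
private theorem model_volM_ge (hn : 1 ≤ n) {R : ℝ} (hR : 0 ≤ R) : om n * R ^ n ≤ volM n R := by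
  have h1 : (0 : ℝ) < n := by exact_mod_cast hn
  have h2 := model_om_pos n
  have h3 : ∫ t in (0 : ℝ)..R, t ^ (n - 1) ≤ ∫ t in (0 : ℝ)..R, Real.sinh t ^ (n - 1) := by
    refine intervalIntegral.integral_mono_on hR
      ((continuous_pow (n - 1)).intervalIntegrable 0 R)
      ((model_cont (n - 1)).intervalIntegrable 0 R) fun t ht => ?_
    exact pow_le_pow_left₀ ht.1 (Real.self_le_sinh_iff.2 ht.1) _
  rw [integral_pow] at h3
  have e1 : n - 1 + 1 = n := by omega
  have e2 : ((n - 1 : ℕ) : ℝ) + 1 = n := by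
    have : ((n - 1 + 1 : ℕ) : ℝ) = n := by rw [e1]
    push_cast at this
    exact this
  rw [e1, e2, zero_pow (by omega), sub_zero] at h3
  have h4 : (n : ℝ) * om n * (R ^ n / n) ≤ volM n R :=
    mul_le_mul_of_nonneg_left h3 (by positivity)
  have e3 : (n : ℝ) * om n * (R ^ n / n) = om n * R ^ n := by
    field_simp
  rwa [e3] at h4

theorem tendsto_volM (hn : 1 ≤ n) : Tendsto (volM n) atTop atTop := by
  have h2 := model_om_pos n
  have h1 : Tendsto (fun R : ℝ => om n * R ^ n) atTop atTop :=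
    (tendsto_pow_atTop (by omega)).const_mul_atTop h2
  refine tendsto_atTop_mono' atTop ?_ h1
  filter_upwards [eventually_ge_atTop (0 : ℝ)] with R hR
  exact model_volM_ge hn hR

/-- every positive volume is the volume of a model ball -/
theorem exists_volM_eq (hn : 1 ≤ n) {V : ℝ} (hV : 0 < V) : ∃ R, 0 < R ∧ volM n R = V := by
  obtain ⟨b, hb1, hb2⟩ := ((tendsto_volM hn).eventually_ge_atTop V |>.and
    (eventually_ge_atTop (0 : ℝ))).exists
  have hc : ContinuousOn (volM n) (Icc 0 b) :=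
    fun R _ => (hasDerivAt_volM R).continuousAt.continuousWithinAt
  have hmem : V ∈ Icc (volM n 0) (volM n b) := ⟨by rw [volM_zero]; exact hV.le, hb1⟩
  obtain ⟨R, hR, hRV⟩ := intermediate_value_Icc hb2 hc hmem
  refine ⟨R, lt_of_le_of_ne hR.1 ?_, hRV⟩
  rintro rfl
  rw [volM_zero] at hRV
  exact hV.ne hRV

/-- `V ≥ ω_n R^n` -/
theorem volM_ge (hn : 1 ≤ n) {R : ℝ} (hR : 0 ≤ R) : om n * R ^ n ≤ volM n R :=
  model_volM_ge hn hR

end

end Vale.Agent.Lib.P219
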