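import Vale.Agent.Lib.P219.Defs

/-!
# P219, curvature `≤ -1`: definitions for the analytic part

`HDataH n` adds to `HData n` (geodesic flow in an orthonormal frame) what the curvature bound
`Sec ≤ -1` gives.  `KerH n` is a (regularised) certificate for the model of curvature `-1`.
-/

namespace Vale.Agent.Lib.P219

open MeasureTheory Set Filter Topology
open scoped ENNReal

noncomputable section

/-- `r coth r` (for `r ≠ 0`) -/
def rcoth (r : ℝ) : ℝ := r * Real.cosh r / Real.sinh r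

/-- A metric on `ℝ^n` with `Sec ≤ -1`, seen through its geodesic flow in an orthonormal frame. -/
structure HDataH (n : ℕ) extends HData n where
  /-- logarithmic derivative (in `t`, at `t = 1`) of `t^(n-1) |det P x (t w)|` -/
  lt : Ev n → Ev n → ℝ
  lt_cont : Continuous (fun p : Ev n × Ev n => lt p.1 p.2)
  lt_deriv : ∀ x w, HasDerivAt (fun t : ℝ => t ^ (n - 1) * |(P x (t • w)).det|)
    (lt x w * |(P x w).det|) 1
  /-- Rauch comparison: `|J| / sinh` is nondecreasing for normal Jacobi fields -/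
  P_monoH : ∀ x w ξ, ‖w‖ = 1 → inner ℝ w ξ = 0 → ∀ s t : ℝ, 0 < s → s ≤ t →
    ‖P x (s • w) ξ‖ * (s / Real.sinh s) ≤ ‖P x (t • w) ξ‖ * (t / Real.sinh t)
  /-- coupling of the mean curvatures of the two geodesic spheres (index form comparison) -/
  couple : ∀ x w, w ≠ 0 →
    (‖w‖ / Real.sinh ‖w‖) ^ 2
        * (1 - 1 / (|(P x w).det| * (‖w‖ / Real.sinh ‖w‖) ^ (n - 1))) ^ 2
      ≤ (lt x w - (n - 1) * rcoth ‖w‖)
        * (lt (fl 1 (x, w)).1 (-(fl 1 (x, w)).2) - (n - 1) * rcoth ‖w‖)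

namespace HDataH

variable {n : ℕ} (H : HDataH n)

/-- excess mean curvature of the geodesic sphere about `x` through `Ex x w` -/
def ex (x w : Ev n) : ℝ := (H.lt x w - (n - 1) * rcoth ‖w‖) / ‖w‖

/-- normalised Jacobian (`= 1` in the model) -/
def Qn (x w : Ev n) : ℝ := H.th x w * (‖w‖ / Real.sinh ‖w‖) ^ (n - 1)

end HDataH

/-- A regularised certificate in curvature `-1` (variables `r, c, c'`). `Hm` is the mean curvature
of the model ball. -/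
structure KerH (n : ℕ) where
  η : ℝ → ℝ → ℝ
  ηr : ℝ → ℝ → ℝ
  ηc : ℝ → ℝ → ℝ
  smooth : ContDiff ℝ 1 (fun p : ℝ × ℝ => η p.1 p.2)
  deriv_r : ∀ r c, HasDerivAt (fun s => η s c) (ηr r c) r
  deriv_c : ∀ r c, HasDerivAt (fun s => η r s) (ηc r c) c
  δ : ℝ
  δ_pos : 0 < δ
  M : ℝ
  M_pos : 0 < M
  η_zero : ∀ r c, r ≤ δ → η r c = 0
  η_nonneg : ∀ r c, |c| ≤ 1 → 0 ≤ η r c
  η_le : ∀ r c, |c| ≤ 1 → η r c ≤ M
  ηr_le : ∀ r c, |c| ≤ 1 → |ηr r c| ≤ M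
  ηc_le : ∀ r c, |c| ≤ 1 → |ηc r c| ≤ M
  a : ℝ
  a_pos : 0 < a
  d : ℝ
  d_pos : 0 < d
  f : ℝ → ℝ
  f_cont : Continuous f
  f_nonneg : ∀ c, 0 ≤ f c
  K' : ℝ
  Hm : ℝ
  Hm_pos : 0 < Hm
  /-- compensation function -/
  h : ℝ → ℝ
  h_smooth : ContDiff ℝ 1 h
  h_nonneg : ∀ r, 0 ≤ r → 0 ≤ h r
  h_mono : ∀ r s, 0 ≤ r → r ≤ s → h r ≤ h s
  /-- `B ≥ 0` for mean curvature `0` -/
  B_zero : ∀ r c c', 0 < r → |c| ≤ 1 → |c'| ≤ 1 →
    0 ≤ a + ((ηr r c' * (1 - c ^ 2) + η r c' * (Real.cosh r / Real.sinh r) * (n - 2 + c ^ 2)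
        - |c| * |ηc r c'| * Real.sqrt ((1 - c ^ 2) * (1 - c' ^ 2)) / Real.sinh r)
      + (ηr r c * (1 - c' ^ 2) + η r c * (Real.cosh r / Real.sinh r) * (n - 2 + c' ^ 2)
        - |c'| * |ηc r c| * Real.sqrt ((1 - c' ^ 2) * (1 - c ^ 2)) / Real.sinh r)) / 2
  /-- (N1) the slope in the excess Jacobian -/
  B_slope : ∀ r c c', 0 < r → 0 ≤ c → c ≤ 1 → 0 ≤ c' → c' ≤ 1 →
    0 ≤ a + ((ηr r c' * (1 - c ^ 2) + η r c' * (Real.cosh r / Real.sinh r) * (n - 2 + c ^ 2)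
        - |c| * |ηc r c'| * Real.sqrt ((1 - c ^ 2) * (1 - c' ^ 2)) / Real.sinh r - Hm * c * η r c')
      + (ηr r c * (1 - c' ^ 2) + η r c * (Real.cosh r / Real.sinh r) * (n - 2 + c' ^ 2)
        - |c'| * |ηc r c| * Real.sqrt ((1 - c' ^ 2) * (1 - c ^ 2)) / Real.sinh r
        - Hm * c' * η r c)) / 2
      + c * c' * Real.sqrt (η r c * η r c') / Real.sinh r
  /-- (N4) visible pairs: `B ≥ -c h / sinh^(n-1)` -/
  B_comp : ∀ r c c', 0 < r → 0 ≤ c → c ≤ 1 → 0 ≤ c' → c' ≤ 1 →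
    -(c * h r) ≤ (a + ((ηr r c' * (1 - c ^ 2)
        + η r c' * (Real.cosh r / Real.sinh r) * (n - 2 + c ^ 2)
        - |c| * |ηc r c'| * Real.sqrt ((1 - c ^ 2) * (1 - c' ^ 2)) / Real.sinh r - Hm * c * η r c')
      + (ηr r c * (1 - c' ^ 2) + η r c * (Real.cosh r / Real.sinh r) * (n - 2 + c' ^ 2)
        - |c'| * |ηc r c| * Real.sqrt ((1 - c' ^ 2) * (1 - c ^ 2)) / Real.sinh r
        - Hm * c' * η r c)) / 2) * Real.sinh r ^ (n - 1)
  /-- (N4) compensating pairs -/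
  B_comp' : ∀ r γ c', 0 < r → 0 ≤ γ → γ ≤ 1 → 0 ≤ c' → c' ≤ 1 →
    γ * h r ≤ (a + ((ηr r c' * (1 - γ ^ 2)
        + η r c' * (Real.cosh r / Real.sinh r) * (n - 2 + γ ^ 2)
        - |γ| * |ηc r c'| * Real.sqrt ((1 - γ ^ 2) * (1 - c' ^ 2)) / Real.sinh r
        + Hm * γ * η r c')
      + (ηr r (-γ) * (1 - c' ^ 2) + η r (-γ) * (Real.cosh r / Real.sinh r) * (n - 2 + c' ^ 2)
        - |c'| * |ηc r (-γ)| * Real.sqrt ((1 - c' ^ 2) * (1 - γ ^ 2)) / Real.sinh r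
        - Hm * c' * η r (-γ))) / 2) * Real.sinh r ^ (n - 1)
  /-- (N2) the sharp lower bound for visible pairs -/
  B_lower : ∀ r c c', 0 < r → 0 < c → c ≤ 1 → 0 < c' → c' ≤ 1 →
    c * c' * (d * r - f c - f c') ≤
      (a + ((ηr r c' * (1 - c ^ 2) + η r c' * (Real.cosh r / Real.sinh r) * (n - 2 + c ^ 2)
        - |c| * |ηc r c'| * Real.sqrt ((1 - c ^ 2) * (1 - c' ^ 2)) / Real.sinh r - Hm * c * η r c')
      + (ηr r c * (1 - c' ^ 2) + η r c * (Real.cosh r / Real.sinh r) * (n - 2 + c' ^ 2)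
        - |c'| * |ηc r c| * Real.sqrt ((1 - c' ^ 2) * (1 - c ^ 2)) / Real.sinh r
        - Hm * c' * η r c)) / 2) * Real.sinh r ^ (n - 1)
  K'_bound : ∀ e : Ev n, ‖e‖ = 1 →
    ∫ ω : Metric.sphere (0 : Ev n) 1, |inner ℝ (ω : Ev n) e| * f |inner ℝ (ω : Ev n) e|
      ∂(volume : Measure (Ev n)).toSphere ≤ K'

namespace KerH

variable {n : ℕ} (k : KerH n)

/-- first variation kernel for mean curvature `0` -/
def gh (r c c' : ℝ) : ℝ :=
  k.ηr r c' * (1 - c ^ 2) + k.η r c' * (Real.cosh r / Real.sinh r) * (n - 2 + c ^ 2)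
    - |c| * |k.ηc r c'| * Real.sqrt ((1 - c ^ 2) * (1 - c' ^ 2)) / Real.sinh r

/-- first variation kernel for mean curvature `m` -/
def g (m r c c' : ℝ) : ℝ := k.gh r c c' - m * c * k.η r c'

/-- pair kernel for mean curvature `m` -/
def B (m r c c' : ℝ) : ℝ := k.a + (k.g m r c c' + k.g m r c' c) / 2

end KerH

end

end Vale.Agent.Lib.P219
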