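import Mathlib.LinearAlgebra.Trace
import Vale.Agent.Lib.P219.A.Basic

/-!
# P219, curvature `≤ -1`: the interface structure `HDataK`

`y = Ex x w`, `v = ve x w`, `r = ‖w‖ = ‖v‖`.  `Q x w ξ` is the covariant derivative at time `1` of
the Jacobi field `J` along `t ↦ Ex x (t w)` with `J 0 = 0`, `DJ 0 = ξ` (so `J 1 = P x w ξ`), all in
frames.  The Hessian of the distance function `d_x` at `y` is `(1/r) Q P⁻¹` on `v^⊥`.
-/

namespace Vale.Agent.Lib.P219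

open MeasureTheory Set Filter Topology

noncomputable section

structure HDataK (n : ℕ) extends HData n where
  Q : Ev n → Ev n → (Ev n →L[ℝ] Ev n)
  Q_cont : Continuous (fun p : Ev n × Ev n => Q p.1 p.2)
  /-- the radial direction -/
  Q_self : ∀ x w, Q x w w = (fl 1 (x, w)).2
  /-- Wronskian -/
  Q_symm : ∀ x w ξ ζ, inner ℝ (Q x w ξ) (P x w ζ) = inner ℝ (P x w ξ) (Q x w ζ)
  /-- derivative of the Gram form along rays -/
  P_deriv : ∀ x w ξ ζ, ∀ s : ℝ, 0 < s → HasDerivAt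
    (fun s => inner ℝ (P x (s • w) ξ) (P x (s • w) ζ))
    ((2 / s) * (inner ℝ (Q x (s • w) ξ) (P x (s • w) ζ)
      - inner ℝ (P x (s • w) ξ) (P x (s • w) ζ))) s
  /-- reversed geodesic: the adjoint -/
  P_adj : ∀ x w ξ ζ, inner ℝ (P x w ξ) ζ
    = inner ℝ ξ (P (fl 1 (x, w)).1 (-(fl 1 (x, w)).2) ζ)
  /-- Rauch comparison with curvature `-1` -/
  P_sinh : ∀ x w ξ, inner ℝ w ξ = 0 → Real.sinh ‖w‖ * ‖ξ‖ ≤ ‖w‖ * ‖P x w ξ‖
  /-- Hessian comparison with curvature `-1` -/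
  Q_coth : ∀ x w ξ, inner ℝ w ξ = 0 →
    ‖w‖ * Real.cosh ‖w‖ * ‖P x w ξ‖ ^ 2 ≤ Real.sinh ‖w‖ * inner ℝ (Q x w ξ) (P x w ξ)
  /-- index inequality: `O` is the parallel transport along the geodesic -/
  index : ∀ x w, ∃ O : Ev n ≃ₗᵢ[ℝ] Ev n, O w = (fl 1 (x, w)).2 ∧
    ∀ ξ ξ', inner ℝ w ξ = 0 → inner ℝ (fl 1 (x, w)).2 ξ' = 0 →
      ‖w‖ * (Real.cosh ‖w‖ * (‖P x w ξ‖ ^ 2 + ‖P (fl 1 (x, w)).1 (-(fl 1 (x, w)).2) ξ'‖ ^ 2)
        - 2 * inner ℝ (O (P (fl 1 (x, w)).1 (-(fl 1 (x, w)).2) ξ')) (P x w ξ))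
      ≤ Real.sinh ‖w‖ * (inner ℝ (Q x w ξ) (P x w ξ)
        + inner ℝ (Q (fl 1 (x, w)).1 (-(fl 1 (x, w)).2) ξ')
            (P (fl 1 (x, w)).1 (-(fl 1 (x, w)).2) ξ')
        - 2 * inner ℝ ξ (P (fl 1 (x, w)).1 (-(fl 1 (x, w)).2) ξ'))

namespace HDataK

variable {n : ℕ} (H : HDataK n)

/-- the operator `Q P⁻¹` at `y` (`r` times the Hessian of the distance on `v^⊥`, identity on `v`) -/
def M (x w : Ev n) : Ev n →L[ℝ] Ev n := (H.Q x w).comp (Ring.inverse (H.P x w))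

/-- `r` times the mean curvature at `y` of the geodesic sphere about `x`
(`(n - 1) r coth r` in curvature `-1`) -/
def lt (x w : Ev n) : ℝ := LinearMap.trace ℝ (Ev n) (H.M x w) - 1

end HDataK

end

end Vale.Agent.Lib.P219
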