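import Mathlib.Analysis.InnerProductSpace.Orientation
import Mathlib.Analysis.InnerProductSpace.Trace
import Vale.Agent.Lib.P219.Defs

/-!
# P219: trace and determinant of a contraction

Let `e_i` be an orthonormal eigenbasis of the symmetric operator `Cᵀ C` (`0 ≤ Cᵀ C ≤ 1`), with
eigenvalues `λ_i = σ_i²`, `σ_i = ‖C e_i‖ ∈ [0,1]`.  Then `tr C = Σ ⟨C e_i, e_i⟩ ≤ Σ σ_i`,
`(det C)² = det (Cᵀ C) = Π λ_i`, so `|det C| = Π σ_i`, and `Σ σ_i ≤ (n-1) + Π σ_i` for `σ_i ∈ [0,1]`
(induction: `a + b ≤ 1 + a b`).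
-/

namespace Vale.Agent.Lib.P219.LA

open Finset

theorem sum_le_prod {ι : Type*} (s : Finset ι) (σ : ι → ℝ) (h0 : ∀ i ∈ s, 0 ≤ σ i)
    (h1 : ∀ i ∈ s, σ i ≤ 1) : ∑ i ∈ s, σ i ≤ (s.card : ℝ) - 1 + ∏ i ∈ s, σ i := by
  classical
  induction s using Finset.induction_on with
  | empty => simp
  | insert a s ha ih =>
    have ih' := ih (fun i hi => h0 i (Finset.mem_insert_of_mem hi))
      (fun i hi => h1 i (Finset.mem_insert_of_mem hi))
    rw [Finset.sum_insert ha, Finset.prod_insert ha, Finset.card_insert_of_notMem ha]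
    have hP : ∏ i ∈ s, σ i ≤ 1 := Finset.prod_le_one
      (fun i hi => h0 i (Finset.mem_insert_of_mem hi))
      (fun i hi => h1 i (Finset.mem_insert_of_mem hi))
    have ha1 := h1 a (Finset.mem_insert_self a s)
    push_cast
    nlinarith [mul_nonneg (sub_nonneg.2 ha1) (sub_nonneg.2 hP)]

/-- equality in Hadamard's inequality when the images of an orthonormal basis are orthogonal -/
private theorem abs_det_eq_prod {n : ℕ} (A : Ev n →L[ℝ] Ev n)
    (b : OrthonormalBasis (Fin n) ℝ (Ev n))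
    (hb : Pairwise fun i j => inner ℝ (A (b i)) (A (b j)) = 0) :
    |A.det| = ∏ i, ‖A (b i)‖ := by
  have : Fact (Module.finrank ℝ (Ev n) = n) := ⟨by simp⟩
  have h := (b.toBasis.orientation).abs_volumeForm_apply_of_pairwise_orthogonal
    (v := fun i => A (b i)) hb
  rw [(b.toBasis.orientation).volumeForm_robust' b] at h
  have e : b.toBasis.det (fun i => A (b i)) = A.det := by
    have := b.toBasis.det_comp (A : Ev n →ₗ[ℝ] Ev n) b.toBasis
    rw [Module.Basis.det_self, mul_one] at this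
    have e2 : (fun i => A (b i)) = (A : Ev n →ₗ[ℝ] Ev n) ∘ (b.toBasis : Fin n → Ev n) := by
      funext i
      simp
    rw [e2, this]
  rwa [e] at h

/-- an orthonormal basis with pairwise orthogonal images -/
private theorem exists_basis {n : ℕ} (C : Ev n →L[ℝ] Ev n) :
    ∃ b : OrthonormalBasis (Fin n) ℝ (Ev n),
      Pairwise fun i j => inner ℝ (C (b i)) (C (b j)) = 0 := by
  set T : Ev n →ₗ[ℝ] Ev n :=
    (LinearMap.adjoint (C : Ev n →ₗ[ℝ] Ev n)) ∘ₗ (C : Ev n →ₗ[ℝ] Ev n) with hT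
  have hTs : T.IsSymmetric := by
    intro x y
    rw [hT, LinearMap.comp_apply, LinearMap.comp_apply, LinearMap.adjoint_inner_left,
      LinearMap.adjoint_inner_right]
  have hn : Module.finrank ℝ (Ev n) = n := by simp
  refine ⟨hTs.eigenvectorBasis hn, ?_⟩
  intro i j hij
  have h0 : ∀ x y : Ev n, inner ℝ (T x) y = inner ℝ (C x) (C y) := by
    intro x y
    rw [hT, LinearMap.comp_apply, LinearMap.adjoint_inner_left]
    rfl
  have h1 := h0 (hTs.eigenvectorBasis hn i) (hTs.eigenvectorBasis hn j)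
  rw [← h1, hTs.apply_eigenvectorBasis, inner_smul_left]
  rw [(hTs.eigenvectorBasis hn).orthonormal.2 hij, mul_zero]

theorem trace_le {n : ℕ} (C : Ev n →L[ℝ] Ev n) (hC : ∀ ξ, ‖C ξ‖ ≤ ‖ξ‖) :
    LinearMap.trace ℝ (Ev n) C ≤ (n : ℝ) - 1 + |C.det| := by
  obtain ⟨b, hb⟩ := exists_basis C
  rw [abs_det_eq_prod C b hb, LinearMap.trace_eq_sum_inner _ b]
  have hnorm : ∀ i, ‖C (b i)‖ ≤ 1 := by
    intro i
    refine (hC _).trans ?_
    rw [b.orthonormal.1]
  have h1 : ∑ i, inner ℝ (b i) ((C : Ev n →ₗ[ℝ] Ev n) (b i)) ≤ ∑ i, ‖C (b i)‖ := by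
    refine Finset.sum_le_sum fun i _ => ?_
    refine (real_inner_le_norm _ _).trans ?_
    rw [b.orthonormal.1, one_mul]
    rfl
  refine h1.trans ?_
  have h2 := sum_le_prod (Finset.univ : Finset (Fin n)) (fun i => ‖C (b i)‖)
    (fun i _ => norm_nonneg _) (fun i _ => hnorm i)
  simpa using h2

end Vale.Agent.Lib.P219.LA
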