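import Mathlib.Algebra.Order.Archimedean.Real.Hom
import Mathlib.Algebra.Ring.IsFormallyReal
import Mathlib.Analysis.SpecialFunctions.Trigonometric.DerivHyp
import Vale.Agent.Lib.P219.K.Defs
import Vale.Agent.Lib.P219.K.DefsK
import Vale.Agent.Lib.P219.K.TraceDet

/-!
# P219, curvature `≤ -1`: comparison and coupling of the two Hessians

Notation: `r = ‖w‖ > 0`, `y = Ex x w`, `v = ve x w`, `P = P x w`, `P' = P y (-v) = Pᵀ` (`P_adj`), `M = Q P⁻¹`,
`M' = Q' P'⁻¹`.  `P w = v` (`P_self`), so `M v = v` (`Q_self`), `M' w = w`; `M`, `M'` are symmetric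
(`Q_symm`); `P` maps `w^⊥` onto `v^⊥` (Gauss lemma).  `N = M - r coth r ≥ 0` on `v^⊥` (`Q_coth`), and
`tr_{v^⊥} N = lt x w - (n-1) r coth r =: α`, similarly `β` for `N'` on `w^⊥`.

Coupling: `index` with `a = t⁻¹ e_i`, `b = - t O e_i` (`e_i` an orthonormal basis of `w^⊥`,
`ξ = P⁻¹ b`, `ξ' = P'⁻¹ a`), summed over `i`:
`t² α + t⁻² β ≥ 2 ((n-1) r/sinh r - tr_{w^⊥}(P⁻¹ O))`.  `C = (sinh r/r) P⁻¹ O` on `w^⊥`, `C w = w` is a
contraction (`P_sinh`), `|det C| = (sinh r/r)^{n-1}/th`, `tr C = 1 + (sinh r/r) tr_{w^⊥}(P⁻¹ O)`, so by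
`LA.trace_le` the right side is `≥ 2 (r/sinh r)(1 - (sinh r/r)^{n-1}/th)`.
`couple`: take `t² = √β/√α` (if `α = 0` or `β = 0` let `t → ∞` or `t → 0`), and `th_ge`.
-/

namespace Vale.Agent.Lib.P219

open MeasureTheory Set Filter Topology

private theorem exists_onb {m : ℕ} (e : Ev (m + 1)) (he : ‖e‖ = 1) :
    ∃ b : OrthonormalBasis (Fin (m + 1)) ℝ (Ev (m + 1)), b 0 = e := by
  have hon : Orthonormal ℝ (({0} : Set (Fin (m + 1))).domRestrict
      (fun _ : Fin (m + 1) => e)) := by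
    constructor
    · intro i
      exact he
    · intro i j hij
      exact absurd (Subsingleton.elim i j) hij
  obtain ⟨b, hb⟩ := hon.exists_orthonormalBasis_extension_of_card_eq (by simp)
  exact ⟨b, hb 0 (by simp)⟩

private theorem norm_unit {n : ℕ} (w : Ev n) (hw : w ≠ 0) : ‖‖w‖⁻¹ • w‖ = 1 := by
  rw [norm_smul, norm_inv, norm_norm, inv_mul_cancel₀ (norm_pos_iff.mpr hw).ne']

private theorem trace_nonneg_of_psd {n : ℕ} (T : Ev n →ₗ[ℝ] Ev n)
    (hT : ∀ a, 0 ≤ inner ℝ (T a) a) : 0 ≤ LinearMap.trace ℝ (Ev n) T := by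
  rw [LinearMap.trace_eq_sum_inner T (EuclideanSpace.basisFun (Fin n) ℝ)]
  refine Finset.sum_nonneg (fun i _ => ?_)
  rw [real_inner_comm]
  exact hT _

private theorem psd_le {n : ℕ} (T : Ev n →ₗ[ℝ] Ev n) (hT : ∀ a, 0 ≤ inner ℝ (T a) a)
    (u : Ev n) : inner ℝ (T u) u ≤ ‖u‖ ^ 2 * LinearMap.trace ℝ (Ev n) T := by
  by_cases hu : u = 0
  · subst hu; simp
  have hn : 0 < ‖u‖ := norm_pos_iff.mpr hu
  obtain ⟨m, rfl⟩ : ∃ m, n = m + 1 := by
    rcases n with - | m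
    · exact absurd (Subsingleton.elim u 0) hu
    · exact ⟨m, rfl⟩
  obtain ⟨b, hb⟩ := exists_onb (‖u‖⁻¹ • u) (norm_unit u hu)
  have h1 : inner ℝ (b 0) (T (b 0)) ≤ LinearMap.trace ℝ _ T := by
    rw [LinearMap.trace_eq_sum_inner T b]
    refine Finset.single_le_sum (f := fun i => inner ℝ (b i) (T (b i))) (fun i _ => ?_)
      (Finset.mem_univ 0)
    change 0 ≤ inner ℝ (b i) (T (b i))
    rw [real_inner_comm]
    exact hT _
  rw [hb, map_smul, real_inner_smul_left, real_inner_smul_right, real_inner_comm] at h1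
  have h2 : inner ℝ (T u) u = ‖u‖ ^ 2 * (‖u‖⁻¹ * (‖u‖⁻¹ * inner ℝ (T u) u)) := by
    field_simp
  rw [h2]
  exact mul_le_mul_of_nonneg_left h1 (by positivity)

/-- scaling by `s` on the orthogonal complement of `w` -/
private noncomputable def Dop {n : ℕ} (s : ℝ) (w : Ev n) : Ev n →L[ℝ] Ev n :=
  s • ContinuousLinearMap.id ℝ (Ev n) + ((1 - s) / ‖w‖ ^ 2) • (innerSL ℝ w).smulRight w

private theorem Dop_apply {n : ℕ} (s : ℝ) (w a : Ev n) :
    Dop s w a = s • a + ((1 - s) / ‖w‖ ^ 2 * inner ℝ w a) • w := by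
  simp [Dop, smul_smul]

private theorem Dop_self {n : ℕ} (s : ℝ) (w : Ev n) (hw : w ≠ 0) : Dop s w w = w := by
  have hn : ‖w‖ ≠ 0 := (norm_pos_iff.mpr hw).ne'
  rw [Dop_apply, real_inner_self_eq_norm_sq, div_mul_cancel₀ _ (pow_ne_zero 2 hn), ← add_smul]
  simp

private theorem Dop_perp {n : ℕ} (s : ℝ) (w a : Ev n) (h : inner ℝ w a = 0) :
    Dop s w a = s • a := by
  rw [Dop_apply, h]
  simp

private theorem det_Dop {m : ℕ} (s : ℝ) (w : Ev (m + 1)) (hw : w ≠ 0) :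
    (Dop s w).det = s ^ m := by
  obtain ⟨b, hb⟩ := exists_onb (‖w‖⁻¹ • w) (norm_unit w hw)
  have hw0 : ‖w‖ ≠ 0 := (norm_pos_iff.mpr hw).ne'
  have hwb : w = ‖w‖ • b 0 := by
    rw [hb, smul_smul, mul_inv_cancel₀ hw0, one_smul]
  have h0 : Dop s w (b 0) = b 0 := by
    rw [hb, map_smul, Dop_self s w hw]
  have hs : ∀ i : Fin m, Dop s w (b i.succ) = s • b i.succ := by
    intro i
    apply Dop_perp
    rw [hwb, real_inner_smul_left, b.orthonormal.2 (Fin.succ_ne_zero i).symm, mul_zero]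
  have e : b.toBasis.det (fun i => Dop s w (b i)) = (Dop s w).det := by
    have := b.toBasis.det_comp (Dop s w : Ev (m + 1) →ₗ[ℝ] Ev (m + 1)) b.toBasis
    rw [Module.Basis.det_self, mul_one] at this
    have e2 : (fun i => Dop s w (b i)) = (Dop s w : Ev (m + 1) →ₗ[ℝ] Ev (m + 1)) ∘
        (b.toBasis : Fin (m + 1) → Ev (m + 1)) := by
      funext i
      simp
    rw [e2, this]
  rw [← e]
  have e3 : (fun i => Dop s w (b i)) = fun i => (Fin.cons 1 (fun _ => s) : Fin (m + 1) → ℝ) i •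
      b.toBasis i := by
    funext i
    refine Fin.cases ?_ (fun j => ?_) i
    · rw [h0]; simp
    · rw [hs]; simp
  rw [e3, AlternatingMap.map_smul_univ, Module.Basis.det_self, Fin.prod_univ_succ]
  simp

namespace HDataK

variable {n : ℕ} (H : HDataK n)

private theorem sinh_pos' {w : Ev n} (hw : w ≠ 0) : 0 < Real.sinh ‖w‖ :=
  Real.sinh_pos_iff.mpr (norm_pos_iff.mpr hw)

private theorem Dop_le (x w : Ev n) (hw : w ≠ 0) (ζ : Ev n) :
    ‖Dop (Real.sinh ‖w‖ / ‖w‖) w ζ‖ ≤ ‖H.P x w ζ‖ := by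
  have hr : 0 < ‖w‖ := norm_pos_iff.mpr hw
  set α : ℝ := inner ℝ w ζ / ‖w‖ ^ 2 with hα
  set u : Ev n := ζ - α • w with hu
  have hζ : ζ = α • w + u := by rw [hu]; abel
  have hwu : inner ℝ w u = 0 := by
    rw [hu, inner_sub_right, real_inner_smul_right, real_inner_self_eq_norm_sq, hα,
      div_mul_cancel₀ _ (pow_ne_zero 2 hr.ne'), sub_self]
  have h1 : Dop (Real.sinh ‖w‖ / ‖w‖) w ζ = α • w + (Real.sinh ‖w‖ / ‖w‖) • u := by
    conv_lhs => rw [hζ]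
    rw [map_add, map_smul, Dop_self _ w hw, Dop_perp _ w u hwu]
  have h2 : H.P x w ζ = α • H.ve x w + H.P x w u := by
    conv_lhs => rw [hζ]
    rw [map_add, map_smul, H.P_self]
  have h3 : inner ℝ (H.ve x w) (H.P x w u) = 0 := by
    have := H.P_gauss x w u
    rw [hwu] at this
    exact this
  have h4 := H.P_sinh x w u hwu
  have h5 : ‖Dop (Real.sinh ‖w‖ / ‖w‖) w ζ‖ ^ 2 = α ^ 2 * ‖w‖ ^ 2 +
      (Real.sinh ‖w‖ / ‖w‖ * ‖u‖) ^ 2 := by
    rw [h1, norm_add_sq_real, real_inner_smul_left, real_inner_smul_right, hwu, norm_smul,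
      norm_smul, mul_pow, mul_pow, mul_pow]
    simp only [Real.norm_eq_abs, sq_abs]
    ring
  have h6 : ‖H.P x w ζ‖ ^ 2 = α ^ 2 * ‖w‖ ^ 2 + ‖H.P x w u‖ ^ 2 := by
    rw [h2, norm_add_sq_real, real_inner_smul_left, h3, norm_smul, mul_pow, H.norm_ve]
    simp only [Real.norm_eq_abs, sq_abs]
    ring
  have h7 : Real.sinh ‖w‖ / ‖w‖ * ‖u‖ ≤ ‖H.P x w u‖ := by
    rw [div_mul_eq_mul_div, div_le_iff₀ hr]
    linarith
  have h8 : 0 ≤ Real.sinh ‖w‖ / ‖w‖ * ‖u‖ := by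
    have := sinh_pos' hw
    positivity
  refine le_of_sq_le_sq ?_ (norm_nonneg _)
  rw [h5, h6]
  have := pow_le_pow_left₀ h8 h7 2
  linarith

/-- `|det P| ≥ (sinh r / r)^{n-1}` -/
theorem th_ge (hn : 1 ≤ n) (x w : Ev n) (hw : w ≠ 0) :
    (Real.sinh ‖w‖ / ‖w‖) ^ (n - 1) ≤ H.th x w := by
  obtain ⟨m, rfl⟩ : ∃ m, n = m + 1 := ⟨n - 1, by omega⟩
  have h := LA.abs_det_mono _ _ (H.Dop_le x w hw)
  rw [det_Dop _ w hw] at h
  have hs := sinh_pos' hw
  have hr : 0 < ‖w‖ := norm_pos_iff.mpr hw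
  rw [abs_of_nonneg (by positivity)] at h
  exact h

private theorem P_isUnit (x w : Ev n) : IsUnit (H.P x w) := by
  have hinj : Function.Injective (H.P x w) := by
    intro a b hab
    have h1 := H.norm_le_P x w (a - b)
    rw [map_sub, hab, sub_self, norm_zero] at h1
    exact sub_eq_zero.mp (norm_le_zero_iff.mp h1)
  rw [ContinuousLinearMap.isUnit_iff_bijective]
  refine ⟨hinj, ?_⟩
  have hinj' : Function.Injective (H.P x w : Ev n →ₗ[ℝ] Ev n) := hinj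
  exact LinearMap.injective_iff_surjective.mp hinj'

private theorem P_inv (x w a : Ev n) : H.P x w (Ring.inverse (H.P x w) a) = a := by
  have h := Ring.mul_inverse_cancel _ (H.P_isUnit x w)
  exact congrArg (fun (f : Ev n →L[ℝ] Ev n) => f a) h

private theorem inv_P (x w a : Ev n) : Ring.inverse (H.P x w) (H.P x w a) = a := by
  have h := Ring.inverse_mul_cancel _ (H.P_isUnit x w)
  exact congrArg (fun (f : Ev n →L[ℝ] Ev n) => f a) h

private theorem M_P (x w ξ : Ev n) : H.M x w (H.P x w ξ) = H.Q x w ξ := by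
  change H.Q x w (Ring.inverse (H.P x w) (H.P x w ξ)) = _
  rw [inv_P]

private theorem M_ve (x w : Ev n) : H.M x w (H.ve x w) = H.ve x w := by
  rw [← H.P_self x w, M_P, H.P_self]
  exact H.Q_self x w

private theorem M_symm (x w a b : Ev n) :
    inner ℝ (H.M x w a) b = inner ℝ a (H.M x w b) := by
  rw [← H.P_inv x w a, ← H.P_inv x w b, M_P, M_P]
  exact H.Q_symm x w _ _

private theorem inner_inv (x w a : Ev n) (h : inner ℝ (H.ve x w) a = 0) :
    inner ℝ w (Ring.inverse (H.P x w) a) = 0 := by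
  rw [← H.P_gauss x w, P_inv]
  exact h

private theorem M_coth (x w a : Ev n) (h : inner ℝ (H.ve x w) a = 0) :
    ‖w‖ * Real.cosh ‖w‖ * ‖a‖ ^ 2 ≤ Real.sinh ‖w‖ * inner ℝ (H.M x w a) a := by
  have h1 := H.Q_coth x w _ (H.inner_inv x w a h)
  rw [P_inv, ← M_P, P_inv] at h1
  exact h1

/-- the constant `r coth r` -/
private noncomputable def kap (r : ℝ) : ℝ := r * Real.cosh r / Real.sinh r

/-- the operator `N` extended by zero -/
private noncomputable def T (x w : Ev n) : Ev n →L[ℝ] Ev n :=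
  H.M x w - kap ‖w‖ • ContinuousLinearMap.id ℝ (Ev n) +
    ((kap ‖w‖ - 1) / ‖w‖ ^ 2) • (innerSL ℝ (H.ve x w)).smulRight (H.ve x w)

private theorem T_apply (x w a : Ev n) : H.T x w a = H.M x w a - kap ‖w‖ • a +
    ((kap ‖w‖ - 1) / ‖w‖ ^ 2 * inner ℝ (H.ve x w) a) • H.ve x w := by
  simp [T, smul_smul]

private theorem T_ve (x w : Ev n) (hw : w ≠ 0) : H.T x w (H.ve x w) = 0 := by
  have hn : ‖w‖ ≠ 0 := (norm_pos_iff.mpr hw).ne'
  rw [T_apply, M_ve, real_inner_self_eq_norm_sq, H.norm_ve, div_mul_cancel₀ _ (pow_ne_zero 2 hn),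
    sub_smul]
  simp

private theorem T_symm (x w a b : Ev n) :
    inner ℝ (H.T x w a) b = inner ℝ a (H.T x w b) := by
  rw [T_apply, T_apply, inner_add_left, inner_add_right, inner_sub_left, inner_sub_right,
    M_symm, real_inner_smul_left, real_inner_smul_left, real_inner_smul_right,
    real_inner_smul_right, real_inner_comm (H.ve x w) a]
  ring

private theorem T_perp (x w a : Ev n) (h : inner ℝ (H.ve x w) a = 0) :
    inner ℝ (H.T x w a) a = inner ℝ (H.M x w a) a - kap ‖w‖ * ‖a‖ ^ 2 := by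
  rw [T_apply, h, mul_zero, zero_smul, add_zero, inner_sub_left, real_inner_smul_left,
    real_inner_self_eq_norm_sq]

private theorem T_perp_nonneg (x w a : Ev n) (hw : w ≠ 0) (h : inner ℝ (H.ve x w) a = 0) :
    0 ≤ inner ℝ (H.T x w a) a := by
  rw [T_perp H x w a h, kap]
  have h1 := H.M_coth x w a h
  have hs := sinh_pos' hw
  rw [sub_nonneg, div_mul_eq_mul_div, div_le_iff₀ hs]
  linarith

/-- decomposition along `v` -/
private theorem T_quad (x w a : Ev n) (hw : w ≠ 0) :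
    ∃ u : Ev n, inner ℝ (H.ve x w) u = 0 ∧
      ‖u‖ ^ 2 = ‖a‖ ^ 2 - (inner ℝ a (H.ve x w) / ‖w‖) ^ 2 ∧
      inner ℝ (H.T x w a) a = inner ℝ (H.T x w u) u := by
  have hr : 0 < ‖w‖ := norm_pos_iff.mpr hw
  set v := H.ve x w with hv
  have hvr : ‖v‖ = ‖w‖ := H.norm_ve x w
  set α : ℝ := inner ℝ v a / ‖w‖ ^ 2 with hα
  set u : Ev n := a - α • v with hu
  have ha : a = α • v + u := by rw [hu]; abel
  have hvu : inner ℝ v u = 0 := by
    rw [hu, inner_sub_right, real_inner_smul_right, real_inner_self_eq_norm_sq, hvr, hα,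
      div_mul_cancel₀ _ (pow_ne_zero 2 hr.ne'), sub_self]
  refine ⟨u, hvu, ?_, ?_⟩
  · have h1 : ‖a‖ ^ 2 = α ^ 2 * ‖w‖ ^ 2 + ‖u‖ ^ 2 := by
      conv_lhs => rw [ha]
      rw [norm_add_sq_real, real_inner_smul_left, hvu, norm_smul, mul_pow, hvr]
      simp only [Real.norm_eq_abs, sq_abs]
      ring
    have h2 : (inner ℝ a v / ‖w‖) ^ 2 = α ^ 2 * ‖w‖ ^ 2 := by
      rw [hα, real_inner_comm v a]
      field_simp
    rw [h2, h1]; ring
  · have h0 : H.T x w v = 0 := H.T_ve x w hw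
    conv_lhs => rw [ha]
    rw [map_add, map_smul, h0, smul_zero, zero_add, inner_add_right, real_inner_smul_right,
      T_symm, h0, inner_zero_right, mul_zero, zero_add]

private theorem T_psd (x w a : Ev n) (hw : w ≠ 0) : 0 ≤ inner ℝ (H.T x w a) a := by
  obtain ⟨u, h1, -, h3⟩ := H.T_quad x w a hw
  rw [h3]
  exact H.T_perp_nonneg x w u hw h1

private theorem trace_T (x w : Ev n) (hw : w ≠ 0) :
    LinearMap.trace ℝ (Ev n) (H.T x w) =
      LinearMap.trace ℝ (Ev n) (H.M x w) - kap ‖w‖ * n + (kap ‖w‖ - 1) := by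
  have hr : 0 < ‖w‖ := norm_pos_iff.mpr hw
  have h1 : ((H.T x w : Ev n →L[ℝ] Ev n) : Ev n →ₗ[ℝ] Ev n) =
      (H.M x w : Ev n →ₗ[ℝ] Ev n) - kap ‖w‖ • LinearMap.id +
      ((kap ‖w‖ - 1) / ‖w‖ ^ 2) •
        (((innerSL ℝ (H.ve x w)).smulRight (H.ve x w) : Ev n →L[ℝ] Ev n) : Ev n →ₗ[ℝ] Ev n) := by
    ext1 a
    simp [T]
  have h2 : LinearMap.trace ℝ (Ev n)
      (((innerSL ℝ (H.ve x w)).smulRight (H.ve x w) : Ev n →L[ℝ] Ev n) : Ev n →ₗ[ℝ] Ev n)
      = ‖w‖ ^ 2 := by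
    rw [LinearMap.trace_eq_sum_inner _ (EuclideanSpace.basisFun (Fin n) ℝ), ← H.norm_ve x w,
      ← (EuclideanSpace.basisFun (Fin n) ℝ).sum_sq_inner_left (H.ve x w)]
    refine Finset.sum_congr rfl (fun i _ => ?_)
    simp only [ContinuousLinearMap.coe_coe, ContinuousLinearMap.smulRight_apply,
      innerSL_apply_apply, real_inner_smul_right]
    rw [real_inner_comm (H.ve x w)]
    ring
  rw [h1, map_add, map_sub, map_smul, map_smul, h2, LinearMap.trace_id]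
  simp only [finrank_euclideanSpace, Fintype.card_fin, smul_eq_mul]
  field_simp

private theorem trace_T_lt (hn : 1 ≤ n) (x w : Ev n) (hw : w ≠ 0) :
    LinearMap.trace ℝ (Ev n) (H.T x w) = H.lt x w - (n - 1) * rcoth ‖w‖ := by
  rw [H.trace_T x w hw, lt]
  change _ = _ - _ * kap ‖w‖
  ring

theorem lt_ge (hn : 1 ≤ n) (x w : Ev n) (hw : w ≠ 0) :
    (n - 1) * rcoth ‖w‖ ≤ H.lt x w := by
  have h1 := trace_nonneg_of_psd (H.T x w : Ev n →ₗ[ℝ] Ev n) (fun a => H.T_psd x w a hw)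
  rw [H.trace_T_lt hn x w hw] at h1
  linarith

private theorem neg_ve_ne (x w : Ev n) (hw : w ≠ 0) : -(H.ve x w) ≠ 0 := by
  rw [Ne, neg_eq_zero, ← norm_eq_zero, H.norm_ve, norm_eq_zero]
  exact hw

private theorem norm_neg_ve (x w : Ev n) : ‖-(H.ve x w)‖ = ‖w‖ := by
  rw [norm_neg, H.norm_ve]

/-- the index inequality in terms of `T`, `T'` -/
private theorem key (x w : Ev n) (hw : w ≠ 0) : ∃ O : Ev n ≃ₗᵢ[ℝ] Ev n, O w = H.ve x w ∧
    ∀ a b, inner ℝ w a = 0 → inner ℝ (H.ve x w) b = 0 →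
      2 * inner ℝ (Ring.inverse (H.P x w) b) a - 2 * (‖w‖ / Real.sinh ‖w‖) * inner ℝ (O a) b ≤
        inner ℝ (H.T x w b) b + inner ℝ (H.T (H.Ex x w) (-(H.ve x w)) a) a := by
  obtain ⟨O, hO, hI⟩ := H.index x w
  refine ⟨O, hO, fun a b ha hb => ?_⟩
  have hs := sinh_pos' hw
  have hve : H.ve (H.Ex x w) (-(H.ve x w)) = -w := H.ve_reverse x w
  have ha' : inner ℝ (H.ve (H.Ex x w) (-(H.ve x w))) a = 0 := by
    rw [hve, inner_neg_left, ha, neg_zero]
  have h1 := H.inner_inv x w b hb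
  have h2 : inner ℝ (H.ve x w)
      (Ring.inverse (H.P (H.Ex x w) (-(H.ve x w))) a) = 0 := by
    have := H.inner_inv (H.Ex x w) (-(H.ve x w)) a ha'
    rw [inner_neg_left, neg_eq_zero] at this
    exact this
  have h3 := hI _ _ h1 h2
  change ‖w‖ * (Real.cosh ‖w‖ * (‖H.P x w (Ring.inverse (H.P x w) b)‖ ^ 2 +
    ‖H.P (H.Ex x w) (-(H.ve x w)) (Ring.inverse (H.P (H.Ex x w) (-(H.ve x w))) a)‖ ^ 2)
    - 2 * inner ℝ (O (H.P (H.Ex x w) (-(H.ve x w))
      (Ring.inverse (H.P (H.Ex x w) (-(H.ve x w))) a)))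
        (H.P x w (Ring.inverse (H.P x w) b))) ≤ Real.sinh ‖w‖ * (inner ℝ (H.M x w b)
          (H.P x w (Ring.inverse (H.P x w) b)) + inner ℝ (H.M (H.Ex x w) (-(H.ve x w)) a)
          (H.P (H.Ex x w) (-(H.ve x w)) (Ring.inverse (H.P (H.Ex x w) (-(H.ve x w))) a))
          - 2 * inner ℝ (Ring.inverse (H.P x w) b)
            (H.P (H.Ex x w) (-(H.ve x w)) (Ring.inverse (H.P (H.Ex x w) (-(H.ve x w))) a)))
    at h3
  rw [P_inv, P_inv] at h3
  rw [T_perp H x w b hb, T_perp H _ _ a ha', norm_neg_ve, kap]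
  have h4 : 2 * inner ℝ (Ring.inverse (H.P x w) b) a -
      2 * (‖w‖ / Real.sinh ‖w‖) * inner ℝ (O a) b =
      (2 * Real.sinh ‖w‖ * inner ℝ (Ring.inverse (H.P x w) b) a - 2 * ‖w‖ * inner ℝ (O a) b) /
        Real.sinh ‖w‖ := by
    field_simp
  have h5 : inner ℝ (H.M x w b) b - ‖w‖ * Real.cosh ‖w‖ / Real.sinh ‖w‖ * ‖b‖ ^ 2 +
      (inner ℝ (H.M (H.Ex x w) (-(H.ve x w)) a) a -
        ‖w‖ * Real.cosh ‖w‖ / Real.sinh ‖w‖ * ‖a‖ ^ 2) =
      (Real.sinh ‖w‖ * (inner ℝ (H.M x w b) b + inner ℝ (H.M (H.Ex x w) (-(H.ve x w)) a) a) -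
        ‖w‖ * Real.cosh ‖w‖ * (‖b‖ ^ 2 + ‖a‖ ^ 2)) / Real.sinh ‖w‖ := by
    field_simp
    ring
  rw [h4, h5]
  refine div_le_div_of_nonneg_right ?_ hs.le
  linarith

/-- the coupled trace inequality -/
private theorem coupled {m : ℕ} (H : HDataK (m + 1)) (x w : Ev (m + 1)) (hw : w ≠ 0) (t : ℝ)
    (ht : 0 < t) :
    2 * (‖w‖ / Real.sinh ‖w‖) * (1 - (Real.sinh ‖w‖ / ‖w‖) ^ m / H.th x w) ≤
      t ^ 2 * LinearMap.trace ℝ (Ev (m + 1)) (H.T x w) +
      (t ^ 2)⁻¹ * LinearMap.trace ℝ (Ev (m + 1)) (H.T (H.Ex x w) (-(H.ve x w))) := by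
  have hr : 0 < ‖w‖ := norm_pos_iff.mpr hw
  have hs := sinh_pos' hw
  obtain ⟨O, hO, hK⟩ := H.key x w hw
  obtain ⟨e, he⟩ := exists_onb (‖w‖⁻¹ • w) (norm_unit w hw)
  have hwe : w = ‖w‖ • e 0 := by
    rw [he, smul_smul, mul_inv_cancel₀ hr.ne', one_smul]
  have hwi : ∀ i : Fin m, inner ℝ w (e i.succ) = 0 := by
    intro i
    rw [hwe, real_inner_smul_left, e.orthonormal.2 (Fin.succ_ne_zero i).symm, mul_zero]
  have hvi : ∀ i : Fin m, inner ℝ (H.ve x w) (O (e i.succ)) = 0 := by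
    intro i
    rw [← hO, O.inner_map_map]
    exact hwi i
  -- traces
  have htr1 : LinearMap.trace ℝ (Ev (m + 1)) (H.T x w) =
      ∑ i : Fin m, inner ℝ (H.T x w (O (e i.succ))) (O (e i.succ)) := by
    rw [LinearMap.trace_eq_sum_inner _ (e.map O), Fin.sum_univ_succ]
    have h0 : H.T x w (O (e 0)) = 0 := by
      rw [he, map_smul, hO, map_smul, H.T_ve x w hw, smul_zero]
    have h1 : inner ℝ ((e.map O) 0) ((H.T x w : Ev (m + 1) →ₗ[ℝ] Ev (m + 1)) ((e.map O) 0)) = 0 := by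
      rw [OrthonormalBasis.map_apply]
      change inner ℝ (O (e 0)) (H.T x w (O (e 0))) = 0
      rw [h0, inner_zero_right]
    rw [h1, zero_add]
    refine Finset.sum_congr rfl (fun i _ => ?_)
    rw [OrthonormalBasis.map_apply, real_inner_comm]
    rfl
  have htr2 : LinearMap.trace ℝ (Ev (m + 1)) (H.T (H.Ex x w) (-(H.ve x w))) =
      ∑ i : Fin m, inner ℝ (H.T (H.Ex x w) (-(H.ve x w)) (e i.succ)) (e i.succ) := by
    rw [LinearMap.trace_eq_sum_inner _ e, Fin.sum_univ_succ]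
    have h0 : H.T (H.Ex x w) (-(H.ve x w)) w = 0 := by
      have := H.T_ve (H.Ex x w) (-(H.ve x w)) (H.neg_ve_ne x w hw)
      rw [H.ve_reverse, map_neg, neg_eq_zero] at this
      exact this
    have h1 : inner ℝ (e 0) ((H.T (H.Ex x w) (-(H.ve x w)) :
        Ev (m + 1) →ₗ[ℝ] Ev (m + 1)) (e 0)) = 0 := by
      change inner ℝ (e 0) (H.T (H.Ex x w) (-(H.ve x w)) (e 0)) = 0
      rw [he, map_smul, h0, smul_zero, inner_zero_right]
    rw [h1, zero_add]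
    refine Finset.sum_congr rfl (fun i _ => ?_)
    rw [real_inner_comm]
    rfl
  set s : ℝ := Real.sinh ‖w‖ / ‖w‖ with hsdef
  have hs0 : 0 < s := by positivity
  have hsi : ‖w‖ / Real.sinh ‖w‖ = s⁻¹ := by rw [hsdef, inv_div]
  set S : ℝ := ∑ i : Fin m, inner ℝ (Ring.inverse (H.P x w) (O (e i.succ))) (e i.succ) with hS
  -- summed key inequality
  have hsum : 2 * (s⁻¹ * m) - 2 * S ≤ t ^ 2 * LinearMap.trace ℝ (Ev (m + 1)) (H.T x w) +
      (t ^ 2)⁻¹ * LinearMap.trace ℝ (Ev (m + 1)) (H.T (H.Ex x w) (-(H.ve x w))) := by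
    rw [htr1, htr2, hS]
    simp only [Finset.mul_sum]
    rw [← Finset.sum_add_distrib]
    have hm : 2 * (s⁻¹ * (m : ℝ)) = ∑ i : Fin m, 2 * s⁻¹ := by
      rw [Finset.sum_const, Finset.card_univ, Fintype.card_fin, nsmul_eq_mul]; ring
    rw [hm, ← Finset.sum_sub_distrib]
    refine Finset.sum_le_sum (fun i _ => ?_)
    have h1 := hK (t⁻¹ • e i.succ) (-(t • O (e i.succ)))
      (by rw [real_inner_smul_right, hwi, mul_zero])
      (by rw [inner_neg_right, real_inner_smul_right, hvi, mul_zero, neg_zero])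
    rw [hsi] at h1
    have h2 : inner ℝ (O (e i.succ)) (O (e i.succ)) = (1 : ℝ) := by
      rw [O.inner_map_map, real_inner_self_eq_norm_sq, e.orthonormal.1, one_pow]
    simp only [map_neg, map_smul, inner_neg_left, inner_neg_right, real_inner_smul_left,
      real_inner_smul_right, h2] at h1
    have ht' : t ≠ 0 := ht.ne'
    have e1 : 2 * -(t⁻¹ * (t * inner ℝ (Ring.inverse (H.P x w) (O (e i.succ))) (e i.succ))) =
        -(2 * inner ℝ (Ring.inverse (H.P x w) (O (e i.succ))) (e i.succ)) := by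
      field_simp
    have e2 : (t ^ 2)⁻¹ = t⁻¹ * t⁻¹ := by
      rw [pow_two, mul_inv]
    rw [e2]
    have e3 : t⁻¹ * t = 1 := inv_mul_cancel₀ ht'
    have e4 : t * t⁻¹ = 1 := mul_inv_cancel₀ ht'
    ring_nf at h1 ⊢
    simp only [e4, e3, one_mul, mul_one] at h1 ⊢
    linarith
  -- the contraction
  set C : Ev (m + 1) →L[ℝ] Ev (m + 1) := (Dop s w).comp ((Ring.inverse (H.P x w)).comp
    (O.toContinuousLinearEquiv : Ev (m + 1) →L[ℝ] Ev (m + 1))) with hC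
  have hCa : ∀ a, C a = Dop s w (Ring.inverse (H.P x w) (O a)) := fun a => rfl
  have hCn : ∀ a, ‖C a‖ ≤ ‖a‖ := by
    intro a
    rw [hCa]
    refine (H.Dop_le x w hw _).trans ?_
    rw [P_inv, O.norm_map]
  have hC0 : C (e 0) = e 0 := by
    rw [hCa, he, map_smul, map_smul, map_smul, hO, ← H.P_self x w, inv_P, Dop_self s w hw]
  have htrC : LinearMap.trace ℝ (Ev (m + 1)) C = 1 + s * S := by
    rw [LinearMap.trace_eq_sum_inner _ e, Fin.sum_univ_succ]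
    have h1 : inner ℝ (e 0) ((C : Ev (m + 1) →ₗ[ℝ] Ev (m + 1)) (e 0)) = 1 := by
      change inner ℝ (e 0) (C (e 0)) = 1
      rw [hC0, real_inner_self_eq_norm_sq, e.orthonormal.1, one_pow]
    rw [h1, hS, Finset.mul_sum]
    congr 1
    refine Finset.sum_congr rfl (fun i _ => ?_)
    change inner ℝ (e i.succ) (C (e i.succ)) = _
    have hz : inner ℝ w (Ring.inverse (H.P x w) (O (e i.succ))) = 0 :=
      H.inner_inv x w _ (hvi i)
    rw [hCa, Dop_perp s w _ hz, real_inner_smul_right, real_inner_comm]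
  have hdet : |C.det| * H.th x w = s ^ m := by
    set B : Ev (m + 1) →L[ℝ] Ev (m + 1) :=
      (O.symm.toContinuousLinearEquiv : Ev (m + 1) →L[ℝ] Ev (m + 1)).comp (H.P x w) with hB
    have hBa : ∀ a, B a = O.symm (H.P x w a) := fun a => rfl
    have hBn : ∀ a, ‖B a‖ = ‖H.P x w a‖ := fun a => by rw [hBa, O.symm.norm_map]
    have h1 : |B.det| = H.th x w :=
      le_antisymm (LA.abs_det_mono _ _ fun a => (hBn a).le)
        (LA.abs_det_mono _ _ fun a => (hBn a).ge)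
    have h2 : (Dop s w : Ev (m + 1) →ₗ[ℝ] Ev (m + 1)) =
        (C : Ev (m + 1) →ₗ[ℝ] Ev (m + 1)) ∘ₗ (B : Ev (m + 1) →ₗ[ℝ] Ev (m + 1)) := by
      apply LinearMap.ext
      intro a
      change Dop s w a = C (B a)
      rw [hCa, hBa, O.apply_symm_apply, inv_P]
    have h3 : (Dop s w).det = C.det * B.det := by
      have := congrArg LinearMap.det h2
      rw [LinearMap.det_comp] at this
      exact this
    rw [det_Dop s w hw] at h3
    rw [← h1, ← abs_mul, ← h3, abs_of_nonneg (by positivity)]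
  have hth : 0 < H.th x w := lt_of_lt_of_le one_pos (H.one_le_th x w)
  have hD : s ^ m / H.th x w = |C.det| := by
    rw [← hdet, mul_div_cancel_right₀ _ hth.ne']
  have htl := LA.trace_le C hCn
  rw [htrC] at htl
  rw [hsi, hD]
  refine le_trans ?_ hsum
  have h6 : s * S ≤ m - 1 + |C.det| := by
    push_cast at htl
    linarith
  have h7 : S ≤ s⁻¹ * (m - 1 + |C.det|) := by
    rw [inv_mul_eq_div, le_div_iff₀ hs0]
    linarith
  nlinarith [h7]

theorem couple_t (hn : 1 ≤ n) (x w : Ev n) (hw : w ≠ 0) (t : ℝ) (ht : 0 < t) :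
    2 * (‖w‖ / Real.sinh ‖w‖)
        * (1 - 1 / (|(H.P x w).det| * (‖w‖ / Real.sinh ‖w‖) ^ (n - 1)))
      ≤ t ^ 2 * (H.lt x w - (n - 1) * rcoth ‖w‖)
        + (t ^ 2)⁻¹ * (H.lt (H.fl 1 (x, w)).1 (-(H.fl 1 (x, w)).2) - (n - 1) * rcoth ‖w‖) := by
  obtain ⟨m, rfl⟩ : ∃ m, n = m + 1 := ⟨n - 1, by omega⟩
  have hr : 0 < ‖w‖ := norm_pos_iff.mpr hw
  have hs := sinh_pos' hw
  have h := H.coupled x w hw t ht
  have hth : 0 < H.th x w := lt_of_lt_of_le one_pos (H.one_le_th x w)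
  have h2 := H.trace_T_lt hn (H.Ex x w) (-(H.ve x w)) (H.neg_ve_ne x w hw)
  rw [norm_neg_ve] at h2
  rw [H.trace_T_lt hn x w hw, h2] at h
  have h3 : 1 / (|(H.P x w).det| * (‖w‖ / Real.sinh ‖w‖) ^ (m + 1 - 1)) =
      (Real.sinh ‖w‖ / ‖w‖) ^ m / H.th x w := by
    change 1 / (H.th x w * (‖w‖ / Real.sinh ‖w‖) ^ (m + 1 - 1)) = _
    rw [Nat.add_sub_cancel, div_pow, div_pow]
    field_simp
  rw [h3]
  exact h

theorem couple (hn : 1 ≤ n) (x w : Ev n) (hw : w ≠ 0) :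
    (‖w‖ / Real.sinh ‖w‖) ^ 2
        * (1 - 1 / (|(H.P x w).det| * (‖w‖ / Real.sinh ‖w‖) ^ (n - 1))) ^ 2
      ≤ (H.lt x w - (n - 1) * rcoth ‖w‖)
        * (H.lt (H.fl 1 (x, w)).1 (-(H.fl 1 (x, w)).2) - (n - 1) * rcoth ‖w‖) := by
  have hr : 0 < ‖w‖ := norm_pos_iff.mpr hw
  have hs := sinh_pos' hw
  have hth : 0 < H.th x w := lt_of_lt_of_le one_pos (H.one_le_th x w)
  have hc := H.couple_t hn x w hw
  have ha : 0 ≤ H.lt x w - (n - 1) * rcoth ‖w‖ := sub_nonneg.mpr (H.lt_ge hn x w hw)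
  have hb : 0 ≤ H.lt (H.fl 1 (x, w)).1 (-(H.fl 1 (x, w)).2) - (n - 1) * rcoth ‖w‖ := by
    have h1 := H.lt_ge hn (H.Ex x w) (-(H.ve x w)) (H.neg_ve_ne x w hw)
    rw [norm_neg_ve] at h1
    exact sub_nonneg.mpr h1
  have hge := H.th_ge hn x w hw
  have hρ : 0 ≤ 1 - 1 / (|(H.P x w).det| * (‖w‖ / Real.sinh ‖w‖) ^ (n - 1)) := by
    change 0 ≤ 1 - 1 / (H.th x w * (‖w‖ / Real.sinh ‖w‖) ^ (n - 1))
    have h1 : 1 ≤ H.th x w * (‖w‖ / Real.sinh ‖w‖) ^ (n - 1) := by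
      have h2 := mul_le_mul_of_nonneg_right hge
        (by positivity : 0 ≤ (‖w‖ / Real.sinh ‖w‖) ^ (n - 1))
      rw [← mul_pow, div_mul_div_cancel₀ hr.ne', div_self hs.ne', one_pow] at h2
      exact h2
    rw [sub_nonneg, div_le_one (by positivity)]
    exact h1
  set τ : ℝ := H.lt x w - (n - 1) * rcoth ‖w‖ with hτ
  set τ' : ℝ := H.lt (H.fl 1 (x, w)).1 (-(H.fl 1 (x, w)).2) - (n - 1) * rcoth ‖w‖ with hτ'
  set ρ : ℝ := (‖w‖ / Real.sinh ‖w‖) *
    (1 - 1 / (|(H.P x w).det| * (‖w‖ / Real.sinh ‖w‖) ^ (n - 1))) with hρdef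
  have hρ0 : 0 ≤ ρ := by positivity
  have hgoal : (‖w‖ / Real.sinh ‖w‖) ^ 2
        * (1 - 1 / (|(H.P x w).det| * (‖w‖ / Real.sinh ‖w‖) ^ (n - 1))) ^ 2 = ρ ^ 2 := by
    rw [hρdef, mul_pow]
  rw [hgoal]
  -- `2 ρ s ≤ s² τ + τ'` for all `s > 0`
  have hq : ∀ s : ℝ, 0 < s → 2 * ρ * s ≤ s ^ 2 * τ + τ' := by
    intro s hs0
    have h1 := hc (√s) (Real.sqrt_pos.mpr hs0)
    rw [Real.sq_sqrt hs0.le] at h1
    have h2 := mul_le_mul_of_nonneg_right h1 hs0.le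
    have h3 : (s * τ + s⁻¹ * τ') * s = s ^ 2 * τ + τ' := by
      field_simp
    rw [h3] at h2
    refine le_trans (le_of_eq ?_) h2
    rw [hρdef]; ring
  rcases hρ0.eq_or_lt with h0 | h0
  · rw [← h0]
    have := mul_nonneg ha hb
    simpa using this
  rcases ha.eq_or_lt with h1 | h1
  · exfalso
    have h2 := hq ((τ' + 1) / ρ) (by positivity)
    rw [← h1, mul_zero, zero_add] at h2
    have h3 : 2 * ρ * ((τ' + 1) / ρ) = 2 * (τ' + 1) := by field_simp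
    rw [h3] at h2
    linarith
  · have h2 := hq (ρ / τ) (by positivity)
    have h3 : 2 * ρ * (ρ / τ) = 2 * (ρ ^ 2 / τ) := by ring
    have h4 : (ρ / τ) ^ 2 * τ = ρ ^ 2 / τ := by field_simp
    rw [h3, h4] at h2
    have h5 : ρ ^ 2 / τ ≤ τ' := by linarith
    rw [div_le_iff₀ h1] at h5
    linarith

end HDataK

end Vale.Agent.Lib.P219
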