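import Mathlib.Algebra.Order.Archimedean.Real.Hom
import Mathlib.Algebra.Order.Star.Real
import Mathlib.Algebra.Ring.IsFormallyReal
import Mathlib.Analysis.SpecialFunctions.Trigonometric.DerivHyp
import Vale.Agent.Lib.P219.K.DefsK

/-!
# P219, curvature `≤ -1`: the Jacobian along rays

`det_deriv`: Jacobi's formula (Leibniz expansion: `Matrix.det_apply`, product rule; or: `det` is
multilinear in the rows, `Σ_i det (G.updateRow i (G'_i)) = trace (adjugate G * G')`).
`gram_det_deriv`: with `G t` the Gram matrix `⟨A t e_i, A t e_j⟩` (`det G = (det A)²`),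
`G' = 2 (Bᵀ A - Aᵀ A)` at `1`, so `(det A²)' = 2 (tr (B A⁻¹) - n) det A²`.
`lt_deriv`: `P_deriv` at `s = 1` (also for `w = 0`), `|det| = √(det²)`; `P x w` is injective by `P_mono`
(`s = 0`) and `P_zero`.
`lt_cont`: `P x w` is a unit of the Banach algebra `Ev n →L Ev n` for all `x, w`; `Ring.inverse` is
continuous at units; the trace is continuous (finite dimension).
-/

namespace Vale.Agent.Lib.P219

open MeasureTheory Set Filter Topology

theorem det_deriv {n : ℕ} (G : ℝ → Matrix (Fin n) (Fin n) ℝ) (G' : Matrix (Fin n) (Fin n) ℝ)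
    (t : ℝ) (hG : ∀ i j, HasDerivAt (fun s => G s i j) (G' i j) t) :
    HasDerivAt (fun s => (G s).det) (((G t).adjugate * G').trace) t := by
  classical
  have h1 : HasDerivAt (fun s => ∑ σ : Equiv.Perm (Fin n), (Equiv.Perm.sign σ : ℤ) •
      ∏ i, G s (σ i) i) (∑ σ : Equiv.Perm (Fin n), (Equiv.Perm.sign σ : ℤ) •
      ∑ i, (∏ j ∈ Finset.univ.erase i, G t (σ j) j) • G' (σ i) i) t := by
    refine HasDerivAt.fun_sum fun σ _ => ?_
    have h2 := HasDerivAt.fun_finsetProd (u := Finset.univ) (f := fun i s => G s (σ i) i)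
      (f' := fun i => G' (σ i) i) (x := t) (fun i _ => hG (σ i) i)
    have h3 := h2.const_mul ((Equiv.Perm.sign σ : ℤ) : ℝ)
    simpa [zsmul_eq_mul] using h3
  have h4 : (fun s => (G s).det) = fun s => ∑ σ : Equiv.Perm (Fin n),
      (Equiv.Perm.sign σ : ℤ) • ∏ i, G s (σ i) i := by
    funext s
    rw [Matrix.det_apply]
    rfl
  rw [h4]
  refine h1.congr_deriv ?_
  have h5 : ((G t).adjugate * G').trace
      = ∑ i, ((G t).updateCol i (fun k => G' k i)).det := by
    rw [Matrix.trace]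
    refine Finset.sum_congr rfl fun i _ => ?_
    rw [Matrix.diag_apply, ← Matrix.cramer_apply, Matrix.cramer_eq_adjugate_mulVec]
    rfl
  rw [h5]
  simp_rw [Matrix.det_apply]
  rw [Finset.sum_comm]
  refine Finset.sum_congr rfl fun σ _ => ?_
  rw [Finset.smul_sum]
  refine Finset.sum_congr rfl fun i _ => ?_
  congr 1
  rw [← Finset.prod_erase_mul Finset.univ _ (Finset.mem_univ i), smul_eq_mul]
  congr 1
  · refine Finset.prod_congr rfl fun j hj => ?_
    rw [Matrix.updateCol_ne (Finset.ne_of_mem_erase hj)]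
  · rw [Matrix.updateCol_self]

private theorem mat_apply {n : ℕ} (A : Ev n →L[ℝ] Ev n) (i j : Fin n) :
    LinearMap.toMatrix (EuclideanSpace.basisFun (Fin n) ℝ).toBasis
      (EuclideanSpace.basisFun (Fin n) ℝ).toBasis (A : Ev n →ₗ[ℝ] Ev n) i j
      = A (EuclideanSpace.single j 1) i := by
  rw [LinearMap.toMatrix_apply]
  simp

private theorem gram_mat {n : ℕ} (A B : Ev n →L[ℝ] Ev n) (i j : Fin n) :
    ((LinearMap.toMatrix (EuclideanSpace.basisFun (Fin n) ℝ).toBasis
      (EuclideanSpace.basisFun (Fin n) ℝ).toBasis (A : Ev n →ₗ[ℝ] Ev n)).transpose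
      * LinearMap.toMatrix (EuclideanSpace.basisFun (Fin n) ℝ).toBasis
      (EuclideanSpace.basisFun (Fin n) ℝ).toBasis (B : Ev n →ₗ[ℝ] Ev n)) i j
      = inner ℝ (A (EuclideanSpace.single i 1)) (B (EuclideanSpace.single j 1)) := by
  rw [Matrix.mul_apply, PiLp.inner_apply]
  refine Finset.sum_congr rfl fun k _ => ?_
  rw [Matrix.transpose_apply, mat_apply, mat_apply]
  simp [mul_comm]

theorem gram_det_deriv {n : ℕ} (A : ℝ → Ev n →L[ℝ] Ev n) (B : Ev n →L[ℝ] Ev n)
    (h : ∀ ξ ζ, HasDerivAt (fun s => inner ℝ (A s ξ) (A s ζ))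
      (2 * (inner ℝ (B ξ) (A 1 ζ) - inner ℝ (A 1 ξ) (A 1 ζ))) 1)
    (hA : ∀ ξ, A 1 ξ = 0 → ξ = 0) :
    HasDerivAt (fun s => (A s).det ^ 2)
      (2 * (LinearMap.trace ℝ (Ev n) (B.comp (Ring.inverse (A 1))) - n) * (A 1).det ^ 2) 1 := by
  classical
  set e := (EuclideanSpace.basisFun (Fin n) ℝ).toBasis with he
  have hdet : ∀ s, (A s).det ^ 2 = ((LinearMap.toMatrix e e (A s : Ev n →ₗ[ℝ] Ev n)).transpose
      * LinearMap.toMatrix e e (A s : Ev n →ₗ[ℝ] Ev n)).det := by
    intro s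
    rw [Matrix.det_mul, Matrix.det_transpose, LinearMap.det_toMatrix, sq]
  have hunit : IsUnit (A 1) := by
    rw [ContinuousLinearMap.isUnit_iff_bijective]
    have hinj : Function.Injective (A 1) := (injective_iff_map_eq_zero (A 1)).2 hA
    exact ⟨hinj, (LinearMap.injective_iff_surjective (f := (A 1).toLinearMap)).1 hinj⟩
  set C := Ring.inverse (A 1) with hC
  have hAC : A 1 * C = 1 := Ring.mul_inverse_cancel _ hunit
  have hCA : C * A 1 = 1 := Ring.inverse_mul_cancel _ hunit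
  set M := LinearMap.toMatrix e e (A 1 : Ev n →ₗ[ℝ] Ev n) with hM
  set N := LinearMap.toMatrix e e (B : Ev n →ₗ[ℝ] Ev n) with hN
  set K := LinearMap.toMatrix e e (C : Ev n →ₗ[ℝ] Ev n) with hK
  have hMK : M * K = 1 := by
    rw [hM, hK, ← LinearMap.toMatrix_comp e e e]
    have : (A 1 : Ev n →ₗ[ℝ] Ev n) ∘ₗ (C : Ev n →ₗ[ℝ] Ev n) = LinearMap.id := by
      ext1 u
      exact congrArg (fun T : Ev n →L[ℝ] Ev n => T u) hAC
    rw [this, LinearMap.toMatrix_id]
  have hKM : K * M = 1 := by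
    rw [hM, hK, ← LinearMap.toMatrix_comp e e e]
    have : (C : Ev n →ₗ[ℝ] Ev n) ∘ₗ (A 1 : Ev n →ₗ[ℝ] Ev n) = LinearMap.id := by
      ext1 u
      exact congrArg (fun T : Ev n →L[ℝ] Ev n => T u) hCA
    rw [this, LinearMap.toMatrix_id]
  have htr : LinearMap.trace ℝ (Ev n) (B.comp C : Ev n →L[ℝ] Ev n) = (N * K).trace := by
    rw [LinearMap.trace_eq_matrix_trace ℝ e]
    have : ((B.comp C : Ev n →L[ℝ] Ev n) : Ev n →ₗ[ℝ] Ev n)
        = (B : Ev n →ₗ[ℝ] Ev n) ∘ₗ (C : Ev n →ₗ[ℝ] Ev n) := rfl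
    rw [this, LinearMap.toMatrix_comp e e e]
  have hd := det_deriv (fun s => (LinearMap.toMatrix e e (A s : Ev n →ₗ[ℝ] Ev n)).transpose
      * LinearMap.toMatrix e e (A s : Ev n →ₗ[ℝ] Ev n))
    ((2 : ℝ) • (N.transpose * M - M.transpose * M)) 1 (by
      intro i j
      have h1 := h (EuclideanSpace.single i 1) (EuclideanSpace.single j 1)
      simp_rw [he, gram_mat]
      refine h1.congr_deriv ?_
      rw [Matrix.smul_apply, Matrix.sub_apply, smul_eq_mul, hN, hM, he, gram_mat, gram_mat])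
  have hfun : (fun s => (A s).det ^ 2) = fun s =>
      ((LinearMap.toMatrix e e (A s : Ev n →ₗ[ℝ] Ev n)).transpose
      * LinearMap.toMatrix e e (A s : Ev n →ₗ[ℝ] Ev n)).det := by
    funext s
    exact hdet s
  rw [hfun]
  refine hd.congr_deriv ?_
  rw [htr, hdet 1, ← hM]
  have hadjM : M.adjugate = M.det • K := by
    calc M.adjugate = M.adjugate * (M * K) := by rw [hMK, mul_one]
      _ = M.det • K := by rw [← mul_assoc, Matrix.adjugate_mul, Matrix.smul_mul, one_mul]
  have hadjMt : M.transpose.adjugate = M.det • K.transpose := by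
    rw [← Matrix.adjugate_transpose, hadjM, Matrix.transpose_smul]
  have hadj : (M.transpose * M).adjugate = (M.det * M.det) • (K * K.transpose) := by
    rw [Matrix.adjugate_mul_distrib, hadjM, hadjMt, Matrix.smul_mul, Matrix.mul_smul, smul_smul]
  have t1 : (K * K.transpose * (N.transpose * M)).trace = (N * K).trace := by
    have e1 : K * K.transpose * (N.transpose * M) = K * (K.transpose * N.transpose * M) := by
      simp only [mul_assoc]
    rw [e1, Matrix.trace_mul_comm, mul_assoc, hMK, mul_one, ← Matrix.transpose_mul,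
      Matrix.trace_transpose]
  have t2 : (K * K.transpose * (M.transpose * M)).trace = n := by
    have e1 : K * K.transpose * (M.transpose * M) = K * ((M * K).transpose * M) := by
      rw [Matrix.transpose_mul]
      simp only [mul_assoc]
    rw [e1, hMK, Matrix.transpose_one, one_mul, hKM, Matrix.trace_one, Fintype.card_fin]
  rw [hadj, Matrix.det_mul, Matrix.det_transpose, Matrix.smul_mul, Matrix.mul_smul, mul_sub,
    Matrix.trace_smul, Matrix.trace_smul, Matrix.trace_sub, t1, t2, smul_eq_mul, smul_eq_mul]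
  ring

namespace HDataK

variable {n : ℕ} (H : HDataK n)

private theorem P_unit (x w : Ev n) : IsUnit (H.P x w) := by
  rw [ContinuousLinearMap.isUnit_iff_bijective]
  have hinj : Function.Injective (H.P x w) := by
    refine (injective_iff_map_eq_zero (H.P x w)).2 fun ξ hξ => ?_
    have h1 := H.toHData.norm_le_P x w ξ
    rw [hξ, norm_zero] at h1
    exact norm_le_zero_iff.1 h1
  exact ⟨hinj, (LinearMap.injective_iff_surjective (f := (H.P x w).toLinearMap)).1 hinj⟩

theorem lt_cont : Continuous (fun p : Ev n × Ev n => H.lt p.1 p.2) := by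
  have h1 : Continuous (fun p : Ev n × Ev n => Ring.inverse (H.P p.1 p.2)) := by
    rw [continuous_iff_continuousAt]
    intro p
    obtain ⟨u, hu⟩ := H.P_unit p.1 p.2
    have h2 : ContinuousAt Ring.inverse (H.P p.1 p.2) := by
      rw [← hu]
      exact NormedRing.inverse_continuousAt u
    exact ContinuousAt.comp (f := fun p : Ev n × Ev n => H.P p.1 p.2) h2
      H.P_cont.continuousAt
  have h3 : Continuous (fun p : Ev n × Ev n => H.M p.1 p.2) := H.Q_cont.clm_comp h1
  set τ : (Ev n →L[ℝ] Ev n) →ₗ[ℝ] ℝ :=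
    (LinearMap.trace ℝ (Ev n)).comp (ContinuousLinearMap.coeLM ℝ) with hτ
  have h4 : Continuous τ := τ.continuous_of_finiteDimensional
  exact (h4.comp h3).sub continuous_const

theorem lt_deriv (hn : 1 ≤ n) (x w : Ev n) :
    HasDerivAt (fun t : ℝ => t ^ (n - 1) * |(H.P x (t • w)).det|)
      (H.lt x w * |(H.P x w).det|) 1 := by
  have hdet : (H.P x w).det ≠ 0 := by
    have := H.toHData.one_le_th x w
    unfold HData.th at this
    intro h0
    rw [h0, abs_zero] at this
    linarith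
  have h1 := gram_det_deriv (fun s => H.P x (s • w)) (H.Q x w) (by
    intro ξ ζ
    have h2 := H.P_deriv x w ξ ζ 1 one_pos
    refine h2.congr_deriv ?_
    rw [one_smul, div_one]) (by
    intro ξ hξ
    have h3 := H.toHData.norm_le_P x ((1 : ℝ) • w) ξ
    rw [hξ, norm_zero] at h3
    exact norm_le_zero_iff.1 h3)
  have hpos : ((H.P x ((1 : ℝ) • w)).det) ^ 2 ≠ 0 := by
    rw [one_smul]
    exact pow_ne_zero 2 hdet
  have h2 := h1.sqrt hpos
  have h3 := (hasDerivAt_pow (n - 1) (1 : ℝ)).mul h2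
  have hfun : (fun t : ℝ => t ^ (n - 1) * |(H.P x (t • w)).det|)
      = (fun t : ℝ => t ^ (n - 1)) * fun s => √((H.P x (s • w)).det ^ 2) := by
    funext t
    rw [Pi.mul_apply, Real.sqrt_sq_eq_abs]
  rw [hfun]
  refine h3.congr_deriv ?_
  simp only [one_smul, one_pow, one_mul, mul_one, Real.sqrt_sq_eq_abs]
  have habs : |(H.P x w).det| ≠ 0 := abs_ne_zero.2 hdet
  have hsq : (H.P x w).det ^ 2 = |(H.P x w).det| ^ 2 := (sq_abs _).symm
  have hcast : ((n - 1 : ℕ) : ℝ) = n - 1 := by
    rw [Nat.cast_sub hn, Nat.cast_one]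
  have hlt : H.lt x w
      = LinearMap.trace ℝ (Ev n) ((H.Q x w).comp (Ring.inverse (H.P x w))) - 1 := rfl
  rw [hsq, hcast, hlt]
  field_simp
  ring

/-- Rauch comparison: differentiate `‖P x (s w) ξ‖² (s / sinh s)²` with `P_deriv` and use `Q_coth` at
`s • w` (`P` is linear, `⟨s w, ξ⟩ = 0`). -/
theorem P_monoH (x w ξ : Ev n) (hw : ‖w‖ = 1) (hξ : inner ℝ w ξ = 0) (s t : ℝ) (hs : 0 < s)
    (hst : s ≤ t) :
    ‖H.P x (s • w) ξ‖ * (s / Real.sinh s) ≤ ‖H.P x (t • w) ξ‖ * (t / Real.sinh t) := by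
  have hd : ∀ r : ℝ, 0 < r → HasDerivAt
      (fun r => inner ℝ (H.P x (r • w) ξ) (H.P x (r • w) ξ) * (r / Real.sinh r) ^ 2)
      ((2 / r) * (inner ℝ (H.Q x (r • w) ξ) (H.P x (r • w) ξ)
        - inner ℝ (H.P x (r • w) ξ) (H.P x (r • w) ξ)) * (r / Real.sinh r) ^ 2
        + inner ℝ (H.P x (r • w) ξ) (H.P x (r • w) ξ) * (2 * (r / Real.sinh r)
          * ((1 * Real.sinh r - r * Real.cosh r) / Real.sinh r ^ 2))) r := by
    intro r hr
    have hsr : Real.sinh r ≠ 0 := (Real.sinh_pos_iff.2 hr).ne'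
    have h1 := H.P_deriv x w ξ ξ r hr
    have h2 : HasDerivAt (fun r : ℝ => r / Real.sinh r)
        ((1 * Real.sinh r - r * Real.cosh r) / Real.sinh r ^ 2) r :=
      (hasDerivAt_id r).fun_div (Real.hasDerivAt_sinh r) hsr
    have h3 := h1.fun_mul (h2.fun_pow 2)
    refine h3.congr_deriv ?_
    simp
  have hmono : MonotoneOn
      (fun r => inner ℝ (H.P x (r • w) ξ) (H.P x (r • w) ξ) * (r / Real.sinh r) ^ 2)
      (Ioi (0 : ℝ)) := by
    refine monotoneOn_of_deriv_nonneg (convex_Ioi 0)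
      (fun r hr => (hd r hr).continuousAt.continuousWithinAt)
      (fun r hr => ?_) (fun r hr => ?_)
    · rw [interior_Ioi] at hr
      exact (hd r hr).differentiableAt.differentiableWithinAt
    · rw [interior_Ioi] at hr
      have hr0 : 0 < r := hr
      rw [(hd r hr).deriv]
      have hsr : 0 < Real.sinh r := Real.sinh_pos_iff.2 hr0
      have hξ' : inner ℝ (r • w) ξ = 0 := by
        rw [real_inner_smul_left, hξ, mul_zero]
      have h1 := H.Q_coth x (r • w) ξ hξ'
      have hnw : ‖r • w‖ = r := by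
        rw [norm_smul, hw, mul_one, Real.norm_of_nonneg hr0.le]
      rw [hnw, ← real_inner_self_eq_norm_sq] at h1
      set p := inner ℝ (H.P x (r • w) ξ) (H.P x (r • w) ξ) with hp
      set q := inner ℝ (H.Q x (r • w) ξ) (H.P x (r • w) ξ) with hq
      have e : (2 / r) * (q - p) * (r / Real.sinh r) ^ 2
          + p * (2 * (r / Real.sinh r) * ((1 * Real.sinh r - r * Real.cosh r) / Real.sinh r ^ 2))
          = 2 * r / Real.sinh r ^ 3 * (Real.sinh r * q - r * Real.cosh r * p) := by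
        field_simp
        ring
      rw [e]
      have h2 : 0 ≤ 2 * r / Real.sinh r ^ 3 := by positivity
      exact mul_nonneg h2 (by linarith)
  have ht : 0 < t := lt_of_lt_of_le hs hst
  have h1 := hmono (mem_Ioi.2 hs) (mem_Ioi.2 ht) hst
  simp only [real_inner_self_eq_norm_sq, ← mul_pow] at h1
  have hss : 0 < Real.sinh s := Real.sinh_pos_iff.2 hs
  have hts : 0 < Real.sinh t := Real.sinh_pos_iff.2 ht
  exact (pow_le_pow_iff_left₀ (by positivity) (by positivity) two_ne_zero).1 h1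

end HDataK

end Vale.Agent.Lib.P219
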