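import Vale.Agent.Lib.P219.K.MainH
import Vale.Agent.Lib.P219.A.Main

/-! # P219, curvature `≤ -1`: the isoperimetric inequality for almost indicator functions

By contradiction: `exists_nearPhi` (with `c₁ = c`; the small volume hypothesis from the flat
theorem `partA`) gives `c₀ ≤ c < 1` and `Vs > 0`; `not_nearPhi` with the certificate of
`HasKerAt n Vs (Φ Vs) (Φ' Vs)` at `c₀`. -/

namespace Vale.Agent.Lib.P219

open MeasureTheory Set Filter Topology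
open scoped ENNReal

/-- there are certificates that exclude near minimisers of volume `V` -/
def HasKerAt (n : ℕ) (V Φ Φ' : ℝ) : Prop :=
  ∀ c₀ : ℝ, 0 < c₀ → c₀ < 1 → ∃ k : KerH n, c₀ * Φ' ≤ k.Hm ∧
    k.a * (c₀ * Φ) ^ 2 + k.K' * (c₀ * Φ) < k.d * (n * om n * V)

/-- what is needed of the comparison profile `Φ` -/
structure ProfileOK (n : ℕ) (Φ Φ' : ℝ → ℝ) : Prop where
  deriv : ∀ V, 0 < V → HasDerivAt Φ (Φ' V) V
  deriv_cont : ContinuousOn Φ' (Ioi 0)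
  deriv_nonneg : ∀ V, 0 < V → 0 ≤ Φ' V
  pos : ∀ V, 0 < V → 0 < Φ V
  ker : ∀ V, 0 < V → HasKerAt n V (Φ V) (Φ' V)
  small : ∀ ε > 0, ∃ V₀ > 0, ∀ V, 0 < V → V < V₀ →
    Φ V ≤ (1 + ε) * (n * om n ^ ((1 : ℝ) / n)) * V ^ (((n : ℝ) - 1) / n)

namespace HDataH

variable {n : ℕ} (H : HDataH n)

theorem partAH (hn : 2 ≤ n) (hker : HasKer n) {Φ Φ' : ℝ → ℝ} (hΦ : ProfileOK n Φ Φ')
    {K : Set (Ev n)} (hK : IsCompact K) (hc : H.Conv K) {c : ℝ} (hc1 : c < 1) :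
    ∃ h > 0, ∀ u, H.Adm K h u → c * Φ (H.V u) ≤ H.A u := by
  rcases le_or_gt c 0 with hcn | hcp
  · refine ⟨1, one_pos, fun u hu => ?_⟩
    have h1 : 0 ≤ Φ (H.V u) := (hΦ.pos _ hu.mass_pos).le
    have h2 : 0 ≤ H.A u := integral_nonneg (fun x => norm_nonneg _)
    exact (mul_nonpos_of_nonpos_of_nonneg hcn h1).trans h2
  by_contra hcon
  push Not at hcon
  have hn0 : n ≠ 0 := by omega
  have hnR : (0 : ℝ) < n := by positivity
  have hom := om_pos n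
  have hiso : (0 : ℝ) < n * om n ^ ((1 : ℝ) / n) := by positivity
  have hε : 0 < (1 - c) / (2 * c) := div_pos (by linarith) (by positivity)
  have hcε : c * (1 + (1 - c) / (2 * c)) < 1 := by
    have h1 : c * (1 + (1 - c) / (2 * c)) = (1 + c) / 2 := by
      field_simp
      ring
    rw [h1]
    linarith
  obtain ⟨V₀, hV₀, hsmall⟩ := hΦ.small _ hε
  have hlt : c * (1 + (1 - c) / (2 * c)) * (n * om n ^ ((1 : ℝ) / n)) <
      n * om n ^ ((1 : ℝ) / n) := by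
    have := mul_lt_mul_of_pos_right hcε hiso
    rwa [one_mul] at this
  obtain ⟨h₁, hh₁, hA⟩ := H.toHData.partA hn hker hK hc hlt
  have hsm : ∃ V₀ > 0, ∃ h₁ > 0, ∀ u, H.Adm K h₁ u → H.V u < V₀ → c * Φ (H.V u) ≤ H.A u := by
    refine ⟨V₀, hV₀, h₁, hh₁, fun u hu huV => ?_⟩
    have h3 := hsmall _ hu.mass_pos huV
    refine le_trans ?_ (hA u hu)
    refine (mul_le_mul_of_nonneg_left h3 hcp.le).trans (le_of_eq ?_)
    ring
  have hΦc : ContinuousOn Φ (Ioi 0) := fun V hV =>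
    (hΦ.deriv V hV).continuousAt.continuousWithinAt
  obtain ⟨c₀, hc₀, Vs, hN⟩ := H.toHData.exists_nearPhi hn hK hΦc hΦ.pos hcp hcon hsm
  obtain ⟨k, hk1, hk2⟩ := hΦ.ker Vs hN.2.1 c₀ hN.1 (hc₀.trans_lt hc1)
  refine H.not_nearPhi k hn hK hc ?_ ?_ (hΦ.deriv_nonneg Vs hN.2.1) (hΦ.pos Vs hN.2.1) hk1 hk2 hN
  · filter_upwards [Ioi_mem_nhds hN.2.1] with V hV
    exact hΦ.deriv V hV
  · exact hΦ.deriv_cont.continuousAt (Ioi_mem_nhds hN.2.1)

end HDataH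

end Vale.Agent.Lib.P219
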