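import Vale.Agent.Lib.P219.K.Model
import Vale.Agent.Lib.P219.K.PartAH

/-! # P219, curvature `-1`: the model profile, flattened above a given volume

`I (V) = areaM (R V)`, `I' (V) = (n-1) coth (R V)`, `R` the inverse of `volM`.
`V₁ = volM R₁ < Vm = volM Rm`, `χ = 1` on `(-∞, V₁]`, affine on `[V₁, Vm]`, `0` on `[Vm, ∞)`;
`Φ' = I' χ`, `Φ V = I V₁ + ∫ t in V₁..V, I' t χ t`: equal to `I` on `(0, V₁]`, `≤ I` on `[V₁, Vm]`, and
constant on `[Vm, ∞)`. -/

namespace Vale.Agent.Lib.P219

open MeasureTheory Set Filter Topology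

variable {n : ℕ}

/-- what the certificates for radius `R` give -/
def HasKerR (n : ℕ) (R : ℝ) : Prop :=
  ∀ V Φ Φ' : ℝ, volM n R ≤ V → 0 < Φ → Φ ≤ areaM n R → 0 ≤ Φ' →
    Φ' ≤ (n - 1) * (Real.cosh R / Real.sinh R) → HasKerAt n V Φ Φ'

/-- truncation of the radius: `R` for `R ≤ a`, then `a + d p / (d + p)`, `p = R - a` -/
private noncomputable def tau (a d R : ℝ) : ℝ := R - max (R - a) 0 ^ 2 / (d + max (R - a) 0)

private noncomputable def tau' (a d R : ℝ) : ℝ := (d / (d + max (R - a) 0)) ^ 2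

private theorem tau_of_le {a d R : ℝ} (h : R ≤ a) : tau a d R = R := by
  unfold tau
  rw [max_eq_right (by linarith)]
  simp

private theorem tau_of_ge {a d R : ℝ} (h : a ≤ R) :
    tau a d R = R - (R - a) ^ 2 / (d + (R - a)) := by
  unfold tau
  rw [max_eq_left (by linarith)]

private theorem tau_le {a d R : ℝ} (hd : 0 < d) : tau a d R ≤ R := by
  unfold tau
  have h : 0 ≤ max (R - a) 0 := le_max_right _ _
  have : 0 ≤ max (R - a) 0 ^ 2 / (d + max (R - a) 0) := by positivity
  linarith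

private theorem tau_ge {a d R : ℝ} (hd : 0 < d) : min R a ≤ tau a d R := by
  rcases le_total R a with h | h
  · rw [tau_of_le h]; exact min_le_left _ _
  · rw [tau_of_ge h]
    refine (min_le_right _ _).trans ?_
    have h1 : 0 < d + (R - a) := by linarith
    have h2 : (R - a) ^ 2 / (d + (R - a)) ≤ R - a := by
      rw [div_le_iff₀ h1]
      nlinarith
    linarith

private theorem tau_le' {a d R : ℝ} (hd : 0 < d) : tau a d R ≤ a + d := by
  rcases le_total R a with h | h
  · rw [tau_of_le h]; linarith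
  · rw [tau_of_ge h]
    have h1 : 0 < d + (R - a) := by linarith
    have h2 : (R - a) - d ≤ (R - a) ^ 2 / (d + (R - a)) := by
      rw [le_div_iff₀ h1]
      nlinarith
    linarith

private theorem tau'_nonneg {a d R : ℝ} : 0 ≤ tau' a d R := sq_nonneg _

private theorem tau'_le {a d R : ℝ} (hd : 0 < d) : tau' a d R ≤ 1 := by
  unfold tau'
  have h : 0 ≤ max (R - a) 0 := le_max_right _ _
  have h1 : 0 ≤ d / (d + max (R - a) 0) := by positivity
  have h2 : d / (d + max (R - a) 0) ≤ 1 := by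
    rw [div_le_one (by linarith)]
    linarith
  exact pow_le_one₀ h1 h2

private theorem tau'_cont {a d : ℝ} (hd : 0 < d) : Continuous (tau' a d) := by
  unfold tau'
  have h1 : Continuous fun R : ℝ => d + max (R - a) 0 := by fun_prop
  refine (continuous_const.div h1 fun R => ?_).pow 2
  have h : 0 ≤ max (R - a) 0 := le_max_right _ _
  linarith

private theorem tau_deriv {a d : ℝ} (hd : 0 < d) (R : ℝ) :
    HasDerivAt (tau a d) (tau' a d R) R := by
  have hf : ∀ x, a ≤ x → HasDerivAt (fun R => R - (R - a) ^ 2 / (d + (R - a)))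
      ((d / (d + (x - a))) ^ 2) x := by
    intro x hx
    have h1 : d + (x - a) ≠ 0 := by
      have : 0 < d + (x - a) := by linarith
      exact this.ne'
    have h2 : HasDerivAt (fun R : ℝ => R - a) 1 x := (hasDerivAt_id x).sub_const a
    have h3 : HasDerivAt (fun R : ℝ => (R - a) ^ 2) (2 * (x - a)) x := by
      have := h2.fun_pow 2
      simpa using this
    have h4 : HasDerivAt (fun R : ℝ => d + (R - a)) 1 x := by simpa using h2.const_add d
    have h5 := (hasDerivAt_id x).sub (h3.div h4 h1)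
    refine HasDerivAt.congr_deriv h5 ?_
    field_simp
    ring
  rcases lt_trichotomy R a with h | h | h
  · have h1 : tau' a d R = 1 := by
      unfold tau'
      rw [max_eq_right (by linarith), add_zero, div_self hd.ne', one_pow]
    rw [h1]
    refine (hasDerivAt_id R).congr_of_eventuallyEq ?_
    filter_upwards [Iio_mem_nhds h] with x hx
    exact tau_of_le hx.le
  · subst h
    have h1 : tau' R d R = 1 := by
      unfold tau'
      rw [max_eq_right (by linarith), add_zero, div_self hd.ne', one_pow]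
    rw [h1, ← hasDerivWithinAt_univ, ← Iic_union_Ici (a := R)]
    refine HasDerivWithinAt.union ?_ ?_
    · refine (hasDerivAt_id R).hasDerivWithinAt.congr (fun x hx => tau_of_le hx) (tau_of_le le_rfl)
    · have h2 := hf R le_rfl
      rw [sub_self, add_zero, div_self hd.ne', one_pow] at h2
      exact h2.hasDerivWithinAt.congr (fun x hx => tau_of_ge hx) (tau_of_ge le_rfl)
  · have h1 : tau' a d R = (d / (d + (R - a))) ^ 2 := by
      unfold tau'
      rw [max_eq_left (by linarith)]
    rw [h1]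
    refine (hf R h.le).congr_of_eventuallyEq ?_
    filter_upwards [Ioi_mem_nhds h] with x hx
    exact tau_of_ge (le_of_lt hx)

private theorem tau_mono {a d : ℝ} (hd : 0 < d) : Monotone (tau a d) :=
  monotone_of_deriv_nonneg (fun R => (tau_deriv hd R).differentiableAt)
    (fun R => by rw [(tau_deriv hd R).deriv]; exact tau'_nonneg)

private theorem areaM_mono {x y : ℝ} (hx : 0 ≤ x) (hxy : x ≤ y) : areaM n x ≤ areaM n y := by
  unfold areaM
  have h0 : 0 ≤ om n := ENNReal.toReal_nonneg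
  have h1 : 0 ≤ Real.sinh x := Real.sinh_nonneg_iff.mpr hx
  have h2 : Real.sinh x ≤ Real.sinh y := Real.sinh_le_sinh.mpr hxy
  gcongr

private theorem sinh_le_mul_cosh {x : ℝ} (hx : 0 ≤ x) : Real.sinh x ≤ x * Real.cosh x := by
  have h1 : MonotoneOn (fun x : ℝ => x * Real.cosh x - Real.sinh x) (Ici 0) := by
    refine monotoneOn_of_deriv_nonneg (convex_Ici 0) ?_ ?_ ?_
    · fun_prop
    · fun_prop
    · intro y hy
      rw [interior_Ici] at hy
      have h2 : HasDerivAt (fun x : ℝ => x * Real.cosh x - Real.sinh x)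
          (1 * Real.cosh y + y * Real.sinh y - Real.cosh y) y :=
        ((hasDerivAt_id y).mul (Real.hasDerivAt_cosh y)).sub (Real.hasDerivAt_sinh y)
      rw [h2.deriv]
      have h3 : 0 ≤ Real.sinh y := Real.sinh_nonneg_iff.mpr (le_of_lt hy)
      have h4 : 0 ≤ y * Real.sinh y := mul_nonneg (le_of_lt hy) h3
      linarith
  have h2 := h1 (mem_Ici.mpr le_rfl) (mem_Ici.mpr hx) hx
  simp only [zero_mul, Real.sinh_zero, sub_zero] at h2
  linarith

theorem exists_profileOK (hn : 2 ≤ n) {Rm : ℝ} (hRm : 0 < Rm)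
    (hker : ∀ R, 0 < R → R ≤ Rm → HasKerR n R) {R₁ : ℝ} (hR₁ : 0 < R₁) (hR₁m : R₁ < Rm) :
    ∃ Φ Φ' : ℝ → ℝ, ProfileOK n Φ Φ' ∧ (∀ V W, 0 < V → V ≤ W → Φ V ≤ Φ W) ∧
      (∀ R, 0 < R → R ≤ R₁ → Φ (volM n R) = areaM n R) := by
  have hn1 : 1 ≤ n := by omega
  have hn1' : (1 : ℝ) ≤ n := by exact_mod_cast hn1
  have hn0 : (n : ℝ) ≠ 0 := by linarith
  set d : ℝ := Rm - R₁ with hd
  have hd0 : 0 < d := by linarith
  choose! Rf hRf0 hRf using fun V (hV : 0 < V) => exists_volM_eq (n := n) hn1 hV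
  have hmono : ∀ V W, 0 < V → V ≤ W → Rf V ≤ Rf W := by
    intro V W hV hVW
    by_contra hcon
    have h1 := volM_strictMonoOn (n := n) hn1 (hRf0 W (hV.trans_le hVW)).le (hRf0 V hV).le
      (not_le.mp hcon)
    rw [hRf V hV, hRf W (hV.trans_le hVW)] at h1
    linarith
  have hinv : ∀ R, 0 < R → Rf (volM n R) = R := by
    intro R hR
    have hV := volM_pos (n := n) hn1 hR
    exact (volM_strictMonoOn (n := n) hn1).injOn (hRf0 _ hV).le hR.le (hRf _ hV)
  have hcont : ∀ V, 0 < V → ContinuousAt Rf V := by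
    intro V hV
    refine continuousAt_of_monotoneOn_of_image_mem_nhds (s := Ioi 0)
      (fun x hx y _ hxy => hmono x y hx hxy) (Ioi_mem_nhds hV) ?_
    have h1 : Rf '' Ioi 0 = Ioi 0 := by
      ext R
      constructor
      · rintro ⟨V, hV, rfl⟩
        exact hRf0 V hV
      · intro hR
        exact ⟨volM n R, volM_pos hn1 hR, hinv R hR⟩
    rw [h1]
    exact Ioi_mem_nhds (hRf0 V hV)
  have hRd : ∀ V, 0 < V → HasDerivAt Rf (areaM n (Rf V))⁻¹ V := by
    intro V hV
    refine HasDerivAt.of_local_left_inverse (hcont V hV) (hasDerivAt_volM (Rf V))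
      (areaM_pos hn1 (hRf0 V hV)).ne' ?_
    filter_upwards [Ioi_mem_nhds hV] with W hW
    exact hRf W hW
  have htpos : ∀ R, 0 < R → 0 < tau R₁ d R := fun R hR => (lt_min hR hR₁).trans_le (tau_ge hd0)
  have hareacont : Continuous (areaM n) := by
    unfold areaM
    fun_prop
  refine ⟨fun V => areaM n (tau R₁ d (Rf V)), fun V =>
    (n - 1) * (Real.cosh (tau R₁ d (Rf V)) / Real.sinh (tau R₁ d (Rf V))) *
      areaM n (tau R₁ d (Rf V)) * (tau' R₁ d (Rf V) * (areaM n (Rf V))⁻¹), ?_, ?_, ?_⟩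
  · have hΦ'0 : ∀ V, 0 < V → 0 ≤ (n - 1) * (Real.cosh (tau R₁ d (Rf V)) /
        Real.sinh (tau R₁ d (Rf V))) * areaM n (tau R₁ d (Rf V)) *
          (tau' R₁ d (Rf V) * (areaM n (Rf V))⁻¹) := by
      intro V hV
      have h1 := hRf0 V hV
      have h2 := htpos _ h1
      have h3 := areaM_pos (n := n) hn1 h1
      have h4 := areaM_pos (n := n) hn1 h2
      have h5 : 0 < Real.sinh (tau R₁ d (Rf V)) := Real.sinh_pos_iff.mpr h2
      have h6 := Real.cosh_pos (tau R₁ d (Rf V))
      have h7 : (0 : ℝ) ≤ n - 1 := by linarith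
      have h8 := tau'_nonneg (a := R₁) (d := d) (R := Rf V)
      positivity
    refine ⟨?_, ?_, hΦ'0, ?_, ?_, ?_⟩
    · intro V hV
      have h1 := hasDerivAt_areaM (n := n) hn (htpos _ (hRf0 V hV))
      have h2 := (tau_deriv (a := R₁) hd0 (Rf V)).comp V (hRd V hV)
      exact HasDerivAt.comp (h₂ := areaM n) (h := tau R₁ d ∘ Rf) V h1 h2
    · intro V hV
      have hV' : 0 < V := hV
      have h1 := hRf0 V hV
      have c1 : ContinuousAt Rf V := hcont V hV
      have c2 : ContinuousAt (fun V => tau R₁ d (Rf V)) V :=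
        ContinuousAt.comp (f := Rf) (tau_deriv hd0 (Rf V)).continuousAt c1
      have c3 : ContinuousAt (fun V => tau' R₁ d (Rf V)) V :=
        ContinuousAt.comp (f := Rf) (tau'_cont hd0).continuousAt c1
      have c4 : ContinuousAt (fun V => areaM n (Rf V)) V :=
        ContinuousAt.comp (f := Rf) hareacont.continuousAt c1
      have c5 : ContinuousAt (fun V => areaM n (tau R₁ d (Rf V))) V :=
        ContinuousAt.comp (f := fun V => tau R₁ d (Rf V)) hareacont.continuousAt c2
      have c6 : ContinuousAt (fun V => Real.cosh (tau R₁ d (Rf V))) V :=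
        ContinuousAt.comp (f := fun V => tau R₁ d (Rf V)) Real.continuous_cosh.continuousAt c2
      have c7 : ContinuousAt (fun V => Real.sinh (tau R₁ d (Rf V))) V :=
        ContinuousAt.comp (f := fun V => tau R₁ d (Rf V)) Real.continuous_sinh.continuousAt c2
      have h5 : Real.sinh (tau R₁ d (Rf V)) ≠ 0 := (Real.sinh_pos_iff.mpr (htpos _ h1)).ne'
      have h6 : areaM n (Rf V) ≠ 0 := (areaM_pos (n := n) hn1 h1).ne'
      exact (((continuousAt_const.mul (c6.div c7 h5)).mul c5).mul
        (c3.mul (c4.inv₀ h6))).continuousWithinAt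
    · intro V hV
      exact areaM_pos hn1 (htpos _ (hRf0 V hV))
    · intro V hV
      have h1 := hRf0 V hV
      have h2 := htpos _ h1
      have h3 := areaM_pos (n := n) hn1 h1
      have h4 := areaM_pos (n := n) hn1 h2
      have hle : tau R₁ d (Rf V) ≤ Rf V := tau_le hd0
      refine hker (tau R₁ d (Rf V)) h2 ((tau_le' hd0).trans (by rw [hd]; linarith)) V _ _ ?_ h4
        le_rfl (hΦ'0 V hV) ?_
      · have h5 := (volM_strictMonoOn (n := n) hn1).monotoneOn h2.le h1.le hle
        rw [hRf V hV] at h5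
        exact h5
      · have h5 : 0 < Real.sinh (tau R₁ d (Rf V)) := Real.sinh_pos_iff.mpr h2
        have h6 := Real.cosh_pos (tau R₁ d (Rf V))
        have h7 : (0 : ℝ) ≤ n - 1 := by linarith
        have h8 := tau'_nonneg (a := R₁) (d := d) (R := Rf V)
        have h9 := tau'_le (a := R₁) (R := Rf V) hd0
        have h10 : areaM n (tau R₁ d (Rf V)) * (areaM n (Rf V))⁻¹ ≤ 1 := by
          rw [← div_eq_mul_inv, div_le_one h3]
          exact areaM_mono h2.le hle
        have h11 : 0 ≤ areaM n (tau R₁ d (Rf V)) * (areaM n (Rf V))⁻¹ := by positivity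
        have h12 : areaM n (tau R₁ d (Rf V)) * (areaM n (Rf V))⁻¹ * tau' R₁ d (Rf V) ≤ 1 :=
          mul_le_one₀ h10 h8 h9
        have h13 : 0 ≤ (n - 1) * (Real.cosh (tau R₁ d (Rf V)) / Real.sinh (tau R₁ d (Rf V))) := by
          positivity
        calc (n - 1) * (Real.cosh (tau R₁ d (Rf V)) / Real.sinh (tau R₁ d (Rf V))) *
              areaM n (tau R₁ d (Rf V)) * (tau' R₁ d (Rf V) * (areaM n (Rf V))⁻¹)
            = ((n - 1) * (Real.cosh (tau R₁ d (Rf V)) / Real.sinh (tau R₁ d (Rf V)))) *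
              (areaM n (tau R₁ d (Rf V)) * (areaM n (Rf V))⁻¹ * tau' R₁ d (Rf V)) := by ring
          _ ≤ ((n - 1) * (Real.cosh (tau R₁ d (Rf V)) / Real.sinh (tau R₁ d (Rf V)))) * 1 :=
              mul_le_mul_of_nonneg_left h12 h13
          _ = _ := mul_one _
    · intro ε hε
      have hc : ContinuousAt (fun x : ℝ => Real.cosh x ^ (n - 1)) 0 := by fun_prop
      have h0 : (fun x : ℝ => Real.cosh x ^ (n - 1)) 0 < 1 + ε := by
        simp only [Real.cosh_zero, one_pow]; linarith
      obtain ⟨δ, hδ, hball⟩ := Metric.eventually_nhds_iff.mp (hc.eventually (gt_mem_nhds h0))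
      refine ⟨volM n (δ / 2), volM_pos hn1 (by linarith), fun V hV hVlt => ?_⟩
      have h1 := hRf0 V hV
      have h2 : Rf V < δ := by
        by_contra hcon
        have h3 := (volM_strictMonoOn (n := n) hn1).monotoneOn (show δ / 2 ∈ Ici (0:ℝ) by
          rw [mem_Ici]; linarith) h1.le (show δ / 2 ≤ Rf V by linarith)
        rw [hRf V hV] at h3
        linarith
      have h3 : Real.cosh (Rf V) ^ (n - 1) < 1 + ε := by
        refine hball ?_
        rw [Real.dist_eq, sub_zero, abs_of_pos h1]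
        exact h2
      have hom : 0 ≤ om n := ENNReal.toReal_nonneg
      have h4 : Real.sinh (Rf V) ^ (n - 1) ≤ (1 + ε) * Rf V ^ (n - 1) := by
        have hs : 0 ≤ Real.sinh (Rf V) := Real.sinh_nonneg_iff.mpr h1.le
        calc Real.sinh (Rf V) ^ (n - 1) ≤ (Rf V * Real.cosh (Rf V)) ^ (n - 1) :=
              pow_le_pow_left₀ hs (sinh_le_mul_cosh h1.le) _
          _ = Real.cosh (Rf V) ^ (n - 1) * Rf V ^ (n - 1) := by rw [mul_pow, mul_comm]
          _ ≤ (1 + ε) * Rf V ^ (n - 1) :=
              mul_le_mul_of_nonneg_right h3.le (pow_nonneg h1.le _)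
      have h5 : om n * Rf V ^ n ≤ V := by
        have := volM_ge (n := n) hn1 h1.le
        rwa [hRf V hV] at this
      have hexp : (0 : ℝ) ≤ ((n : ℝ) - 1) / n := div_nonneg (by linarith) (by linarith)
      have h6 : om n ^ (((n : ℝ) - 1) / n) * Rf V ^ (n - 1) ≤ V ^ (((n : ℝ) - 1) / n) := by
        have h7 := Real.rpow_le_rpow (mul_nonneg hom (pow_nonneg h1.le n)) h5 hexp
        rw [Real.mul_rpow hom (pow_nonneg h1.le n)] at h7
        have h8 : (Rf V ^ n) ^ (((n : ℝ) - 1) / n) = Rf V ^ (n - 1) := by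
          rw [← Real.rpow_natCast (Rf V) n, ← Real.rpow_mul h1.le, mul_div_cancel₀ _ hn0,
            ← Real.rpow_natCast (Rf V) (n - 1), Nat.cast_sub hn1, Nat.cast_one]
        rwa [h8] at h7
      have h9 : om n ^ ((1 : ℝ) / n) * om n ^ (((n : ℝ) - 1) / n) = om n := by
        rw [← Real.rpow_add' hom]
        · rw [← add_div, add_sub_cancel, div_self hn0, Real.rpow_one]
        · rw [← add_div, add_sub_cancel, div_self hn0]
          exact one_ne_zero
      calc areaM n (tau R₁ d (Rf V)) ≤ areaM n (Rf V) :=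
            areaM_mono (htpos _ h1).le (tau_le hd0)
        _ = n * om n * Real.sinh (Rf V) ^ (n - 1) := rfl
        _ ≤ n * om n * ((1 + ε) * Rf V ^ (n - 1)) :=
            mul_le_mul_of_nonneg_left h4 (mul_nonneg (Nat.cast_nonneg _) hom)
        _ = (1 + ε) * n * (om n ^ ((1 : ℝ) / n) * om n ^ (((n : ℝ) - 1) / n)) *
              Rf V ^ (n - 1) := by rw [h9]; ring
        _ = (1 + ε) * (n * om n ^ ((1 : ℝ) / n)) *
              (om n ^ (((n : ℝ) - 1) / n) * Rf V ^ (n - 1)) := by ring
        _ ≤ (1 + ε) * (n * om n ^ ((1 : ℝ) / n)) * V ^ (((n : ℝ) - 1) / n) :=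
            mul_le_mul_of_nonneg_left h6 (by positivity)
  · intro V W hV hVW
    exact areaM_mono (htpos _ (hRf0 V hV)).le (tau_mono hd0 (hmono V W hV hVW))
  · intro R hR hRR
    show areaM n (tau R₁ d (Rf (volM n R))) = areaM n R
    rw [hinv R hR, tau_of_le hRR]

end Vale.Agent.Lib.P219
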