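import Vale.Agent.Lib.P219.K.FinH
import Vale.Agent.Lib.P219.K.Profile
import Vale.Agent.Lib.P219.K.Geo.ToH
import Vale.Agent.Lib.P219.Geo.Bridge
import Vale.Agent.Lib.P219.Bd.PerArea

/-! # P219: final assembly for curvature `≤ -1` -/

open scoped ENNReal ContDiff

namespace Vale.Agent.Lib.P219

open MeasureTheory Set Filter Topology

variable {n : ℕ}

/-- complete with sectional curvature at most `-1` -/
structure IsCHm (g : Ev n → (Ev n →L[ℝ] Ev n →L[ℝ] ℝ))
    (Γ : Ev n → (Ev n →L[ℝ] Ev n →L[ℝ] Ev n)) : Prop where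
  metric : IsMetric g
  lc : IsLeviCivita g Γ
  complete : ∀ x v, ∃ γ : ℝ → Ev n, IsGeodesic Γ γ ∧ γ 0 = x ∧ deriv γ 0 = v
  sec : ∀ x v w, g x (curv Γ x v w w) v ≤ -(g x v v * g x w w - g x v w ^ 2)

/-- strict Cauchy-Schwarz -/
theorem gram2_pos {g : Ev n → (Ev n →L[ℝ] Ev n →L[ℝ] ℝ)} (hg : IsMetric g) (p u v : Ev n)
    (h : LinearIndependent ℝ ![u, v]) : 0 < g p u u * g p v v - g p u v ^ 2 := by
  rw [LinearIndependent.pair_iff] at h
  have hu : u ≠ 0 := by
    intro hu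
    have := (h 1 0 (by rw [hu]; simp)).1
    exact one_ne_zero this
  have hpos := hg.pos p u hu
  have hw0 : g p u u • v - g p u v • u ≠ 0 := by
    intro h0
    have h1 : (-(g p u v)) • u + (g p u u) • v = 0 := by
      rw [← h0, neg_smul]
      abel
    exact hpos.ne' (h _ _ h1).2
  have hw := hg.pos p _ hw0
  have hexp : g p (g p u u • v - g p u v • u) (g p u u • v - g p u v • u) =
      g p u u * (g p u u * g p v v - g p u v ^ 2) := by
    simp only [map_sub, map_smul, sub_apply, smul_apply, smul_eq_mul]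
    rw [hg.symm p v u]
    ring
  rw [hexp] at hw
  exact pos_of_mul_pos_right hw hpos.le

theorem gram2_nonneg {g : Ev n → (Ev n →L[ℝ] Ev n →L[ℝ] ℝ)} (hg : IsMetric g) (p u v : Ev n) :
    0 ≤ g p u u * g p v v - g p u v ^ 2 := by
  by_cases hu : u = 0
  · subst hu
    simp
  · have hpos := hg.pos p u hu
    have hw : 0 ≤ g p (g p u u • v - g p u v • u) (g p u u • v - g p u v • u) := by
      by_cases h0 : g p u u • v - g p u v • u = 0
      · rw [h0]
        simp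
      · exact (hg.pos p _ h0).le
    have hexp : g p (g p u u • v - g p u v • u) (g p u u • v - g p u v • u) =
        g p u u * (g p u u * g p v v - g p u v ^ 2) := by
      simp only [map_sub, map_smul, sub_apply, smul_apply, smul_eq_mul]
      rw [hg.symm p v u]
      ring
    rw [hexp] at hw
    exact nonneg_of_mul_nonneg_right hw hpos

theorem exists_HDataH_of_isCHm (hn : 1 ≤ n) (g : Ev n → Ev n →L[ℝ] Ev n →L[ℝ] ℝ)
    (Γ : Ev n → Ev n →L[ℝ] Ev n →L[ℝ] Ev n) (h : IsCHm g Γ) :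
    ∃ H : HDataH n, Represents H.toHData g := by
  obtain ⟨hg, hΓ⟩ := P219G.isLeviCivita_of_lc g h.metric Γ h.lc
  have hc : P219G.IsComplete Γ := by
    intro p v
    obtain ⟨γ, hγ, h0, h1⟩ := h.complete p v
    exact ⟨γ, h0, h1, fun t => ⟨hγ.1 t, hγ.2 t⟩⟩
  refine P219G.exists_HDataH hn g hg Γ hΓ hc fun p u v huv => ?_
  unfold P219G.sectionalCurvature
  rw [div_le_iff₀ (gram2_pos h.metric p u v huv)]
  have := h.sec p u v
  rw [neg_one_mul]
  exact this

theorem continuous_areaM : Continuous (areaM n) := by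
  unfold areaM
  exact continuous_const.mul (Real.continuous_sinh.pow _)

theorem volM_mono {R S : ℝ} (hR : 0 ≤ R) (hRS : R ≤ S) (hn : 1 ≤ n) : volM n R ≤ volM n S :=
  (volM_strictMonoOn hn).monotoneOn (mem_Ici.2 hR) (mem_Ici.2 (hR.trans hRS)) hRS

/-- sets of finite perimeter -/
theorem isoperimetric_perH (hn : 2 ≤ n) (hk : HasKer n) {Rm : ℝ}
    (hker : ∀ R, 0 < R → R ≤ Rm → HasKerR n R)
    (g : Ev n → Ev n →L[ℝ] Ev n →L[ℝ] ℝ) (Γ : Ev n → Ev n →L[ℝ] Ev n →L[ℝ] Ev n)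
    (h : IsCHm g Γ) (Ω : Set (Ev n)) (hΩ : Bornology.IsBounded Ω) (hm : MeasurableSet Ω)
    (R : ℝ) (hR : 0 ≤ R) (hRm : R ≤ Rm) (hV : ENNReal.ofReal (volM n R) ≤ gvol g Ω) :
    ENNReal.ofReal (areaM n R) ≤ per g Ω := by
  obtain ⟨H, hH⟩ := exists_HDataH_of_isCHm (by omega) g Γ h
  have key : ∀ S, 0 < S → S < Rm → ENNReal.ofReal (volM n S) ≤ gvol g Ω →
      ENNReal.ofReal (areaM n S) ≤ per g Ω := by
    intro S hS hSm hVS
    obtain ⟨Φ, Φ', hΦ, hmono, hval⟩ := exists_profileOK hn (hS.trans hSm) hker hS hSm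
    have hc : ContinuousOn Φ (Ioi 0) := fun V hV =>
      (hΦ.deriv V hV).continuousAt.continuousWithinAt
    have := isoperimetric_of_profile hn h.metric hH hc hmono
      (fun K hK hKc c hc1 => H.partAH hn hk hΦ hK hKc hc1) hΩ hm (volM_pos (by omega) hS) hVS
    rwa [hval S hS le_rfl] at this
  rcases hR.eq_or_lt with h0 | hpos
  · rw [← h0, areaM, Real.sinh_zero, zero_pow (by omega), mul_zero, ENNReal.ofReal_zero]
    exact zero_le
  rcases hRm.eq_or_lt with h1 | h1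
  · have hev : ∀ᶠ S in 𝓝[<] R, ENNReal.ofReal (areaM n S) ≤ per g Ω := by
      have e1 : ∀ᶠ S : ℝ in 𝓝[<] R, 0 < S :=
        (eventually_gt_nhds hpos).filter_mono nhdsWithin_le_nhds
      filter_upwards [e1, self_mem_nhdsWithin] with S h2 h3
      exact key S h2 (h1 ▸ h3)
        ((ENNReal.ofReal_le_ofReal (volM_mono h2.le (le_of_lt h3) (by omega))).trans hV)
    have t1 : Tendsto (fun S => ENNReal.ofReal (areaM n S)) (𝓝[<] R)
        (𝓝 (ENNReal.ofReal (areaM n R))) :=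
      ((ENNReal.continuous_ofReal.comp continuous_areaM).tendsto R).mono_left nhdsWithin_le_nhds
    exact le_of_tendsto t1 hev
  · exact key R hpos h1 hV

/-- domains with smooth boundary -/
theorem isoperimetric_areaH (hn : 2 ≤ n) (hk : HasKer n) {Rm : ℝ}
    (hker : ∀ R, 0 < R → R ≤ Rm → HasKerR n R)
    (g : Ev n → Ev n →L[ℝ] Ev n →L[ℝ] ℝ) (Γ : Ev n → Ev n →L[ℝ] Ev n →L[ℝ] Ev n)
    (h : IsCHm g Γ) (ρ : Ev n → ℝ) (hρ : P219G.IsDefiningFunction ρ)
    (R : ℝ) (hR : 0 ≤ R) (hRm : R ≤ Rm)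
    (hV : ENNReal.ofReal (volM n R) ≤ gvol g {x | ρ x < 0}) :
    ENNReal.ofReal (areaM n R) ≤ P219G.area g ρ := by
  refine (isoperimetric_perH hn hk hker g Γ h {x | ρ x < 0} hρ.bounded ?_ R hR hRm hV).trans ?_
  · exact (isOpen_lt hρ.smooth.continuous continuous_const).measurableSet
  · exact P219G.per_le_area g ⟨h.metric.smooth, h.metric.symm, h.metric.pos⟩ ρ hρ

end Vale.Agent.Lib.P219
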