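import Mathlib.Algebra.Order.Ring.Star
import Mathlib.Algebra.Order.Star.Real
import Vale.Agent.Lib.P219.K.Defs

/-! # P219, curvature `≤ -1`: the auxiliary flat kernel with the same `η`

The modules `A/Phi`, `A/PhiBij`, `A/Comp`, `A/Layer`, `A/Modulus`, `A/VolInt` only use `η`, `M`, `δ` of
a `Ker n`; we feed them the following flat kernel (take `a` huge, `d = 1`, `f = 1`:
`B r^(n-1) ≥ r^(n-1) ≥ r - 2`). -/

namespace Vale.Agent.Lib.P219

open MeasureTheory Set Filter Topology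

noncomputable section

namespace KerH

variable {n : ℕ} (k : KerH n)

private theorem tk_ηc_zero (r c : ℝ) (hr : r ≤ k.δ) : k.ηc r c = 0 := by
  have h1 : (fun s => k.η r s) = fun _ => (0 : ℝ) := funext fun s => k.η_zero r s hr
  have h2 := k.deriv_c r c
  rw [h1] at h2
  exact h2.unique (hasDerivAt_const c (0 : ℝ))

private theorem tk_η_div_nonneg (r c : ℝ) (hc : |c| ≤ 1) : 0 ≤ k.η r c / r := by
  rcases le_or_gt r k.δ with h | h
  · rw [k.η_zero r c h, zero_div]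
  · exact div_nonneg (k.η_nonneg r c hc) (k.δ_pos.le.trans h.le)

private theorem tk_η_div_le (r c : ℝ) (hc : |c| ≤ 1) : k.η r c / r ≤ k.M / k.δ := by
  rcases le_or_gt r k.δ with h | h
  · rw [k.η_zero r c h, zero_div]
    exact (div_pos k.M_pos k.δ_pos).le
  · exact div_le_div₀ k.M_pos.le (k.η_le r c hc) k.δ_pos h.le

private theorem tk_ηc_div_le (r c : ℝ) (hc : |c| ≤ 1) : |k.ηc r c / r| ≤ k.M / k.δ := by
  rcases le_or_gt r k.δ with h | h
  · rw [k.tk_ηc_zero r c h, zero_div, abs_zero]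
    exact (div_pos k.M_pos k.δ_pos).le
  · rw [abs_div, abs_of_pos (k.δ_pos.trans h)]
    exact div_le_div₀ k.M_pos.le (k.ηc_le r c hc) k.δ_pos h.le

private theorem tk_sq {c : ℝ} (hc : |c| ≤ 1) : 0 ≤ 1 - c ^ 2 ∧ 1 - c ^ 2 ≤ 1 ∧ c ^ 2 ≤ 1 := by
  have h1 : c ^ 2 ≤ 1 := by
    rw [← sq_abs]
    exact pow_le_one₀ (abs_nonneg c) hc
  exact ⟨by linarith, by nlinarith [sq_nonneg c], h1⟩

private theorem tk_gh (r c c' : ℝ) (hc : |c| ≤ 1) (hc' : |c'| ≤ 1) :
    |k.ηr r c' * (1 - c ^ 2) + k.η r c' / r * ((n : ℝ) - 2 + c ^ 2)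
      - |c| * |k.ηc r c'| * Real.sqrt ((1 - c ^ 2) * (1 - c' ^ 2)) / r|
      ≤ k.M + k.M / k.δ * ((n : ℝ) + 2) + k.M / k.δ := by
  obtain ⟨h1, h2, h3⟩ := tk_sq hc
  obtain ⟨h1', h2', h3'⟩ := tk_sq hc'
  have hn : (0 : ℝ) ≤ n := Nat.cast_nonneg n
  have hMd : 0 < k.M / k.δ := div_pos k.M_pos k.δ_pos
  have a1 : |k.ηr r c' * (1 - c ^ 2)| ≤ k.M := by
    rw [abs_mul, abs_of_nonneg h1]
    calc |k.ηr r c'| * (1 - c ^ 2) ≤ k.M * 1 :=
          mul_le_mul (k.ηr_le r c' hc') h2 h1 k.M_pos.le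
      _ = k.M := mul_one _
  have a2 : |k.η r c' / r * ((n : ℝ) - 2 + c ^ 2)| ≤ k.M / k.δ * ((n : ℝ) + 2) := by
    rw [abs_mul, abs_of_nonneg (k.tk_η_div_nonneg r c' hc')]
    refine mul_le_mul (k.tk_η_div_le r c' hc') ?_ (abs_nonneg _) hMd.le
    rw [abs_le]
    constructor
    · nlinarith [sq_nonneg c]
    · linarith
  have a3 : |(|c| * |k.ηc r c'| * Real.sqrt ((1 - c ^ 2) * (1 - c' ^ 2)) / r)| ≤ k.M / k.δ := by
    have e : |c| * |k.ηc r c'| * Real.sqrt ((1 - c ^ 2) * (1 - c' ^ 2)) / r =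
        (|c| * Real.sqrt ((1 - c ^ 2) * (1 - c' ^ 2))) * (|k.ηc r c'| / r) := by ring
    rw [e, abs_mul]
    have b1 : Real.sqrt ((1 - c ^ 2) * (1 - c' ^ 2)) ≤ 1 := by
      rw [Real.sqrt_le_one]
      exact mul_le_one₀ h2 h1' h2'
    have b2 : |(|c| * Real.sqrt ((1 - c ^ 2) * (1 - c' ^ 2)))| ≤ 1 := by
      rw [abs_of_nonneg (by positivity)]
      exact mul_le_one₀ hc (Real.sqrt_nonneg _) b1
    have b3 : |(|k.ηc r c'| / r)| ≤ k.M / k.δ := by
      have := k.tk_ηc_div_le r c' hc'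
      rwa [abs_div, abs_abs, ← abs_div]
    calc |(|c| * Real.sqrt ((1 - c ^ 2) * (1 - c' ^ 2)))| * |(|k.ηc r c'| / r)| ≤
        1 * (k.M / k.δ) := mul_le_mul b2 b3 (abs_nonneg _) zero_le_one
      _ = k.M / k.δ := one_mul _
  calc |k.ηr r c' * (1 - c ^ 2) + k.η r c' / r * ((n : ℝ) - 2 + c ^ 2)
        - |c| * |k.ηc r c'| * Real.sqrt ((1 - c ^ 2) * (1 - c' ^ 2)) / r|
      ≤ |k.ηr r c' * (1 - c ^ 2) + k.η r c' / r * ((n : ℝ) - 2 + c ^ 2)| +
        |(|c| * |k.ηc r c'| * Real.sqrt ((1 - c ^ 2) * (1 - c' ^ 2)) / r)| := abs_sub _ _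
    _ ≤ (|k.ηr r c' * (1 - c ^ 2)| + |k.η r c' / r * ((n : ℝ) - 2 + c ^ 2)|) +
        |(|c| * |k.ηc r c'| * Real.sqrt ((1 - c ^ 2) * (1 - c' ^ 2)) / r)| := by
        have := abs_add_le (k.ηr r c' * (1 - c ^ 2)) (k.η r c' / r * ((n : ℝ) - 2 + c ^ 2))
        linarith
    _ ≤ _ := by linarith

private theorem tk_g (r c c' : ℝ) (hc : |c| ≤ 1) (hc' : |c'| ≤ 1) :
    |k.ηr r c' * (1 - c ^ 2) + k.η r c' / r * ((n : ℝ) - 2 + c ^ 2)
      - |c| * |k.ηc r c'| * Real.sqrt ((1 - c ^ 2) * (1 - c' ^ 2)) / r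
      - ((n : ℝ) - 1) * c * k.η r c'|
      ≤ k.M + k.M / k.δ * ((n : ℝ) + 2) + k.M / k.δ + ((n : ℝ) + 1) * k.M := by
  have h1 := tk_gh k r c c' hc hc'
  have hn : (0 : ℝ) ≤ n := Nat.cast_nonneg n
  have h2 : |((n : ℝ) - 1) * c * k.η r c'| ≤ ((n : ℝ) + 1) * k.M := by
    rw [abs_mul, abs_mul, abs_of_nonneg (k.η_nonneg r c' hc')]
    have b1 : |(n : ℝ) - 1| ≤ (n : ℝ) + 1 := by
      rw [abs_le]
      constructor <;> linarith
    have b2 : |(n : ℝ) - 1| * |c| ≤ ((n : ℝ) + 1) * 1 :=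
      mul_le_mul b1 hc (abs_nonneg _) (by linarith)
    rw [mul_one] at b2
    exact mul_le_mul b2 (k.η_le r c' hc') (k.η_nonneg r c' hc') (by linarith)
  refine (abs_sub _ _).trans ?_
  linarith

private theorem tk_low (r c c' : ℝ) (hc : |c| ≤ 1) (hc' : |c'| ≤ 1) :
    1 ≤ (k.M + k.M / k.δ * ((n : ℝ) + 2) + k.M / k.δ + ((n : ℝ) + 1) * k.M + 1) +
      ((k.ηr r c' * (1 - c ^ 2) + k.η r c' / r * (n - 2 + c ^ 2)
        - |c| * |k.ηc r c'| * Real.sqrt ((1 - c ^ 2) * (1 - c' ^ 2)) / r - (n - 1) * c * k.η r c')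
      + (k.ηr r c * (1 - c' ^ 2) + k.η r c / r * (n - 2 + c' ^ 2)
        - |c'| * |k.ηc r c| * Real.sqrt ((1 - c' ^ 2) * (1 - c ^ 2)) / r
        - (n - 1) * c' * k.η r c)) / 2 := by
  have h1 := (abs_le.1 (k.tk_g r c c' hc hc')).1
  have h2 := (abs_le.1 (k.tk_g r c' c hc' hc)).1
  linarith

private theorem tk_fin (n : ℕ) : IsFiniteMeasure (volume : Measure (Ev n)).toSphere := by
  infer_instance

theorem exists_toKer (hn : 2 ≤ n) : ∃ k₀ : Ker n, k₀.η = k.η ∧ k₀.ηr = k.ηr ∧ k₀.ηc = k.ηc ∧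
    k₀.δ = k.δ ∧ k₀.M = k.M := by
  have hn0 : (0 : ℝ) ≤ n := Nat.cast_nonneg n
  have hMd : 0 < k.M / k.δ := div_pos k.M_pos k.δ_pos
  have hM := k.M_pos
  refine ⟨{ η := k.η
            ηr := k.ηr
            ηc := k.ηc
            smooth := k.smooth
            deriv_r := k.deriv_r
            deriv_c := k.deriv_c
            δ := k.δ
            δ_pos := k.δ_pos
            M := k.M
            M_pos := k.M_pos
            η_zero := k.η_zero
            η_nonneg := k.η_nonneg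
            η_le := k.η_le
            ηr_le := k.ηr_le
            ηc_le := k.ηc_le
            a := k.M + k.M / k.δ * ((n : ℝ) + 2) + k.M / k.δ + ((n : ℝ) + 1) * k.M + 1
            a_pos := by positivity
            d := 1
            d_pos := one_pos
            f := fun _ => 1
            f_cont := continuous_const
            f_nonneg := fun _ => zero_le_one
            K' := ((volume : Measure (Ev n)).toSphere).real univ
            B_nonneg := ?_
            B_lower := ?_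
            K'_bound := ?_ }, rfl, rfl, rfl, rfl, rfl⟩
  · intro r c c' _ hc hc'
    exact zero_le_one.trans (k.tk_low r c c' hc hc')
  · intro r c c' hr hc hc1 hc' hc1'
    have hB := k.tk_low r c c' (abs_le.2 ⟨by linarith, hc1⟩) (abs_le.2 ⟨by linarith, hc1'⟩)
    have hp : 0 < r ^ (n - 1) := pow_pos hr _
    have hcc : 0 < c * c' := mul_pos hc hc'
    have hcc1 : c * c' ≤ 1 := mul_le_one₀ hc1 hc'.le hc1'
    have h1 : c * c' * (1 * r - 1 - 1) ≤ r ^ (n - 1) := by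
      rcases le_or_gt r 2 with h2 | h2
      · have : c * c' * (1 * r - 1 - 1) ≤ 0 := mul_nonpos_of_nonneg_of_nonpos hcc.le (by linarith)
        linarith
      · have h3 : r ≤ r ^ (n - 1) := le_self_pow₀ (by linarith) (by omega)
        have h4 : c * c' * (1 * r - 1 - 1) ≤ 1 * (1 * r - 1 - 1) :=
          mul_le_mul_of_nonneg_right hcc1 (by linarith)
        linarith
    exact h1.trans (le_mul_of_one_le_left hp.le hB)
  · intro e he
    haveI := tk_fin n
    have h1 : ‖∫ ω : Metric.sphere (0 : Ev n) 1, |inner ℝ (ω : Ev n) e| * (1 : ℝ)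
        ∂(volume : Measure (Ev n)).toSphere‖ ≤
        1 * ((volume : Measure (Ev n)).toSphere).real univ := by
      refine norm_integral_le_of_norm_le_const (Eventually.of_forall fun ω => ?_)
      rw [mul_one, Real.norm_eq_abs, abs_abs]
      refine (abs_real_inner_le_norm _ _).trans ?_
      rw [he, mul_one, norm_eq_of_mem_sphere ω]
    rw [one_mul] at h1
    exact (le_abs_self _).trans h1

/-- flat kernel with the same `η` -/
def toKer (hn : 2 ≤ n) : Ker n := (k.exists_toKer hn).choose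

theorem toKer_η (hn : 2 ≤ n) : (k.toKer hn).η = k.η := (k.exists_toKer hn).choose_spec.1

theorem toKer_ηr (hn : 2 ≤ n) : (k.toKer hn).ηr = k.ηr := (k.exists_toKer hn).choose_spec.2.1

theorem toKer_ηc (hn : 2 ≤ n) : (k.toKer hn).ηc = k.ηc := (k.exists_toKer hn).choose_spec.2.2.1

theorem toKer_δ (hn : 2 ≤ n) : (k.toKer hn).δ = k.δ := (k.exists_toKer hn).choose_spec.2.2.2.1

theorem toKer_M (hn : 2 ≤ n) : (k.toKer hn).M = k.M := (k.exists_toKer hn).choose_spec.2.2.2.2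

end KerH

end

end Vale.Agent.Lib.P219
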