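import Mathlib.Analysis.SpecialFunctions.Trigonometric.DerivHyp
import Vale.Agent.Lib.P219.K.ToKer
import Vale.Agent.Lib.P219.A.KerB

/-! # P219, curvature `≤ -1`: bounds and interpolated conditions for a certificate -/

namespace Vale.Agent.Lib.P219

open MeasureTheory Set Filter Topology

namespace KerH

variable {n : ℕ} (k : KerH n)

theorem η_cont : Continuous (fun p : ℝ × ℝ => k.η p.1 p.2) := k.smooth.continuous

theorem ηr_cont (hn : 2 ≤ n) : Continuous (fun p : ℝ × ℝ => k.ηr p.1 p.2) := by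
  have h := (k.toKer hn).ηr_cont
  rwa [k.toKer_ηr hn] at h

theorem ηc_cont (hn : 2 ≤ n) : Continuous (fun p : ℝ × ℝ => k.ηc p.1 p.2) := by
  have h := (k.toKer hn).ηc_cont
  rwa [k.toKer_ηc hn] at h

theorem ηr_zero (hn : 2 ≤ n) (r c : ℝ) (hr : r ≤ k.δ) : k.ηr r c = 0 := by
  have h := (k.toKer hn).ηr_zero r c
  rw [k.toKer_ηr hn, k.toKer_δ hn] at h
  exact h hr

theorem ηc_zero (hn : 2 ≤ n) (r c : ℝ) (hr : r ≤ k.δ) : k.ηc r c = 0 := by
  have h := (k.toKer hn).ηc_zero r c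
  rw [k.toKer_ηc hn, k.toKer_δ hn] at h
  exact h hr

private theorem kerHB_meas (F : ℝ → ℝ → ℝ) (hF : Continuous (fun p : ℝ × ℝ => F p.1 p.2)) :
    Measurable (fun p : ℝ × ℝ × ℝ => F p.1 p.2.2) :=
  hF.measurable.comp (measurable_fst.prodMk (measurable_snd.comp measurable_snd))

theorem gh_measurable (hn : 2 ≤ n) :
    Measurable (fun p : ℝ × ℝ × ℝ => k.gh p.1 p.2.1 p.2.2) := by
  have h1 := kerHB_meas k.η k.η_cont
  have h2 := kerHB_meas k.ηr (k.ηr_cont hn)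
  have h3 := kerHB_meas k.ηc (k.ηc_cont hn)
  have hr : Measurable (fun p : ℝ × ℝ × ℝ => p.1) := measurable_fst
  have hch : Measurable (fun p : ℝ × ℝ × ℝ => Real.cosh p.1) :=
    Real.continuous_cosh.measurable.comp hr
  have hsh : Measurable (fun p : ℝ × ℝ × ℝ => Real.sinh p.1) :=
    Real.continuous_sinh.measurable.comp hr
  have hc : Measurable (fun p : ℝ × ℝ × ℝ => p.2.1) := measurable_fst.comp measurable_snd
  have hc' : Measurable (fun p : ℝ × ℝ × ℝ => p.2.2) := measurable_snd.comp measurable_snd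
  have h3a : Measurable (fun p : ℝ × ℝ × ℝ => |k.ηc p.1 p.2.2|) := h3.abs
  have hca : Measurable (fun p : ℝ × ℝ × ℝ => |p.2.1|) := hc.abs
  unfold gh
  exact (((h2.mul (measurable_const.sub (hc.pow_const 2))).add
    ((h1.mul (hch.div hsh)).mul (measurable_const.add (hc.pow_const 2)))).sub
    (((hca.mul h3a).mul (((measurable_const.sub (hc.pow_const 2)).mul
      (measurable_const.sub (hc'.pow_const 2))).sqrt)).div hsh))

theorem g_measurable (hn : 2 ≤ n) (m : ℝ) :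
    Measurable (fun p : ℝ × ℝ × ℝ => k.g m p.1 p.2.1 p.2.2) := by
  have h1 := kerHB_meas k.η k.η_cont
  have hc : Measurable (fun p : ℝ × ℝ × ℝ => p.2.1) := measurable_fst.comp measurable_snd
  unfold g
  exact (k.gh_measurable hn).sub ((measurable_const.mul hc).mul h1)

theorem B_measurable (hn : 2 ≤ n) (m : ℝ) :
    Measurable (fun p : ℝ × ℝ × ℝ => k.B m p.1 p.2.1 p.2.2) := by
  have h1 := k.g_measurable hn m
  have h2 : Measurable (fun p : ℝ × ℝ × ℝ => k.g m p.1 p.2.2 p.2.1) :=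
    (k.g_measurable hn m).comp (measurable_fst.prodMk
      ((measurable_snd.comp measurable_snd).prodMk (measurable_fst.comp measurable_snd)))
  unfold B
  exact measurable_const.add ((h1.add h2).div_const 2)

private theorem kerHB_sq {c : ℝ} (hc : |c| ≤ 1) : 0 ≤ 1 - c ^ 2 ∧ 1 - c ^ 2 ≤ 1 ∧ c ^ 2 ≤ 1 := by
  have h1 : c ^ 2 ≤ 1 := by
    rw [← sq_abs]
    exact pow_le_one₀ (abs_nonneg c) hc
  exact ⟨by linarith, by nlinarith [sq_nonneg c], h1⟩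

private theorem kerHB_coth {r δ : ℝ} (hδ : 0 < δ) (hr : δ ≤ r) :
    0 < Real.sinh r ∧ Real.cosh r / Real.sinh r ≤ Real.cosh δ / Real.sinh δ ∧
      1 / Real.sinh r ≤ 1 / Real.sinh δ := by
  have h1 : 0 < Real.sinh δ := Real.sinh_pos_iff.2 hδ
  have h2 : Real.sinh δ ≤ Real.sinh r := Real.sinh_le_sinh.2 hr
  have h3 : 0 < Real.sinh r := lt_of_lt_of_le h1 h2
  refine ⟨h3, ?_, one_div_le_one_div_of_le h1 h2⟩
  rw [div_le_div_iff₀ h3 h1]
  have h4 : 0 ≤ Real.sinh (r - δ) := Real.sinh_nonneg_iff.2 (by linarith)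
  rw [Real.sinh_sub] at h4
  linarith

private theorem kerHB_ηcoth (r c : ℝ) (hc : |c| ≤ 1) :
    |k.η r c * (Real.cosh r / Real.sinh r)| ≤ k.M * (Real.cosh k.δ / Real.sinh k.δ) := by
  have h0 : 0 < Real.sinh k.δ := Real.sinh_pos_iff.2 k.δ_pos
  have hM := k.M_pos
  rcases le_or_gt r k.δ with h | h
  · rw [k.η_zero r c h, zero_mul, abs_zero]
    have := Real.cosh_pos k.δ
    positivity
  · obtain ⟨h1, h2, _⟩ := kerHB_coth k.δ_pos h.le
    have h3 : 0 ≤ Real.cosh r / Real.sinh r := (div_pos (Real.cosh_pos r) h1).le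
    rw [abs_of_nonneg (mul_nonneg (k.η_nonneg r c hc) h3)]
    exact mul_le_mul (k.η_le r c hc) h2 h3 hM.le

private theorem kerHB_ηcdiv (hn : 2 ≤ n) (r c : ℝ) (hc : |c| ≤ 1) :
    |(|k.ηc r c| / Real.sinh r)| ≤ k.M * (1 / Real.sinh k.δ) := by
  have h0 : 0 < Real.sinh k.δ := Real.sinh_pos_iff.2 k.δ_pos
  have hM := k.M_pos
  rcases le_or_gt r k.δ with h | h
  · rw [k.ηc_zero hn r c h, abs_zero, zero_div, abs_zero]
    positivity
  · obtain ⟨h1, _, h2⟩ := kerHB_coth k.δ_pos h.le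
    rw [abs_of_nonneg (div_nonneg (abs_nonneg _) h1.le), div_eq_mul_one_div]
    exact mul_le_mul (k.ηc_le r c hc) h2 (by positivity) hM.le

private theorem kerHB_gh (hn : 2 ≤ n) (r c c' : ℝ) (hc : |c| ≤ 1) (hc' : |c'| ≤ 1) :
    |k.gh r c c'| ≤ k.M + k.M * (Real.cosh k.δ / Real.sinh k.δ) * ((n : ℝ) + 2)
      + k.M * (1 / Real.sinh k.δ) := by
  obtain ⟨h1, h2, h3⟩ := kerHB_sq hc
  obtain ⟨h1', h2', h3'⟩ := kerHB_sq hc'
  have hn' : (0 : ℝ) ≤ n := Nat.cast_nonneg n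
  have h0 : 0 < Real.sinh k.δ := Real.sinh_pos_iff.2 k.δ_pos
  have hM := k.M_pos
  have hCH : 0 ≤ k.M * (Real.cosh k.δ / Real.sinh k.δ) := by
    have := Real.cosh_pos k.δ
    positivity
  have a1 : |k.ηr r c' * (1 - c ^ 2)| ≤ k.M := by
    rw [abs_mul, abs_of_nonneg h1]
    calc |k.ηr r c'| * (1 - c ^ 2) ≤ k.M * 1 :=
          mul_le_mul (k.ηr_le r c' hc') h2 h1 k.M_pos.le
      _ = k.M := mul_one _
  have a2 : |k.η r c' * (Real.cosh r / Real.sinh r) * ((n : ℝ) - 2 + c ^ 2)|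
      ≤ k.M * (Real.cosh k.δ / Real.sinh k.δ) * ((n : ℝ) + 2) := by
    rw [abs_mul]
    refine mul_le_mul (kerHB_ηcoth k r c' hc') ?_ (abs_nonneg _) hCH
    rw [abs_le]
    constructor
    · nlinarith [sq_nonneg c]
    · linarith
  have a3 : |(|c| * |k.ηc r c'| * Real.sqrt ((1 - c ^ 2) * (1 - c' ^ 2)) / Real.sinh r)|
      ≤ k.M * (1 / Real.sinh k.δ) := by
    have e : |c| * |k.ηc r c'| * Real.sqrt ((1 - c ^ 2) * (1 - c' ^ 2)) / Real.sinh r =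
        (|c| * Real.sqrt ((1 - c ^ 2) * (1 - c' ^ 2))) * (|k.ηc r c'| / Real.sinh r) := by ring
    rw [e, abs_mul]
    have b1 : Real.sqrt ((1 - c ^ 2) * (1 - c' ^ 2)) ≤ 1 := by
      rw [Real.sqrt_le_one]
      exact mul_le_one₀ h2 h1' h2'
    have b2 : |(|c| * Real.sqrt ((1 - c ^ 2) * (1 - c' ^ 2)))| ≤ 1 := by
      rw [abs_of_nonneg (by positivity)]
      exact mul_le_one₀ hc (Real.sqrt_nonneg _) b1
    calc |(|c| * Real.sqrt ((1 - c ^ 2) * (1 - c' ^ 2)))| * |(|k.ηc r c'| / Real.sinh r)| ≤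
        1 * (k.M * (1 / Real.sinh k.δ)) :=
          mul_le_mul b2 (kerHB_ηcdiv k hn r c' hc') (abs_nonneg _) zero_le_one
      _ = _ := one_mul _
  unfold gh
  calc |k.ηr r c' * (1 - c ^ 2) + k.η r c' * (Real.cosh r / Real.sinh r) * ((n : ℝ) - 2 + c ^ 2)
        - |c| * |k.ηc r c'| * Real.sqrt ((1 - c ^ 2) * (1 - c' ^ 2)) / Real.sinh r|
      ≤ |k.ηr r c' * (1 - c ^ 2) + k.η r c' * (Real.cosh r / Real.sinh r) * ((n : ℝ) - 2 + c ^ 2)| +
        |(|c| * |k.ηc r c'| * Real.sqrt ((1 - c ^ 2) * (1 - c' ^ 2)) / Real.sinh r)| := abs_sub _ _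
    _ ≤ (|k.ηr r c' * (1 - c ^ 2)|
          + |k.η r c' * (Real.cosh r / Real.sinh r) * ((n : ℝ) - 2 + c ^ 2)|) +
        |(|c| * |k.ηc r c'| * Real.sqrt ((1 - c ^ 2) * (1 - c' ^ 2)) / Real.sinh r)| := by
        have := abs_add_le (k.ηr r c' * (1 - c ^ 2))
          (k.η r c' * (Real.cosh r / Real.sinh r) * ((n : ℝ) - 2 + c ^ 2))
        linarith
    _ ≤ _ := by linarith

theorem exists_bound (hn : 2 ≤ n) : ∃ C : ℝ, 0 < C ∧ ∀ m, 0 ≤ m → m ≤ k.Hm → ∀ r c c', |c| ≤ 1 →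
    |c'| ≤ 1 → |k.gh r c c'| ≤ C ∧ |k.g m r c c'| ≤ C ∧ |k.B m r c c'| ≤ C := by
  have hn' : (0 : ℝ) ≤ n := Nat.cast_nonneg n
  have h0 : 0 < Real.sinh k.δ := Real.sinh_pos_iff.2 k.δ_pos
  have hch := Real.cosh_pos k.δ
  have hM := k.M_pos
  have ha := k.a_pos
  have hHm := k.Hm_pos
  set D : ℝ := k.M + k.M * (Real.cosh k.δ / Real.sinh k.δ) * ((n : ℝ) + 2)
      + k.M * (1 / Real.sinh k.δ) with hD
  have hDpos : 0 < D := by positivity
  have hHM : 0 < k.Hm * k.M := by positivity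
  refine ⟨k.a + (D + k.Hm * k.M), by positivity, ?_⟩
  intro m hm hm' r c c' hc hc'
  have hg : ∀ c c' : ℝ, |c| ≤ 1 → |c'| ≤ 1 → |k.g m r c c'| ≤ D + k.Hm * k.M := by
    intro c c' hc hc'
    have h1 := kerHB_gh k hn r c c' hc hc'
    have h2 : |m * c * k.η r c'| ≤ k.Hm * k.M := by
      rw [abs_mul, abs_mul, abs_of_nonneg (k.η_nonneg r c' hc'), abs_of_nonneg hm]
      have b2 : m * |c| ≤ k.Hm * 1 := mul_le_mul hm' hc (abs_nonneg _) hHm.le
      rw [mul_one] at b2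
      exact mul_le_mul b2 (k.η_le r c' hc') (k.η_nonneg r c' hc') hHm.le
    unfold g
    calc |k.gh r c c' - m * c * k.η r c'| ≤ |k.gh r c c'| + |m * c * k.η r c'| := abs_sub _ _
      _ ≤ _ := by linarith
  have h1 := kerHB_gh k hn r c c' hc hc'
  have h2 := hg c c' hc hc'
  have h3 := hg c' c hc' hc
  refine ⟨by linarith, by linarith, ?_⟩
  unfold B
  rw [abs_le] at h2 h3 ⊢
  constructor <;> linarith [h2.1, h2.2, h3.1, h3.2]

theorem B_symm (m r c c' : ℝ) : k.B m r c c' = k.B m r c' c := by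
  unfold B
  ring

private theorem kerHB_affine (m r c c' : ℝ) :
    k.B m r c c' = (1 - m / k.Hm) * k.B 0 r c c' + m / k.Hm * k.B k.Hm r c c' := by
  have hH := k.Hm_pos.ne'
  unfold B g
  field_simp
  ring

private theorem kerHB_zero {r c c' : ℝ} (hr : 0 < r) (hc : |c| ≤ 1) (hc' : |c'| ≤ 1) :
    0 ≤ k.B 0 r c c' := by
  have h := k.B_zero r c c' hr hc hc'
  unfold B g gh
  simpa using h

private theorem kerHB_le {m : ℝ} (hm' : m ≤ k.Hm) {r c c' : ℝ} (hc : 0 ≤ c) (hc1 : c ≤ 1)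
    (hc' : 0 ≤ c') (hc1' : c' ≤ 1) : k.B k.Hm r c c' ≤ k.B m r c c' := by
  have h1 : 0 ≤ k.η r c := k.η_nonneg r c (by rw [abs_of_nonneg hc]; exact hc1)
  have h2 : 0 ≤ k.η r c' := k.η_nonneg r c' (by rw [abs_of_nonneg hc']; exact hc1')
  have h3 : 0 ≤ (k.Hm - m) * (c * k.η r c') :=
    mul_nonneg (by linarith) (mul_nonneg hc h2)
  have h4 : 0 ≤ (k.Hm - m) * (c' * k.η r c) :=
    mul_nonneg (by linarith) (mul_nonneg hc' h1)
  unfold B g
  nlinarith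

private theorem kerHB_comp {r γ c' : ℝ} (hr : 0 < r)
    (hc : 0 ≤ γ) (hc1 : γ ≤ 1) (hc' : 0 ≤ c') (hc1' : c' ≤ 1) :
    γ * k.h r ≤ k.B k.Hm r (-γ) c' * Real.sinh r ^ (n - 1) := by
  have h := k.B_comp' r γ c' hr hc hc1 hc' hc1'
  refine h.trans (le_of_eq ?_)
  unfold B g gh
  rw [abs_neg]
  ring_nf

private theorem kerHB_S {r : ℝ} (hr : 0 < r) : 0 < Real.sinh r ^ (n - 1) :=
  pow_pos (Real.sinh_pos_iff.2 hr) _

theorem B_nonneg_of_nonpos {m : ℝ} (hm : 0 ≤ m) (hm' : m ≤ k.Hm) {r c c' : ℝ} (hr : 0 < r)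
    (hc : |c| ≤ 1) (hc' : |c'| ≤ 1) (h : c ≤ 0 ∨ c' ≤ 0) : 0 ≤ k.B m r c c' := by
  have key : ∀ c c' : ℝ, |c| ≤ 1 → |c'| ≤ 1 → c ≤ 0 → 0 ≤ k.B m r c c' := by
    intro c c' hc hc' h
    have h0 := kerHB_zero k hr hc hc'
    rcases le_total c' 0 with h1 | h1
    · have h2 : 0 ≤ k.η r c := k.η_nonneg r c hc
      have h3 : 0 ≤ k.η r c' := k.η_nonneg r c' hc'
      have h4 : 0 ≤ m * ((-c) * k.η r c') := mul_nonneg hm (mul_nonneg (by linarith) h3)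
      have h5 : 0 ≤ m * ((-c') * k.η r c) := mul_nonneg hm (mul_nonneg (by linarith) h2)
      have h6 : k.B m r c c' = k.B 0 r c c' + (m * ((-c) * k.η r c') + m * ((-c') * k.η r c)) / 2 := by
        unfold B g
        ring
      rw [h6]
      linarith
    · have h2 := kerHB_comp k (γ := -c) (c' := c') hr (by linarith)
        (by have := (abs_le.1 hc).1; linarith) h1 (abs_le.1 hc').2
      rw [neg_neg] at h2
      have h3 : 0 ≤ -c * k.h r := mul_nonneg (by linarith) (k.h_nonneg r hr.le)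
      have h4 : 0 ≤ k.B k.Hm r c c' := by
        by_contra h5
        push Not at h5
        have := mul_neg_of_neg_of_pos h5 (kerHB_S (n := n) hr)
        linarith
      rw [kerHB_affine]
      have h5 : 0 ≤ m / k.Hm := div_nonneg hm k.Hm_pos.le
      have h6 : m / k.Hm ≤ 1 := (div_le_one k.Hm_pos).2 hm'
      exact add_nonneg (mul_nonneg (by linarith) h0) (mul_nonneg h5 h4)
  rcases h with h | h
  · exact key c c' hc hc' h
  · rw [B_symm]
    exact key c' c hc' hc h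

theorem B_slope_m {m : ℝ} (hm : 0 ≤ m) (hm' : m ≤ k.Hm) {r c c' : ℝ} (hr : 0 < r)
    (hc : 0 ≤ c) (hc1 : c ≤ 1) (hc' : 0 ≤ c') (hc1' : c' ≤ 1) :
    0 ≤ k.B m r c c' + c * c' * Real.sqrt (k.η r c * k.η r c') / Real.sinh r := by
  have h1 := k.B_slope r c c' hr hc hc1 hc' hc1'
  have h2 := kerHB_le k (r := r) hm' hc hc1 hc' hc1'
  unfold B g gh at *
  linarith

theorem B_comp_m {m : ℝ} (hm : 0 ≤ m) (hm' : m ≤ k.Hm) {r c c' : ℝ} (hr : 0 < r)
    (hc : 0 ≤ c) (hc1 : c ≤ 1) (hc' : 0 ≤ c') (hc1' : c' ≤ 1) :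
    -(c * (m / k.Hm * k.h r)) ≤ k.B m r c c' * Real.sinh r ^ (n - 1) := by
  have h1 : -(c * k.h r) ≤ k.B k.Hm r c c' * Real.sinh r ^ (n - 1) :=
    k.B_comp r c c' hr hc hc1 hc' hc1'
  have h0 := kerHB_zero k (r := r) (c := c) (c' := c') hr (by rw [abs_of_nonneg hc]; exact hc1)
    (by rw [abs_of_nonneg hc']; exact hc1')
  have hS := kerHB_S (n := n) hr
  have h5 : 0 ≤ m / k.Hm := div_nonneg hm k.Hm_pos.le
  have h6 : m / k.Hm ≤ 1 := (div_le_one k.Hm_pos).2 hm'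
  rw [kerHB_affine]
  have h7 : 0 ≤ (1 - m / k.Hm) * k.B 0 r c c' * Real.sinh r ^ (n - 1) :=
    mul_nonneg (mul_nonneg (by linarith) h0) hS.le
  have h8 := mul_le_mul_of_nonneg_left h1 h5
  calc -(c * (m / k.Hm * k.h r)) = m / k.Hm * -(c * k.h r) := by ring
    _ ≤ m / k.Hm * (k.B k.Hm r c c' * Real.sinh r ^ (n - 1)) := h8
    _ ≤ (1 - m / k.Hm) * k.B 0 r c c' * Real.sinh r ^ (n - 1) +
        m / k.Hm * (k.B k.Hm r c c' * Real.sinh r ^ (n - 1)) := by linarith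
    _ = _ := by ring

theorem B_comp'_m {m : ℝ} (hm : 0 ≤ m) (hm' : m ≤ k.Hm) {r γ c' : ℝ} (hr : 0 < r)
    (hc : 0 ≤ γ) (hc1 : γ ≤ 1) (hc' : 0 ≤ c') (hc1' : c' ≤ 1) :
    γ * (m / k.Hm * k.h r) ≤ k.B m r (-γ) c' * Real.sinh r ^ (n - 1) := by
  have h1 := kerHB_comp k hr hc hc1 hc' hc1'
  have h0 := kerHB_zero k (r := r) (c := -γ) (c' := c') hr
    (by rw [abs_neg, abs_of_nonneg hc]; exact hc1) (by rw [abs_of_nonneg hc']; exact hc1')
  have hS := kerHB_S (n := n) hr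
  have h5 : 0 ≤ m / k.Hm := div_nonneg hm k.Hm_pos.le
  have h6 : m / k.Hm ≤ 1 := (div_le_one k.Hm_pos).2 hm'
  rw [kerHB_affine]
  have h7 : 0 ≤ (1 - m / k.Hm) * k.B 0 r (-γ) c' * Real.sinh r ^ (n - 1) :=
    mul_nonneg (mul_nonneg (by linarith) h0) hS.le
  have h8 := mul_le_mul_of_nonneg_left h1 h5
  calc γ * (m / k.Hm * k.h r) = m / k.Hm * (γ * k.h r) := by ring
    _ ≤ m / k.Hm * (k.B k.Hm r (-γ) c' * Real.sinh r ^ (n - 1)) := h8
    _ ≤ (1 - m / k.Hm) * k.B 0 r (-γ) c' * Real.sinh r ^ (n - 1) +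
        m / k.Hm * (k.B k.Hm r (-γ) c' * Real.sinh r ^ (n - 1)) := by linarith
    _ = _ := by ring

theorem B_lower_m {m : ℝ} (hm : 0 ≤ m) (hm' : m ≤ k.Hm) {r c c' : ℝ} (hr : 0 < r)
    (hc : 0 < c) (hc1 : c ≤ 1) (hc' : 0 < c') (hc1' : c' ≤ 1) :
    c * c' * (k.d * r - k.f c - k.f c') ≤ k.B m r c c' * Real.sinh r ^ (n - 1) := by
  have h1 : c * c' * (k.d * r - k.f c - k.f c') ≤ k.B k.Hm r c c' * Real.sinh r ^ (n - 1) :=
    k.B_lower r c c' hr hc hc1 hc' hc1'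
  have h2 := kerHB_le k (r := r) hm' hc.le hc1 hc'.le hc1'
  exact h1.trans (mul_le_mul_of_nonneg_right h2 (kerHB_S (n := n) hr).le)

end KerH

end Vale.Agent.Lib.P219
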