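import Mathlib.Analysis.SpecialFunctions.Trigonometric.Series
import Vale.Agent.Lib.P219.K.KerHB
import Vale.Agent.Lib.P219.A.Phi

/-! # P219, curvature `≤ -1`: first order expansion of the area factor (scalar)

`sqrt X ≤ (1 + X) / 2`.  For `r ≤ δ` everything is trivial (`η = ηr = ηc = 0`, `J ≤ 1`).
For `δ ≤ r ≤ D`: `sinh ((1-σ) r)/sinh r ≤ 1 - σ r coth r + C σ²` with `σ = τ η / r`, etc. -/

namespace Vale.Agent.Lib.P219

open MeasureTheory Set Filter Topology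

namespace KerH

variable {n : ℕ} (k : KerH n)

private theorem EH_pow_le_second (m : ℕ) {x : ℝ} (h0 : 0 ≤ x) (h1 : x ≤ 1) :
    (1 - x) ^ m ≤ 1 - m * x + (m : ℝ) ^ 2 * x ^ 2 := by
  induction m with
  | zero => simp
  | succ m ih =>
    have h2 : 0 ≤ 1 - x := by linarith
    have h3 := mul_le_mul_of_nonneg_right ih h2
    rw [pow_succ]
    have hm : (0 : ℝ) ≤ m := Nat.cast_nonneg m
    have e : (1 - m * x + (m : ℝ) ^ 2 * x ^ 2) * (1 - x) =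
        1 - ((m : ℝ) + 1) * x + ((m : ℝ) ^ 2 + m) * x ^ 2 - (m : ℝ) ^ 2 * x ^ 3 := by ring
    have h4 : 0 ≤ (m : ℝ) ^ 2 * x ^ 3 := by positivity
    have h5 : 0 ≤ ((m : ℝ) + 1) * x ^ 2 := by positivity
    push_cast
    nlinarith [h3, h4, h5]

private theorem EH_sqrt_le_half {X : ℝ} (hX : 0 ≤ X) : Real.sqrt X ≤ (1 + X) / 2 := by
  have h1 := Real.sq_sqrt hX
  nlinarith [sq_nonneg (Real.sqrt X - 1)]

private theorem EH_cosh_le {t : ℝ} (h0 : 0 ≤ t) (h1 : t ≤ 1) : Real.cosh t ≤ 1 + t ^ 2 := by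
  have h2 : t ^ 2 ≤ 1 := pow_le_one₀ h0 h1
  have h3 : 0 ≤ t ^ 2 := sq_nonneg t
  have h4 := Real.exp_bound_div_one_sub_of_interval (x := t ^ 2 / 2) (by linarith) (by linarith)
  refine (Real.cosh_le_exp_half_sq t).trans (h4.trans ?_)
  rw [div_le_iff₀ (by linarith)]
  nlinarith

/-- `r coth r ≥ 1` -/
private theorem EH_one_le_rcoth {r : ℝ} (hr : 0 < r) : 1 ≤ rcoth r := by
  have hs : 0 < Real.sinh r := Real.sinh_pos_iff.2 hr
  have hmono : MonotoneOn (fun s => s * Real.cosh s - Real.sinh s) (Ici (0 : ℝ)) := by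
    have hd : ∀ s : ℝ, HasDerivAt (fun s => s * Real.cosh s - Real.sinh s)
        (1 * Real.cosh s + s * Real.sinh s - Real.cosh s) s := fun s =>
      ((hasDerivAt_id s).fun_mul (Real.hasDerivAt_cosh s)).fun_sub (Real.hasDerivAt_sinh s)
    refine monotoneOn_of_deriv_nonneg (convex_Ici 0)
      (fun s _ => (hd s).continuousAt.continuousWithinAt)
      (fun s _ => (hd s).differentiableAt.differentiableWithinAt) (fun s hs => ?_)
    rw [interior_Ici] at hs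
    have hs0 : 0 < s := hs
    rw [(hd s).deriv]
    have := mul_pos hs0 (Real.sinh_pos_iff.2 hs0)
    linarith
  have h1 := hmono (mem_Ici.2 le_rfl) (mem_Ici.2 hr.le) hr.le
  simp only [zero_mul, Real.sinh_zero, sub_zero] at h1
  unfold rcoth
  rw [le_div_iff₀ hs]
  linarith

private theorem EH_rcoth_le {r D : ℝ} (hr : 0 < r) (hrD : r ≤ D) : rcoth r ≤ Real.cosh D := by
  have hs : 0 < Real.sinh r := Real.sinh_pos_iff.2 hr
  have h1 : r ≤ Real.sinh r := Real.self_le_sinh_iff.2 hr.le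
  have h2 : Real.cosh r ≤ Real.cosh D := by
    rw [Real.cosh_le_cosh, abs_of_pos hr, abs_of_pos (hr.trans_le hrD)]
    exact hrD
  unfold rcoth
  rw [div_le_iff₀ hs]
  calc r * Real.cosh r ≤ Real.sinh r * Real.cosh D :=
        mul_le_mul h1 h2 (Real.cosh_pos r).le hs.le
    _ = Real.cosh D * Real.sinh r := mul_comm _ _

private theorem EH_sinh_ratio {r x : ℝ} (hr : 0 < r) (hx : 0 ≤ x) (hxr : x * r ≤ 1) :
    Real.sinh ((1 - x) * r) / Real.sinh r ≤ 1 - x * rcoth r + r ^ 2 * x ^ 2 := by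
  have hs : 0 < Real.sinh r := Real.sinh_pos_iff.2 hr
  have hxr0 : 0 ≤ x * r := mul_nonneg hx hr.le
  have e1 : (1 - x) * r = r - x * r := by ring
  rw [div_le_iff₀ hs, e1, Real.sinh_sub]
  have h1 := EH_cosh_le hxr0 hxr
  have h2 : x * r ≤ Real.sinh (x * r) := Real.self_le_sinh_iff.2 hxr0
  have h3 := mul_le_mul_of_nonneg_left h1 hs.le
  have h4 := mul_le_mul_of_nonneg_left h2 (Real.cosh_pos r).le
  have e2 : (1 - x * rcoth r + r ^ 2 * x ^ 2) * Real.sinh r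
      = Real.sinh r * (1 + (x * r) ^ 2) - Real.cosh r * (x * r) := by
    unfold rcoth
    field_simp
    ring
  rw [e2]
  linarith

private theorem EH_main {τ A R q c S l J Y m D₁ R₀ L₁ C₂ T ε' : ℝ} (hτ : 0 ≤ τ) (hτT : τ ≤ T)
    (hA : 0 ≤ A) (hAD : A ≤ D₁) (hR : 0 ≤ R) (hRR : R ≤ R₀) (hS : 0 ≤ S) (hS1 : S ≤ 1)
    (hSc : S ^ 2 = 1 - c ^ 2) (hc2 : c ^ 2 ≤ 1) (hq : |q| ≤ D₁) (hm : 0 ≤ m) (hC₂ : 0 ≤ C₂)
    (hl : |l - ε'| ≤ L₁) (hJ0 : 0 ≤ J) (hJ : J ≤ 1 - τ * A * (l - ε'))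
    (hY : Y ≤ 1 - m * (τ * A * R) + C₂ * (τ * A) ^ 2) :
    c ^ 2 * J ^ 2 + Y * (S + τ * q) ^ 2
      ≤ 1 - 2 * τ * (c ^ 2 * A * (l - ε') - S * q + m / 2 * (A * R * S ^ 2))
        + τ ^ 2 * (D₁ ^ 2 * L₁ ^ 2 + C₂ * D₁ ^ 2 + D₁ ^ 2
          + (2 * D₁ + T * D₁ ^ 2) * (m * D₁ * R₀ + C₂ * T * D₁ ^ 2)) := by
  have hD : 0 ≤ D₁ := hA.trans hAD
  have hT : 0 ≤ T := hτ.trans hτT
  have hR₀ : 0 ≤ R₀ := hR.trans hRR
  have hL : 0 ≤ L₁ := (abs_nonneg _).trans hl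
  have hA2 : A ^ 2 ≤ D₁ ^ 2 := pow_le_pow_left₀ hA hAD 2
  have hq2 : q ^ 2 ≤ D₁ ^ 2 := sq_le_sq' (abs_le.mp hq).1 (abs_le.mp hq).2
  have hl2 : (l - ε') ^ 2 ≤ L₁ ^ 2 := sq_le_sq' (abs_le.mp hl).1 (abs_le.mp hl).2
  -- first term
  have t1 : c ^ 2 * J ^ 2 ≤ c ^ 2 * (1 - 2 * τ * (A * (l - ε'))) + τ ^ 2 * (D₁ ^ 2 * L₁ ^ 2) := by
    have h1 : J ^ 2 ≤ (1 - τ * A * (l - ε')) ^ 2 := pow_le_pow_left₀ hJ0 hJ 2
    have h2 := mul_le_mul_of_nonneg_left h1 (sq_nonneg c)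
    have h3 : A ^ 2 * (l - ε') ^ 2 ≤ D₁ ^ 2 * L₁ ^ 2 :=
      mul_le_mul hA2 hl2 (sq_nonneg _) (sq_nonneg _)
    have h4 : c ^ 2 * (τ ^ 2 * (A ^ 2 * (l - ε') ^ 2)) ≤ 1 * (τ ^ 2 * (D₁ ^ 2 * L₁ ^ 2)) :=
      mul_le_mul hc2 (mul_le_mul_of_nonneg_left h3 (sq_nonneg τ)) (by positivity) zero_le_one
    have e : c ^ 2 * (1 - τ * A * (l - ε')) ^ 2 = c ^ 2 * (1 - 2 * τ * (A * (l - ε')))
        + c ^ 2 * (τ ^ 2 * (A ^ 2 * (l - ε') ^ 2)) := by ring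
    linarith
  -- second term
  have t2 := mul_le_mul_of_nonneg_right hY (sq_nonneg (S + τ * q))
  have hSq : |S * q| ≤ D₁ := by
    rw [abs_mul, abs_of_nonneg hS]
    calc S * |q| ≤ 1 * D₁ := mul_le_mul hS1 hq (abs_nonneg q) zero_le_one
      _ = D₁ := one_mul D₁
  have hQ : |2 * (S * q) + τ * q ^ 2| ≤ 2 * D₁ + T * D₁ ^ 2 := by
    refine (abs_add_le _ _).trans (add_le_add ?_ ?_)
    · rw [abs_mul, abs_of_pos (by norm_num : (0 : ℝ) < 2)]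
      linarith
    · rw [abs_mul, abs_of_nonneg hτ, abs_of_nonneg (sq_nonneg q)]
      exact mul_le_mul hτT hq2 (sq_nonneg q) hT
  have hV : |-(m * A * R) + C₂ * (τ * A ^ 2)| ≤ m * D₁ * R₀ + C₂ * T * D₁ ^ 2 := by
    refine (abs_add_le _ _).trans (add_le_add ?_ ?_)
    · rw [abs_neg, abs_of_nonneg (by positivity)]
      exact mul_le_mul (mul_le_mul_of_nonneg_left hAD hm) hRR hR (mul_nonneg hm hD)
    · rw [abs_of_nonneg (by positivity), mul_assoc C₂ T]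
      exact mul_le_mul_of_nonneg_left (mul_le_mul hτT hA2 (sq_nonneg A) hT) hC₂
  have hQV : (2 * (S * q) + τ * q ^ 2) * (-(m * A * R) + C₂ * (τ * A ^ 2))
      ≤ (2 * D₁ + T * D₁ ^ 2) * (m * D₁ * R₀ + C₂ * T * D₁ ^ 2) := by
    refine (le_abs_self _).trans ?_
    rw [abs_mul]
    exact mul_le_mul hQ hV (abs_nonneg _) (by positivity)
  have hS2 : S ^ 2 ≤ 1 := pow_le_one₀ hS hS1
  have hCA : C₂ * (A ^ 2 * S ^ 2) ≤ C₂ * D₁ ^ 2 := by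
    refine mul_le_mul_of_nonneg_left ?_ hC₂
    calc A ^ 2 * S ^ 2 ≤ D₁ ^ 2 * 1 := mul_le_mul hA2 hS2 (sq_nonneg _) (sq_nonneg _)
      _ = D₁ ^ 2 := mul_one _
  have h5 : τ ^ 2 * (C₂ * (A ^ 2 * S ^ 2) + q ^ 2
      + (2 * (S * q) + τ * q ^ 2) * (-(m * A * R) + C₂ * (τ * A ^ 2)))
      ≤ τ ^ 2 * (C₂ * D₁ ^ 2 + D₁ ^ 2
        + (2 * D₁ + T * D₁ ^ 2) * (m * D₁ * R₀ + C₂ * T * D₁ ^ 2)) :=
    mul_le_mul_of_nonneg_left (by linarith) (sq_nonneg τ)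
  have e2 : (1 - m * (τ * A * R) + C₂ * (τ * A) ^ 2) * (S + τ * q) ^ 2
      = S ^ 2 * (1 - m * (τ * A * R)) + 2 * τ * (S * q)
        + τ ^ 2 * (C₂ * (A ^ 2 * S ^ 2) + q ^ 2
          + (2 * (S * q) + τ * q ^ 2) * (-(m * A * R) + C₂ * (τ * A ^ 2))) := by ring
  have e3 : c ^ 2 * (1 - 2 * τ * (A * (l - ε'))) + S ^ 2 * (1 - m * (τ * A * R))
      + 2 * τ * (S * q) = (c ^ 2 + S ^ 2)
        - 2 * τ * (c ^ 2 * A * (l - ε') - S * q + m / 2 * (A * R * S ^ 2)) := by ring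
  have e4 : c ^ 2 + S ^ 2 = 1 := by rw [hSc]; ring
  rw [e4] at e3
  rw [e2] at t2
  linarith

theorem expandH (hn : 2 ≤ n) {D Lm ε : ℝ} (hD : 0 < D) (hLm : 0 ≤ Lm) (hε : 0 < ε) :
    ∃ τ₁ > 0, ∃ ε' > 0, τ₁ ≤ (k.toKer hn).τ₀ ∧ ∀ τ, 0 ≤ τ → τ ≤ τ₁ → ∀ r c c' l J : ℝ,
      0 < r → r ≤ D → |c| ≤ 1 → |c'| ≤ 1 → (n - 1) * rcoth r ≤ l → l ≤ Lm → 0 ≤ J →
      J ≤ 1 - τ * k.η r c' / r * l + τ * k.η r c' / r * ε' →
      Real.sqrt (c ^ 2 * J ^ 2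
          + (Real.sinh ((1 - τ * k.η r c' / r) * r) / Real.sinh r) ^ (2 * n - 4)
            * ((1 - τ * k.ηr r c') * Real.sqrt (1 - c ^ 2)
              + |c| * (τ * |k.ηc r c'| * Real.sqrt (1 - c' ^ 2) / Real.sinh r)) ^ 2)
        ≤ 1 - τ * (k.gh r c c' + c ^ 2 * k.η r c' * ((l - (n - 1) * rcoth r) / r) - ε) := by
  have hM := k.M_pos
  have hδ := k.δ_pos
  have ht0 : 0 < (k.toKer hn).τ₀ := (k.toKer hn).τ₀_pos
  obtain ⟨T, hT⟩ : ∃ T : ℝ, T = (k.toKer hn).τ₀ := ⟨_, rfl⟩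
  rw [← hT] at ht0
  have hT1 : T * k.M ≤ 1 / 2 := by
    have h1 : T ≤ 1 / (2 * k.M) := by
      rw [hT]
      have h := min_le_left (1 / (2 * (k.toKer hn).M)) ((k.toKer hn).δ / (2 * (k.toKer hn).M))
      rw [k.toKer_M hn] at h
      refine le_trans (le_of_eq ?_) h
      unfold Ker.τ₀
      rw [k.toKer_M hn]
    calc T * k.M ≤ 1 / (2 * k.M) * k.M := mul_le_mul_of_nonneg_right h1 hM.le
      _ = 1 / 2 := by field_simp
  have hT2 : T * (k.M / k.δ) ≤ 1 / 2 := by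
    have h1 : T ≤ k.δ / (2 * k.M) := by
      rw [hT]
      have h := min_le_right (1 / (2 * (k.toKer hn).M)) ((k.toKer hn).δ / (2 * (k.toKer hn).M))
      rw [k.toKer_M hn, k.toKer_δ hn] at h
      refine le_trans (le_of_eq ?_) h
      unfold Ker.τ₀
      rw [k.toKer_M hn, k.toKer_δ hn]
    calc T * (k.M / k.δ) ≤ k.δ / (2 * k.M) * (k.M / k.δ) :=
        mul_le_mul_of_nonneg_right h1 (div_pos hM hδ).le
      _ = 1 / 2 := by field_simp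
  obtain ⟨D₁, hD₁⟩ : ∃ D₁ : ℝ, D₁ = k.M + k.M / k.δ := ⟨_, rfl⟩
  have hMδ : 0 < k.M / k.δ := div_pos hM hδ
  have hD₁pos : 0 < D₁ := by rw [hD₁]; positivity
  obtain ⟨m, hm⟩ : ∃ m : ℝ, m = ((2 * n - 4 : ℕ) : ℝ) := ⟨_, rfl⟩
  have hm0 : 0 ≤ m := by rw [hm]; exact Nat.cast_nonneg _
  have hm' : m / 2 = (n : ℝ) - 2 := by
    rw [hm, Nat.cast_sub (by omega)]
    push_cast
    ring
  have hn1 : (1 : ℝ) ≤ n := by exact_mod_cast (by omega : 1 ≤ n)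
  obtain ⟨R₀, hR₀⟩ : ∃ R₀ : ℝ, R₀ = Real.cosh D := ⟨_, rfl⟩
  have hR₀pos : 0 < R₀ := by rw [hR₀]; exact Real.cosh_pos D
  obtain ⟨C₂, hC₂⟩ : ∃ C₂ : ℝ, C₂ = m * D ^ 2 + m ^ 2 * R₀ ^ 2 := ⟨_, rfl⟩
  have hC₂0 : 0 ≤ C₂ := by rw [hC₂]; positivity
  obtain ⟨K, hK⟩ : ∃ K : ℝ, K = D₁ ^ 2 * (Lm + 1) ^ 2 + C₂ * D₁ ^ 2 + D₁ ^ 2
          + (2 * D₁ + T * D₁ ^ 2) * (m * D₁ * R₀ + C₂ * T * D₁ ^ 2) := ⟨_, rfl⟩
  have hKpos : 0 < K := by rw [hK]; positivity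
  refine ⟨min T (min (1 / (D ^ 2 * D₁)) (ε / K)), by positivity, min 1 (ε / (2 * D₁)),
    by positivity, ?_, ?_⟩
  · rw [← hT]
    exact min_le_left _ _
  intro τ hτ hττ r c c' l J hr hrD hc hc' hl hlL hJ0 hJ
  have hτT : τ ≤ T := hττ.trans (min_le_left _ _)
  have hτ1 : τ ≤ 1 / (D ^ 2 * D₁) := hττ.trans ((min_le_right _ _).trans (min_le_left _ _))
  have hτ2 : τ ≤ ε / K := hττ.trans ((min_le_right _ _).trans (min_le_right _ _))
  obtain ⟨ε', hε'⟩ : ∃ ε' : ℝ, ε' = min 1 (ε / (2 * D₁)) := ⟨_, rfl⟩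
  rw [← hε'] at hJ
  have hε'0 : 0 ≤ ε' := by rw [hε']; positivity
  have hε'1 : ε' ≤ 1 := by rw [hε']; exact min_le_left _ _
  have hε'2 : ε' ≤ ε / (2 * D₁) := by rw [hε']; exact min_le_right _ _
  have hsr : 0 < Real.sinh r := Real.sinh_pos_iff.2 hr
  have hrs : r ≤ Real.sinh r := Real.self_le_sinh_iff.2 hr.le
  have hA0 : 0 ≤ k.η r c' / r := div_nonneg (k.η_nonneg r c' hc') hr.le
  have hAle : k.η r c' / r ≤ k.M / k.δ := by
    have h := (k.toKer hn).η_div_le r c' hc'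
    rwa [k.toKer_η hn, k.toKer_M hn, k.toKer_δ hn] at h
  have hble : |k.ηc r c'| / Real.sinh r ≤ k.M / k.δ := by
    have h := (k.toKer hn).ηc_div_le r c' hc'
    rw [k.toKer_ηc hn, k.toKer_M hn, k.toKer_δ hn, abs_div, abs_of_pos hr] at h
    exact (div_le_div_of_nonneg_left (abs_nonneg _) hr hrs).trans h
  have hb0 : 0 ≤ |k.ηc r c'| / Real.sinh r := by positivity
  have hp := k.ηr_le r c' hc'
  have hc2 : c ^ 2 ≤ 1 := (sq_le_one_iff_abs_le_one c).mpr hc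
  have hc2' : c' ^ 2 ≤ 1 := (sq_le_one_iff_abs_le_one c').mpr hc'
  have hS0 : 0 ≤ Real.sqrt (1 - c ^ 2) := Real.sqrt_nonneg _
  have hS0' : 0 ≤ Real.sqrt (1 - c' ^ 2) := Real.sqrt_nonneg _
  have hSs : Real.sqrt (1 - c ^ 2) ^ 2 = 1 - c ^ 2 := Real.sq_sqrt (by linarith)
  have hS1 : Real.sqrt (1 - c ^ 2) ≤ 1 := by
    rw [Real.sqrt_le_one]; linarith [sq_nonneg c]
  have hS1' : Real.sqrt (1 - c' ^ 2) ≤ 1 := by
    rw [Real.sqrt_le_one]; linarith [sq_nonneg c']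
  have hR1 := EH_one_le_rcoth hr
  have hRle := EH_rcoth_le hr hrD
  rw [← hR₀] at hRle
  have hgh : k.gh r c c' + c ^ 2 * k.η r c' * ((l - (n - 1) * rcoth r) / r)
      = c ^ 2 * (k.η r c' / r) * l + k.ηr r c' * (1 - c ^ 2)
        + (n - 2) * ((k.η r c' / r) * rcoth r * (1 - c ^ 2))
        - |c| * (|k.ηc r c'| / Real.sinh r) * (Real.sqrt (1 - c ^ 2) * Real.sqrt (1 - c' ^ 2)) := by
    unfold gh rcoth
    rw [Real.sqrt_mul (by linarith : (0 : ℝ) ≤ 1 - c ^ 2)]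
    field_simp
    ring
  have eA : τ * k.η r c' / r = τ * (k.η r c' / r) := by ring
  have eb : τ * |k.ηc r c'| * Real.sqrt (1 - c' ^ 2) / Real.sinh r =
      τ * (|k.ηc r c'| / Real.sinh r) * Real.sqrt (1 - c' ^ 2) := by ring
  have hηr : τ * (k.η r c' / r) * r ≤ 1 := by
    have h1 : τ * (k.η r c' / r) * r = τ * k.η r c' := by field_simp
    rw [h1]
    calc τ * k.η r c' ≤ T * k.M :=
          mul_le_mul hτT (k.η_le r c' hc') (k.η_nonneg r c' hc') ht0.le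
      _ ≤ 1 := by linarith
  rw [hgh, eA, eb]
  rw [eA] at hJ
  generalize k.η r c' / r = A at *
  generalize |k.ηc r c'| / Real.sinh r = b at *
  generalize Real.sqrt (1 - c ^ 2) = S at *
  generalize Real.sqrt (1 - c' ^ 2) = S' at *
  generalize k.ηr r c' = p at *
  have hAD : A ≤ D₁ := by rw [hD₁]; linarith
  have hx0 : 0 ≤ τ * A := mul_nonneg hτ hA0
  have hx1 : τ * A ≤ 1 := by
    calc τ * A ≤ T * (k.M / k.δ) := mul_le_mul hτT hAle hA0 ht0.le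
      _ ≤ 1 := by linarith
  have hratio := EH_sinh_ratio hr hx0 hηr
  have hs0 : 0 ≤ Real.sinh ((1 - τ * A) * r) / Real.sinh r := by
    refine div_nonneg (Real.sinh_nonneg_iff.2 ?_) hsr.le
    exact mul_nonneg (by linarith) hr.le
  have hR0 : 0 ≤ rcoth r := by linarith
  generalize Real.sinh ((1 - τ * A) * r) / Real.sinh r = s at *
  generalize rcoth r = R at *
  obtain ⟨y, hy⟩ : ∃ y : ℝ, y = τ * A * R - D ^ 2 * (τ * A) ^ 2 := ⟨_, rfl⟩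
  have hsy : s ≤ 1 - y := by
    have h1 : r ^ 2 ≤ D ^ 2 := pow_le_pow_left₀ hr.le hrD 2
    have h2 := mul_le_mul_of_nonneg_right h1 (sq_nonneg (τ * A))
    rw [hy]
    linarith
  have hy0 : 0 ≤ y := by
    have h1 : D ^ 2 * (τ * A) ≤ 1 := by
      have h2 : τ * A ≤ 1 / (D ^ 2 * D₁) * D₁ := mul_le_mul hτ1 hAD hA0 (by positivity)
      calc D ^ 2 * (τ * A) ≤ D ^ 2 * (1 / (D ^ 2 * D₁) * D₁) :=
            mul_le_mul_of_nonneg_left h2 (sq_nonneg D)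
        _ = 1 := by field_simp
    have h3 : y = τ * A * (R - D ^ 2 * (τ * A)) := by rw [hy]; ring
    rw [h3]
    exact mul_nonneg hx0 (by linarith)
  have hy1 : y ≤ 1 := by linarith
  have hyx : y ≤ τ * A * R := by
    rw [hy]
    have : 0 ≤ D ^ 2 * (τ * A) ^ 2 := by positivity
    linarith
  have hY : s ^ (2 * n - 4) ≤ 1 - m * (τ * A * R) + C₂ * (τ * A) ^ 2 := by
    have h1 : s ^ (2 * n - 4) ≤ (1 - y) ^ (2 * n - 4) := pow_le_pow_left₀ hs0 hsy _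
    have h2 := EH_pow_le_second (2 * n - 4) hy0 hy1
    rw [← hm] at h2
    have h3 : y ^ 2 ≤ (τ * A) ^ 2 * R₀ ^ 2 := by
      rw [← mul_pow]
      exact pow_le_pow_left₀ hy0 (hyx.trans (mul_le_mul_of_nonneg_left hRle hx0)) 2
    have h4 := mul_le_mul_of_nonneg_left h3 (sq_nonneg m)
    have h5 : m * y = m * (τ * A * R) - m * D ^ 2 * (τ * A) ^ 2 := by rw [hy]; ring
    rw [hC₂]
    linarith
  have hlε : |l - ε'| ≤ Lm + 1 := by
    have h1 : 0 ≤ (n - 1) * R := mul_nonneg (by linarith) hR0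
    rw [abs_le]
    constructor <;> linarith
  have hq : |(-p * S + |c| * b * S')| ≤ D₁ := by
    refine (abs_add_le _ _).trans ?_
    rw [hD₁]
    apply add_le_add
    · rw [abs_mul, abs_neg, abs_of_nonneg hS0]
      calc |p| * S ≤ k.M * 1 := mul_le_mul hp hS1 hS0 hM.le
        _ = k.M := mul_one _
    · rw [abs_of_nonneg (by positivity)]
      calc |c| * b * S' ≤ 1 * (k.M / k.δ) * 1 := by
            apply mul_le_mul (mul_le_mul hc hble hb0 zero_le_one) hS1' hS0' (by positivity)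
        _ = k.M / k.δ := by ring
  have hmain := EH_main hτ hτT hA0 hAD hR0 hRle hS0 hS1 hSs hc2 hq hm0 hC₂0 hlε hJ0
    (by linarith [mul_sub (τ * A) l ε']) hY
  rw [← hK] at hmain
  have eQ : (1 - τ * p) * S + |c| * (τ * b * S') = S + τ * (-p * S + |c| * b * S') := by
    ring
  rw [eQ]
  have hX0 : 0 ≤ c ^ 2 * J ^ 2 + s ^ (2 * n - 4) * (S + τ * (-p * S + |c| * b * S')) ^ 2 := by
    positivity
  have hsq := EH_sqrt_le_half hX0
  have h1 : c ^ 2 * A * ε' ≤ ε / 2 := by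
    calc c ^ 2 * A * ε' ≤ 1 * D₁ * (ε / (2 * D₁)) :=
          mul_le_mul (mul_le_mul hc2 hAD hA0 zero_le_one) hε'2 hε'0 (by positivity)
      _ = ε / 2 := by field_simp
  have h2 : τ * K ≤ ε := by
    calc τ * K ≤ ε / K * K := mul_le_mul_of_nonneg_right hτ2 hKpos.le
      _ = ε := by field_simp
  have h3 := mul_le_mul_of_nonneg_left h1 hτ
  have h4 := mul_le_mul_of_nonneg_left h2 hτ
  rw [hm', hSs] at hmain
  have e5 : S * (-p * S + |c| * b * S') = -(p * (1 - c ^ 2)) + |c| * b * (S * S') := by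
    rw [← hSs]; ring
  rw [e5] at hmain
  linarith

end KerH

end Vale.Agent.Lib.P219
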