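import Vale.Agent.Lib.P219.K.Basic

/-! # P219, curvature `≤ -1`: uniform first order expansion of the Jacobian along rays -/

namespace Vale.Agent.Lib.P219

open MeasureTheory Set Filter Topology

namespace HDataH

variable {n : ℕ} (H : HDataH n)

/-- derivative of `t ↦ t^(n-1) th x (t w)` at every `t > 0` -/
theorem hasDerivAt_jac (x w : Ev n) {t : ℝ} (ht : 0 < t) :
    HasDerivAt (fun s : ℝ => s ^ (n - 1) * H.th x (s • w))
      (H.lt x (t • w) / t * (t ^ (n - 1) * H.th x (t • w))) t := by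
  have h1 := H.lt_deriv x (t • w)
  have h2 : HasDerivAt (fun s : ℝ => s / t) (1 / t) t := (hasDerivAt_id t).div_const t
  have h1' : HasDerivAt (fun u : ℝ => u ^ (n - 1) * |(H.P x (u • t • w)).det|)
      (H.lt x (t • w) * |(H.P x (t • w)).det|) (t / t) := by
    rw [div_self ht.ne']
    exact h1
  have h3 := (HasDerivAt.comp (h := fun s : ℝ => s / t) t h1' h2).const_mul (t ^ (n - 1))
  have h4 : (fun s : ℝ => t ^ (n - 1) *
      (((fun u : ℝ => u ^ (n - 1) * |(H.P x (u • t • w)).det|) ∘ fun s : ℝ => s / t) s)) =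
      fun s : ℝ => s ^ (n - 1) * H.th x (s • w) := by
    funext s
    have h5 : (s / t) • t • w = s • w := by
      rw [smul_smul, div_mul_cancel₀ _ ht.ne']
    simp only [Function.comp]
    rw [h5, div_pow, HData.th, ← mul_assoc]
    congr 1
    field_simp
  rw [h4] at h3
  have h6 : t ^ (n - 1) * (H.lt x (t • w) * |(H.P x (t • w)).det| * (1 / t)) =
      H.lt x (t • w) / t * (t ^ (n - 1) * H.th x (t • w)) := by
    rw [HData.th]
    ring
  rw [h6] at h3
  exact h3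

theorem lt_bound {K : Set (Ev n)} (hK : IsCompact K) :
    ∃ Lm : ℝ, 0 ≤ Lm ∧ ∀ x ∈ K, ∀ w, H.Ex x w ∈ K → H.lt x w ≤ Lm := by
  obtain ⟨R, hR⟩ := H.exp_proper K hK
  have hC : IsCompact (K ×ˢ Metric.closedBall (0 : Ev n) R) :=
    hK.prod (isCompact_closedBall _ _)
  obtain ⟨M, hM⟩ := hC.bddAbove_image (f := fun p : Ev n × Ev n => H.lt p.1 p.2)
    H.lt_cont.continuousOn
  refine ⟨max M 0, le_max_right _ _, fun x hx w hw => ?_⟩
  refine le_trans (hM ⟨(x, w), ⟨hx, ?_⟩, rfl⟩) (le_max_left _ _)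
  rw [mem_closedBall_zero_iff]
  exact hR x hx w hw

theorem jac_unif {K : Set (Ev n)} (hK : IsCompact K) {ε' : ℝ} (hε' : 0 < ε') :
    ∃ σ₁ > 0, σ₁ ≤ 1 / 2 ∧ ∀ x ∈ K, ∀ w, H.Ex x w ∈ K → ∀ σ, 0 ≤ σ → σ ≤ σ₁ →
      H.th x ((1 - σ) • w) * (1 - σ) ^ (n - 1)
        ≤ H.th x w * (1 - σ * H.lt x w + σ * ε') := by
  obtain ⟨R, hR⟩ := H.exp_proper K hK
  set D : ℝ × (Ev n × Ev n) → ℝ := fun p =>
    H.lt p.2.1 (p.1 • p.2.2) / p.1 * (p.1 ^ (n - 1) * H.th p.2.1 (p.1 • p.2.2)) with hD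
  have hcomp : IsCompact (Icc (1 / 2 : ℝ) 1 ×ˢ (K ×ˢ Metric.closedBall (0 : Ev n) R)) :=
    isCompact_Icc.prod (hK.prod (isCompact_closedBall _ _))
  have hm : Continuous (fun p : ℝ × (Ev n × Ev n) => ((p.2.1, p.1 • p.2.2) : Ev n × Ev n)) := by
    fun_prop
  have hl : Continuous (fun p : ℝ × (Ev n × Ev n) => H.lt p.2.1 (p.1 • p.2.2)) :=
    H.lt_cont.comp hm
  have hth : Continuous (fun p : ℝ × (Ev n × Ev n) => H.th p.2.1 (p.1 • p.2.2)) :=
    H.th_cont.comp hm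
  have hDc : ContinuousOn D (Icc (1 / 2 : ℝ) 1 ×ˢ (K ×ˢ Metric.closedBall (0 : Ev n) R)) := by
    refine ContinuousOn.mul (ContinuousOn.div hl.continuousOn continuous_fst.continuousOn ?_)
      (((continuous_fst.pow _).mul hth).continuousOn)
    rintro ⟨s, p⟩ ⟨hs, _⟩
    have : (1 / 2 : ℝ) ≤ s := hs.1
    exact ne_of_gt (by linarith)
  obtain ⟨d, hd, hu⟩ := Metric.uniformContinuousOn_iff.1
    (hcomp.uniformContinuousOn_of_continuous hDc) ε' hε'
  refine ⟨min (d / 2) (1 / 2), lt_min (by linarith) (by norm_num), min_le_right _ _, ?_⟩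
  intro x hx w hw σ hσ0 hσ1
  have hσd : σ ≤ d / 2 := hσ1.trans (min_le_left _ _)
  have hσh : σ ≤ 1 / 2 := hσ1.trans (min_le_right _ _)
  have hwR : w ∈ Metric.closedBall (0 : Ev n) R := by
    rw [mem_closedBall_zero_iff]
    exact hR x hx w hw
  have hth1 : 1 ≤ H.th x w := H.one_le_th x w
  rcases hσ0.eq_or_lt with h0 | hpos
  · subst h0
    simp
  set F : ℝ → ℝ := fun s => s ^ (n - 1) * H.th x (s • w) with hF
  have hFc : Continuous F := by
    refine (continuous_id.pow _).mul ?_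
    exact H.th_cont.comp (continuous_const.prodMk (continuous_id.smul continuous_const))
  obtain ⟨c, hc, hc'⟩ := exists_hasDerivAt_eq_slope F
    (fun s => H.lt x (s • w) / s * (s ^ (n - 1) * H.th x (s • w)))
    (show 1 - σ < 1 by linarith) hFc.continuousOn
    (fun s hs => H.hasDerivAt_jac x w (by have := hs.1; linarith))
  have hc1 : 1 - σ < c := hc.1
  have hc2 : c < 1 := hc.2
  have hdist := hu (c, (x, w)) ⟨⟨by show (1 / 2 : ℝ) ≤ c; linarith, hc2.le⟩, hx, hwR⟩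
    (1, (x, w)) ⟨⟨by norm_num, le_rfl⟩, hx, hwR⟩ (by
      rw [Prod.dist_eq]
      simp only [dist_self]
      rw [max_eq_left dist_nonneg, Real.dist_eq, abs_lt]
      constructor <;> linarith)
  have hD1 : D (1, (x, w)) = H.lt x w * H.th x w := by
    simp [hD]
  have hDc' : D (c, (x, w)) = (F 1 - F (1 - σ)) / (1 - (1 - σ)) := hc'
  rw [hD1, hDc', Real.dist_eq, abs_lt] at hdist
  have hF1 : F 1 = H.th x w := by simp [hF]
  have hFs : F (1 - σ) = H.th x ((1 - σ) • w) * (1 - σ) ^ (n - 1) := by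
    simp only [hF]
    ring
  rw [← hFs]
  have h7 : H.lt x w * H.th x w - ε' < (F 1 - F (1 - σ)) / (1 - (1 - σ)) := by linarith [hdist.1]
  have h8 : (1 : ℝ) - (1 - σ) = σ := by ring
  rw [h8, lt_div_iff₀ hpos, hF1] at h7
  have h9 : σ * ε' ≤ H.th x w * (σ * ε') :=
    le_mul_of_one_le_left (by positivity) hth1
  nlinarith

end HDataH

end Vale.Agent.Lib.P219
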