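import Vale.Agent.Lib.P219.K.Basic
import Vale.Agent.Lib.P219.K.KerHB
import Vale.Agent.Lib.P219.K.JacUnif
import Vale.Agent.Lib.P219.A.FVBasic

/-! # P219, curvature `≤ -1`: the excess term of the first variation -/

namespace Vale.Agent.Lib.P219

open MeasureTheory Set Filter Topology

namespace HDataH

variable {n : ℕ} (H : HDataH n) (k : KerH n)

/-- excess term of the first variation at base point `x`, direction `e` -/
noncomputable def FX (u : Ev n → ℝ) (x e : Ev n) : ℝ :=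
  ∫ w, ‖H.gr u (H.Ex x w)‖ * (H.cy u x w ^ 2 * k.η ‖w‖ (inner ℝ w e / ‖w‖) * H.ex x w) * H.th x w

private theorem fx_ce_le (w : Ev n) {e : Ev n} (he : ‖e‖ ≤ 1) : |inner ℝ w e / ‖w‖| ≤ 1 := by
  rw [abs_div, abs_norm]
  rcases eq_or_ne w 0 with rfl | hw
  · simp
  · rw [div_le_one (norm_pos_iff.2 hw)]
    calc |inner ℝ w e| ≤ ‖w‖ * ‖e‖ := abs_real_inner_le_norm w e
      _ ≤ ‖w‖ * 1 := mul_le_mul_of_nonneg_left he (norm_nonneg _)
      _ = ‖w‖ := mul_one _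

private theorem fx_cy_le (u : Ev n → ℝ) (x w : Ev n) : |H.cy u x w| ≤ 1 := by
  unfold HData.cy
  rw [neg_div, abs_neg, ← H.norm_ve x w]
  exact abs_real_inner_div_norm_mul_norm_le_one _ _

private theorem fx_cy_sq (u : Ev n → ℝ) (x w : Ev n) : H.cy u x w ^ 2 ≤ 1 := by
  rw [← sq_abs]
  exact pow_le_one₀ (abs_nonneg _) (H.fx_cy_le u x w)

private theorem fx_rcoth_nonneg {r : ℝ} (hr : 0 ≤ r) : 0 ≤ rcoth r := by
  unfold rcoth
  exact div_nonneg (mul_nonneg hr (Real.cosh_pos r).le) (Real.sinh_nonneg_iff.2 hr)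

/-- pointwise bound for `η * ex` -/
private theorem fx_eta_ex_le (hn : 1 ≤ n) {Lm : ℝ} (hL0 : 0 ≤ Lm) {x w : Ev n}
    (hL : H.lt x w ≤ Lm) {e : Ev n} (he : ‖e‖ ≤ 1) :
    k.η ‖w‖ (inner ℝ w e / ‖w‖) * H.ex x w ≤ k.M * (Lm / k.δ) := by
  have hη0 := k.η_nonneg ‖w‖ (inner ℝ w e / ‖w‖) (fx_ce_le w he)
  have hη1 := k.η_le ‖w‖ (inner ℝ w e / ‖w‖) (fx_ce_le w he)
  rcases le_or_gt ‖w‖ k.δ with hd | hd
  · rw [k.η_zero _ _ hd, zero_mul]
    exact mul_nonneg k.M_pos.le (div_nonneg hL0 k.δ_pos.le)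
  · have hw : 0 < ‖w‖ := k.δ_pos.trans hd
    have hex0 := H.ex_nonneg hn x w
    have hn1 : (0 : ℝ) ≤ (n : ℝ) - 1 := by
      have : (1 : ℝ) ≤ n := by exact_mod_cast hn
      linarith
    have hex : H.ex x w ≤ Lm / k.δ := by
      unfold ex
      have h1 : H.lt x w - ((n : ℝ) - 1) * rcoth ‖w‖ ≤ Lm := by
        have := mul_nonneg hn1 (fx_rcoth_nonneg hw.le)
        linarith
      exact div_le_div₀ hL0 h1 k.δ_pos hd.le
    exact mul_le_mul hη1 hex hex0 k.M_pos.le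

private theorem fx_integrand_nonneg (hn : 1 ≤ n) (u : Ev n → ℝ) (x w : Ev n) {e : Ev n}
    (he : ‖e‖ ≤ 1) :
    0 ≤ ‖H.gr u (H.Ex x w)‖
      * (H.cy u x w ^ 2 * k.η ‖w‖ (inner ℝ w e / ‖w‖) * H.ex x w) * H.th x w := by
  have h1 := k.η_nonneg ‖w‖ (inner ℝ w e / ‖w‖) (fx_ce_le w he)
  have h2 := H.ex_nonneg hn x w
  have h3 : 0 ≤ H.th x w := abs_nonneg _
  exact mul_nonneg (mul_nonneg (norm_nonneg _) (mul_nonneg (mul_nonneg (sq_nonneg _) h1) h2)) h3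

private theorem fx_integrand_le (hn : 1 ≤ n) {K : Set (Ev n)} {u : Ev n → ℝ}
    (hs : tsupport u ⊆ K) {x : Ev n} {Lm : ℝ} (hL0 : 0 ≤ Lm)
    (hL : ∀ w, H.Ex x w ∈ K → H.lt x w ≤ Lm) (w : Ev n) {e : Ev n} (he : ‖e‖ ≤ 1) :
    ‖H.gr u (H.Ex x w)‖
      * (H.cy u x w ^ 2 * k.η ‖w‖ (inner ℝ w e / ‖w‖) * H.ex x w) * H.th x w
      ≤ k.M * (Lm / k.δ) * (‖H.gr u (H.Ex x w)‖ * H.th x w) := by
  have h3 : 0 ≤ H.th x w := abs_nonneg _
  by_cases hK : H.Ex x w ∈ K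
  · have h1 := k.η_nonneg ‖w‖ (inner ℝ w e / ‖w‖) (fx_ce_le w he)
    have h2 := H.ex_nonneg hn x w
    have h4 := H.fx_eta_ex_le k hn hL0 (hL w hK) he
    have h5 : H.cy u x w ^ 2 * k.η ‖w‖ (inner ℝ w e / ‖w‖) * H.ex x w ≤ k.M * (Lm / k.δ) := by
      rw [mul_assoc]
      calc H.cy u x w ^ 2 * (k.η ‖w‖ (inner ℝ w e / ‖w‖) * H.ex x w)
          ≤ 1 * (k.η ‖w‖ (inner ℝ w e / ‖w‖) * H.ex x w) :=
            mul_le_mul_of_nonneg_right (H.fx_cy_sq u x w) (mul_nonneg h1 h2)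
        _ = k.η ‖w‖ (inner ℝ w e / ‖w‖) * H.ex x w := one_mul _
        _ ≤ _ := h4
    calc ‖H.gr u (H.Ex x w)‖
          * (H.cy u x w ^ 2 * k.η ‖w‖ (inner ℝ w e / ‖w‖) * H.ex x w) * H.th x w
        ≤ ‖H.gr u (H.Ex x w)‖ * (k.M * (Lm / k.δ)) * H.th x w :=
          mul_le_mul_of_nonneg_right (mul_le_mul_of_nonneg_left h5 (norm_nonneg _)) h3
      _ = k.M * (Lm / k.δ) * (‖H.gr u (H.Ex x w)‖ * H.th x w) := by ring
  · have h0 : H.gr u (H.Ex x w) = 0 := H.gr_zero_of_not_mem fun h => hK (hs h)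
    rw [h0, norm_zero, zero_mul, zero_mul, mul_zero]

private theorem fx_base {K : Set (Ev n)} (hK : IsCompact K) {u : Ev n → ℝ}
    (hu : ContDiff ℝ 1 u) (hs : tsupport u ⊆ K) (x : Ev n) :
    Integrable (fun w => ‖H.gr u (H.Ex x w)‖ * H.th x w) := by
  have hcs : HasCompactSupport u := hK.of_isClosed_subset (isClosed_tsupport u) hs
  have h := H.FV_integrable (F := fun _ _ _ => (1 : ℝ)) measurable_const (C := 1)
    (fun r c c' _ _ => by rw [abs_one]) hu hcs 1 x (e := 0) (by rw [norm_zero]; exact zero_le_one)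
  refine h.congr (Filter.Eventually.of_forall fun w => ?_)
  change ‖H.gr u (H.Ex x w)‖ * 1 * H.th x w = ‖H.gr u (H.Ex x w)‖ * H.th x w
  rw [mul_one]

private theorem fx_m1 {u : Ev n → ℝ} (hu : ContDiff ℝ 1 u) (x : Ev n) :
    Measurable (fun w => ‖H.gr u (H.Ex x w)‖) := by
  have hx : Continuous (fun w : Ev n => (x, w)) := continuous_const.prodMk continuous_id
  have h0 : Continuous (fun p : Ev n × Ev n => H.gr u (H.Ex p.1 p.2)) :=
    (H.gr_cont hu).comp H.Ex_cont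
  have h : Continuous (fun w => H.gr u (H.Ex x w)) := h0.comp hx
  exact h.norm.measurable

private theorem fx_sec {G : Ev n × Ev n → ℝ} (hG : Measurable G) (x : Ev n) :
    Measurable (fun w : Ev n => G (x, w)) := hG.comp measurable_prodMk_left

private theorem fx_m2 {u : Ev n → ℝ} (hu : ContDiff ℝ 1 u) (x : Ev n) :
    Measurable (fun w => H.cy u x w) := fx_sec (H.cy_measurable hu) x

private theorem fx_m3 (e : Ev n) : Measurable (fun w : Ev n => (inner ℝ w e / ‖w‖ : ℝ)) := by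
  have h1 : Continuous (fun w : Ev n => (inner ℝ w e : ℝ)) :=
    continuous_id.inner continuous_const
  exact h1.measurable.div continuous_norm.measurable

private theorem fx_m4 (e : Ev n) :
    Measurable (fun w : Ev n => k.η ‖w‖ (inner ℝ w e / ‖w‖)) := by
  have h1 : Measurable (fun w : Ev n => (‖w‖, (inner ℝ w e / ‖w‖ : ℝ))) :=
    continuous_norm.measurable.prodMk (fx_m3 e)
  have h2 : Measurable (fun p : ℝ × ℝ => k.η p.1 p.2) := k.η_cont.measurable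
  exact h2.comp h1

private theorem fx_m5 (x : Ev n) : Measurable (fun w => H.ex x w) := fx_sec H.ex_measurable x

private theorem fx_m6 (x : Ev n) : Measurable (fun w => H.th x w) := by
  have hx : Continuous (fun w : Ev n => (x, w)) := continuous_const.prodMk continuous_id
  have h : Continuous (fun w => H.th x w) := H.th_cont.comp hx
  exact h.measurable

private theorem fx_meas {u : Ev n → ℝ} (hu : ContDiff ℝ 1 u) (x e : Ev n) :
    Measurable (fun w => ‖H.gr u (H.Ex x w)‖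
      * (H.cy u x w ^ 2 * k.η ‖w‖ (inner ℝ w e / ‖w‖) * H.ex x w) * H.th x w) := by
  have m2 : Measurable (fun w => H.cy u x w ^ 2) := (H.fx_m2 hu x).pow_const 2
  have m3 : Measurable (fun w => H.cy u x w ^ 2 * k.η ‖w‖ (inner ℝ w e / ‖w‖)) :=
    m2.mul (fx_m4 k e)
  have m4 : Measurable (fun w => H.cy u x w ^ 2 * k.η ‖w‖ (inner ℝ w e / ‖w‖) * H.ex x w) :=
    m3.mul (H.fx_m5 x)
  exact ((H.fx_m1 hu x).mul m4).mul (H.fx_m6 x)

private theorem fx_norm_le (hn : 1 ≤ n) {K : Set (Ev n)} {u : Ev n → ℝ}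
    (hs : tsupport u ⊆ K) {x : Ev n} {Lm : ℝ} (hL0 : 0 ≤ Lm)
    (hL : ∀ w, H.Ex x w ∈ K → H.lt x w ≤ Lm) (w : Ev n) {e : Ev n} (he : ‖e‖ ≤ 1) :
    ‖‖H.gr u (H.Ex x w)‖
      * (H.cy u x w ^ 2 * k.η ‖w‖ (inner ℝ w e / ‖w‖) * H.ex x w) * H.th x w‖
      ≤ k.M * (Lm / k.δ) * (‖H.gr u (H.Ex x w)‖ * H.th x w) := by
  rw [Real.norm_eq_abs, abs_of_nonneg (H.fx_integrand_nonneg k hn u x w he)]
  exact H.fx_integrand_le k hn hs hL0 hL w he

theorem FX_nonneg (hn : 1 ≤ n) (u : Ev n → ℝ) (x : Ev n) {e : Ev n} (he : ‖e‖ ≤ 1) :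
    0 ≤ H.FX k u x e :=
  integral_nonneg fun w => H.fx_integrand_nonneg k hn u x w he

theorem FX_integrable (hn : 2 ≤ n) {K : Set (Ev n)} (hK : IsCompact K) {u : Ev n → ℝ}
    (hu : ContDiff ℝ 1 u) (hs : tsupport u ⊆ K) {x : Ev n} (hx : x ∈ K) {e : Ev n}
    (he : ‖e‖ ≤ 1) :
    Integrable (fun w => ‖H.gr u (H.Ex x w)‖
      * (H.cy u x w ^ 2 * k.η ‖w‖ (inner ℝ w e / ‖w‖) * H.ex x w) * H.th x w) := by
  obtain ⟨Lm, hL0, hL⟩ := H.lt_bound hK
  have hn1 : 1 ≤ n := by omega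
  have hm := (H.fx_meas k hu x e).aestronglyMeasurable (μ := (volume : Measure (Ev n)))
  have hb := Filter.Eventually.of_forall (f := ae (volume : Measure (Ev n)))
    (fun w => H.fx_norm_le k hn1 hs hL0 (fun w hw => hL x hx w hw) w he)
  exact Integrable.mono' ((H.fx_base hK hu hs x).const_mul (k.M * (Lm / k.δ))) hm hb

theorem exists_FX_le (hn : 2 ≤ n) {K : Set (Ev n)} (hK : IsCompact K) : ∃ C : ℝ, 0 < C ∧
    ∀ u : Ev n → ℝ, ContDiff ℝ 1 u → tsupport u ⊆ K → ∀ x ∈ K, ∀ e : Ev n, ‖e‖ ≤ 1 →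
      H.FX k u x e ≤ C * H.A u := by
  obtain ⟨Lm, hL0, hL⟩ := H.lt_bound hK
  have hn1 : 1 ≤ n := by omega
  have hC0 : 0 ≤ k.M * (Lm / k.δ) := mul_nonneg k.M_pos.le (div_nonneg hL0 k.δ_pos.le)
  refine ⟨k.M * (Lm / k.δ) + 1, by linarith, ?_⟩
  intro u hu hs x hx e he
  have hA : H.A u = ∫ w, ‖H.gr u (H.Ex x w)‖ * H.th x w := H.A_eq_exp u x
  have hA0 : 0 ≤ H.A u := by
    rw [hA]
    exact integral_nonneg fun w => mul_nonneg (norm_nonneg _) (abs_nonneg _)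
  have h1 : H.FX k u x e ≤ k.M * (Lm / k.δ) * H.A u := by
    rw [hA, ← integral_const_mul]
    exact integral_mono (H.FX_integrable k hn hK hu hs hx he)
      ((H.fx_base hK hu hs x).const_mul _)
      (fun w => H.fx_integrand_le k hn1 hs hL0 (fun w hw => hL x hx w hw) w he)
  linarith

end HDataH

end Vale.Agent.Lib.P219
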