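import Vale.Agent.Lib.P219.K.AreaPtH
import Vale.Agent.Lib.P219.K.ExpandH
import Vale.Agent.Lib.P219.K.JacUnif
import Vale.Agent.Lib.P219.K.FX

/-! # P219, curvature `≤ -1`: first order upper bound for the area of the transported function

Model: `A/AreaInt`.  `area_ptH` + `expandH` (with `l = lt x w`, `J` the Jacobian ratio, bounded by
`jac_unif`), integrated with `HData.integral_comp`. -/

namespace Vale.Agent.Lib.P219

open MeasureTheory Set Filter Topology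

namespace HDataH

variable {n : ℕ} (H : HDataH n) (k : KerH n)

private theorem aih_J (hn : 2 ≤ n) {x e w : Ev n} {τ ε' : ℝ}
    (hJ : H.th x ((1 - τ * k.η ‖w‖ (inner ℝ w e / ‖w‖) / ‖w‖) • w)
        * (1 - τ * k.η ‖w‖ (inner ℝ w e / ‖w‖) / ‖w‖) ^ (n - 1)
        ≤ H.th x w * (1 - τ * k.η ‖w‖ (inner ℝ w e / ‖w‖) / ‖w‖ * H.lt x w
          + τ * k.η ‖w‖ (inner ℝ w e / ‖w‖) / ‖w‖ * ε')) :
    H.th x ((k.toKer hn).phi τ 1 e w) * (k.toKer hn).mu τ 1 e w ^ (n - 1) / H.th x w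
      ≤ 1 - τ * k.η ‖w‖ (inner ℝ w e / ‖w‖) / ‖w‖ * H.lt x w
          + τ * k.η ‖w‖ (inner ℝ w e / ‖w‖) / ‖w‖ * ε' := by
  have hth : 0 < H.th x w := lt_of_lt_of_le one_pos (H.one_le_th x w)
  rw [div_le_iff₀ hth]
  have hmu : (k.toKer hn).mu τ 1 e w = 1 - τ * k.η ‖w‖ (inner ℝ w e / ‖w‖) / ‖w‖ := by
    unfold Ker.mu
    rw [div_one, mul_one, k.toKer_η hn]
  have hphi : (k.toKer hn).phi τ 1 e w = (1 - τ * k.η ‖w‖ (inner ℝ w e / ‖w‖) / ‖w‖) • w := by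
    unfold Ker.phi
    rw [hmu]
  rw [hphi, hmu, mul_comm _ (H.th x w)]
  exact hJ

theorem area_intH (hn : 2 ≤ n) {K : Set (Ev n)} (hK : IsCompact K) {ε : ℝ} (hε : 0 < ε) :
    ∃ τ₁ > 0, τ₁ ≤ (k.toKer hn).τ₀ ∧ ∀ x ∈ K, ∀ e : Ev n, ‖e‖ = 1 → ∀ τ : ℝ, 0 ≤ τ → τ ≤ τ₁ →
      ∀ u v : Ev n → ℝ, ContDiff ℝ 1 u → tsupport u ⊆ K → ContDiff ℝ 1 v →
      (∀ w, v (H.Ex x ((k.toKer hn).phi τ 1 e w)) = u (H.Ex x w)) →
      H.A v ≤ (1 + ε * τ) * H.A u - τ * (H.FV k.gh u 1 x e + H.FX k u x e) := by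
  obtain ⟨R, hR⟩ := H.exp_proper K hK
  obtain ⟨Lm, hLm0, hLm⟩ := H.lt_bound hK
  obtain ⟨τ₁, hτ₁, ε', hε', hτ₁le, hexp⟩ := k.expandH hn (D := max R 1) (Lm := Lm) (ε := ε)
    (lt_max_of_lt_right one_pos) hLm0 hε
  obtain ⟨σ₁, hσ₁, hσ₁', hjac⟩ := H.jac_unif hK hε'
  have hM := k.M_pos
  have hδ := k.δ_pos
  obtain ⟨Cg, hCg0, hCg⟩ := k.exists_bound hn
  have hn1 : 1 ≤ n := by omega
  have : Nonempty (Fin n) := ⟨⟨0, by omega⟩⟩
  refine ⟨min τ₁ (σ₁ * (k.δ / k.M)), lt_min hτ₁ (by positivity), (min_le_left _ _).trans hτ₁le, ?_⟩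
  intro x hx e he τ hτ hτ' u v hu hs hv huv
  have hττ₁ : τ ≤ τ₁ := hτ'.trans (min_le_left _ _)
  have hτ₀ : τ ≤ (k.toKer hn).τ₀ := hττ₁.trans hτ₁le
  have hτσ : τ * (k.M / k.δ) ≤ σ₁ := by
    have h1 : τ ≤ σ₁ * (k.δ / k.M) := hτ'.trans (min_le_right _ _)
    calc τ * (k.M / k.δ) ≤ σ₁ * (k.δ / k.M) * (k.M / k.δ) :=
          mul_le_mul_of_nonneg_right h1 (by positivity)
      _ = σ₁ := by field_simp
  have hcs : HasCompactSupport u := hK.of_isClosed_subset (isClosed_tsupport u) hs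
  have hne : ∀ᵐ w : Ev n, w ≠ 0 := by
    have h0 : (volume : Measure (Ev n)) {(0 : Ev n)} = 0 := by simp
    have := compl_mem_ae_iff.mpr h0
    filter_upwards [this] with w hw
    exact hw
  have hI1 : Integrable (fun w => ‖H.gr u (H.Ex x w)‖ * H.th x w) := by
    have h := H.FV_integrable (F := fun _ _ _ => (1 : ℝ)) measurable_const (C := 1)
      (fun _ _ _ _ _ => by simp) hu hcs 1 x he.le
    simpa using h
  have hI2 : Integrable (fun w => ‖H.gr u (H.Ex x w)‖ * k.gh (‖w‖ / 1) (H.cy u x w)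
      (inner ℝ w e / ‖w‖) * H.th x w) :=
    H.FV_integrable (k.gh_measurable hn) (C := Cg)
      (fun r c c' hc hc' => (hCg 0 le_rfl k.Hm_pos.le r c c' hc hc').1)
      hu hcs 1 x he.le
  have hI3 : Integrable (fun w => ‖H.gr u (H.Ex x w)‖
      * (H.cy u x w ^ 2 * k.η ‖w‖ (inner ℝ w e / ‖w‖) * H.ex x w) * H.th x w) :=
    H.FX_integrable k hn hK hu hs hx he.le
  have hI23 : Integrable (fun w => ‖H.gr u (H.Ex x w)‖ * k.gh (‖w‖ / 1) (H.cy u x w)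
      (inner ℝ w e / ‖w‖) * H.th x w + ‖H.gr u (H.Ex x w)‖
      * (H.cy u x w ^ 2 * k.η ‖w‖ (inner ℝ w e / ‖w‖) * H.ex x w) * H.th x w) := hI2.add hI3
  have hA : H.A v = ∫ w, ‖H.gr v (H.Ex x ((k.toKer hn).phi τ 1 e w))‖
      * (H.th x ((k.toKer hn).phi τ 1 e w) * |(fderiv ℝ ((k.toKer hn).phi τ 1 e) w).det|) :=
    H.integral_comp (k.toKer hn) hn1 x he hτ hτ₀ one_pos (fun y => ‖H.gr v y‖)
  have hpt : ∀ w : Ev n, w ≠ 0 → ‖H.gr v (H.Ex x ((k.toKer hn).phi τ 1 e w))‖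
      * (H.th x ((k.toKer hn).phi τ 1 e w) * |(fderiv ℝ ((k.toKer hn).phi τ 1 e) w).det|) ≤
      (1 + ε * τ) * (‖H.gr u (H.Ex x w)‖ * H.th x w)
        - τ * (‖H.gr u (H.Ex x w)‖ * k.gh (‖w‖ / 1) (H.cy u x w) (inner ℝ w e / ‖w‖) * H.th x w
          + ‖H.gr u (H.Ex x w)‖
            * (H.cy u x w ^ 2 * k.η ‖w‖ (inner ℝ w e / ‖w‖) * H.ex x w) * H.th x w) := by
    intro w hw
    have hr : 0 < ‖w‖ := norm_pos_iff.2 hw
    have hth : 0 < H.th x w := lt_of_lt_of_le one_pos (H.one_le_th x w)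
    have hm := H.area_ptH k hn x e he hτ hτ₀ hu hv huv w hw
    by_cases hsup : H.Ex x w ∈ tsupport u
    · have hxw : H.Ex x w ∈ K := hs hsup
      have hc := H.abs_cy_le u x w
      have hc' := Ker.phi_aux_abs_le he w
      have hwD : ‖w‖ ≤ max R 1 := (hR x hx w hxw).trans (le_max_left _ _)
      have hη0 : 0 ≤ k.η ‖w‖ (inner ℝ w e / ‖w‖) / ‖w‖ := by
        have h := (k.toKer hn).η_div_nonneg ‖w‖ (inner ℝ w e / ‖w‖) hc'
        rwa [k.toKer_η hn] at h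
      have hη1 : k.η ‖w‖ (inner ℝ w e / ‖w‖) / ‖w‖ ≤ k.M / k.δ := by
        have h := (k.toKer hn).η_div_le ‖w‖ (inner ℝ w e / ‖w‖) hc'
        rwa [k.toKer_η hn, k.toKer_M hn, k.toKer_δ hn] at h
      have hσ0 : 0 ≤ τ * k.η ‖w‖ (inner ℝ w e / ‖w‖) / ‖w‖ := by
        rw [mul_div_assoc]
        exact mul_nonneg hτ hη0
      have hσ1 : τ * k.η ‖w‖ (inner ℝ w e / ‖w‖) / ‖w‖ ≤ σ₁ := by
        rw [mul_div_assoc]
        exact (mul_le_mul_of_nonneg_left hη1 hτ).trans hτσ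
      have hJ := H.aih_J k hn (hjac x hx w hxw _ hσ0 hσ1)
      have hmu : (k.toKer hn).mu τ 1 e w = 1 - τ * k.η ‖w‖ (inner ℝ w e / ‖w‖) / ‖w‖ := by
        unfold Ker.mu
        rw [div_one, mul_one, k.toKer_η hn]
      have hmu0 : 0 ≤ (k.toKer hn).mu τ 1 e w := by
        rw [hmu]
        linarith
      have hJ0 : 0 ≤ H.th x ((k.toKer hn).phi τ 1 e w) * (k.toKer hn).mu τ 1 e w ^ (n - 1)
          / H.th x w :=
        div_nonneg (mul_nonneg (abs_nonneg _) (pow_nonneg hmu0 _)) hth.le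
      have hE := hexp τ hτ hττ₁ ‖w‖ (H.cy u x w) (inner ℝ w e / ‖w‖) (H.lt x w)
        (H.th x ((k.toKer hn).phi τ 1 e w) * (k.toKer hn).mu τ 1 e w ^ (n - 1) / H.th x w)
        hr hwD hc hc' (H.lt_ge hn1 x w hw) (hLm x hx w hxw) hJ0 hJ
      rw [← hmu] at hE
      have hG : 0 ≤ ‖H.gr u (H.Ex x w)‖ * H.th x w := mul_nonneg (norm_nonneg _) hth.le
      refine (hm.trans (mul_le_mul_of_nonneg_left hE hG)).trans (le_of_eq ?_)
      rw [div_one]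
      have hex : H.ex x w = (H.lt x w - (n - 1) * rcoth ‖w‖) / ‖w‖ := rfl
      rw [hex]
      ring
    · have h0 : H.gr u (H.Ex x w) = 0 := by
        unfold HData.gr
        have h1 : fderiv ℝ u (H.Ex x w) = 0 := by
          have h2 : H.Ex x w ∉ tsupport (fderiv ℝ u) := fun h => hsup (tsupport_fderiv_subset ℝ h)
          exact image_eq_zero_of_notMem_tsupport h2
        rw [h1, ContinuousLinearMap.zero_comp, map_zero]
      rw [h0, norm_zero, zero_mul, zero_mul] at hm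
      rw [h0, norm_zero]
      simp only [zero_mul, mul_zero, add_zero, sub_zero]
      exact hm
  have hbound : H.A v ≤ ∫ w, ((1 + ε * τ) * (‖H.gr u (H.Ex x w)‖ * H.th x w)
        - τ * (‖H.gr u (H.Ex x w)‖ * k.gh (‖w‖ / 1) (H.cy u x w) (inner ℝ w e / ‖w‖) * H.th x w
          + ‖H.gr u (H.Ex x w)‖
            * (H.cy u x w ^ 2 * k.η ‖w‖ (inner ℝ w e / ‖w‖) * H.ex x w) * H.th x w)) := by
    rw [hA]
    refine integral_mono_of_nonneg (Filter.Eventually.of_forall fun w => ?_)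
      ((hI1.const_mul _).sub (hI23.const_mul _)) ?_
    · simp only [Pi.zero_apply]
      exact mul_nonneg (norm_nonneg _) (mul_nonneg (abs_nonneg _) (abs_nonneg _))
    · filter_upwards [hne] with w hw
      exact hpt w hw
  rw [integral_sub (hI1.const_mul _) (hI23.const_mul _), integral_const_mul,
    integral_const_mul] at hbound
  have hadd : ∫ w, (‖H.gr u (H.Ex x w)‖ * k.gh (‖w‖ / 1) (H.cy u x w) (inner ℝ w e / ‖w‖)
        * H.th x w + ‖H.gr u (H.Ex x w)‖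
            * (H.cy u x w ^ 2 * k.η ‖w‖ (inner ℝ w e / ‖w‖) * H.ex x w) * H.th x w) =
      H.FV k.gh u 1 x e + H.FX k u x e := by
    rw [integral_add hI2 hI3]
    rfl
  rw [hadd] at hbound
  rw [H.A_eq_exp u x]
  exact hbound

end HDataH

end Vale.Agent.Lib.P219
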