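import Vale.Agent.Lib.P219.LA.Area

/-! # P219, curvature `≤ -1`: the area factor

`M = P₁ ∘ Dm μ ρ ω β ∘ P₂⁻¹`, `θ = P₂ ω`, `S = μ² (P₁ P₂⁻¹)ᵀ (P₁ P₂⁻¹)` on `θ^⊥`,
`|det M|² |M^{-T} p|² = det S (p₀² + ⟨S⁻¹ v, v⟩)`, `v = ρ p_⊥ - p₀ b`, `⟨b, P₂ ξ⟩ = ⟨β, ξ⟩`.
First term: `det S |det P₂|² = (|det P₁| μ^(n-1))²`; second: `det S ⟨S⁻¹ v, v⟩ ≤ |v|² (lam μ)^(2n-4)`. -/

namespace Vale.Agent.Lib.P219

open MeasureTheory Set Filter Topology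

namespace LA

/-- decomposition along `ω` -/
private theorem areaH_split {n : ℕ} (ω : Ev n) (hω : ‖ω‖ = 1) (ξ : Ev n) :
    ∃ (t : ℝ) (η : Ev n), ξ = t • ω + η ∧ inner ℝ ω η = 0 ∧ t = inner ℝ ω ξ := by
  refine ⟨inner ℝ ω ξ, ξ - inner ℝ ω ξ • ω, by abel, ?_, rfl⟩
  rw [inner_sub_right, real_inner_smul_right, real_inner_self_eq_norm_sq, hω]
  ring

/-- Pythagoras for a map with the Gauss property -/
private theorem areaH_norm {n : ℕ} (P : Ev n →L[ℝ] Ev n) (ω : Ev n) (hω : ‖ω‖ = 1)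
    (hg : ∀ ξ, inner ℝ (P ω) (P ξ) = inner ℝ ω ξ) (t : ℝ) (η : Ev n) (hη : inner ℝ ω η = 0) :
    ‖P (t • ω + η)‖ ^ 2 = t ^ 2 + ‖P η‖ ^ 2 := by
  have h1 : inner ℝ (P ω) (P ω) = (1 : ℝ) := by
    rw [hg, real_inner_self_eq_norm_sq, hω, one_pow]
  have h2 : inner ℝ (P ω) (P η) = (0 : ℝ) := by rw [hg, hη]
  rw [map_add, map_smul, ← real_inner_self_eq_norm_sq, ← real_inner_self_eq_norm_sq,
    inner_add_left, inner_add_right, inner_add_right, real_inner_smul_left, real_inner_smul_left,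
    real_inner_smul_right, real_inner_smul_right, h1, h2, real_inner_comm, h2]
  ring

private theorem areaH_inj {n : ℕ} (P : Ev n →L[ℝ] Ev n) (ω : Ev n) (hω : ‖ω‖ = 1)
    (hg : ∀ ξ, inner ℝ (P ω) (P ξ) = inner ℝ ω ξ) (m : ℝ) (hm : 0 < m)
    (h2 : ∀ ξ, inner ℝ ω ξ = 0 → m * ‖ξ‖ ≤ ‖P ξ‖) :
    Function.Injective (P : Ev n →ₗ[ℝ] Ev n) := by
  rw [← LinearMap.ker_eq_bot, LinearMap.ker_eq_bot']
  intro ξ hξ
  have hξ' : P ξ = 0 := hξ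
  obtain ⟨t, η, rfl, hη, -⟩ := areaH_split ω hω ξ
  have h1 := areaH_norm P ω hω hg t η hη
  rw [hξ', norm_zero] at h1
  have h3 : t = 0 := by nlinarith [sq_nonneg t, sq_nonneg ‖P η‖]
  have h4 : ‖P η‖ = 0 := by nlinarith [sq_nonneg t, sq_nonneg ‖P η‖, norm_nonneg (P η)]
  have h5 := h2 η hη
  rw [h4] at h5
  have h6 : ‖η‖ ≤ 0 := by
    by_contra hcon
    push Not at hcon
    nlinarith [mul_pos hm hcon]
  rw [h3, zero_smul, zero_add]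
  exact norm_le_zero_iff.1 h6

/-- existence of the transposed preimage, with its norm bound -/
private theorem areaH_dual {n : ℕ} (P : Ev n →L[ℝ] Ev n) (ω : Ev n) (hω : ‖ω‖ = 1)
    (hg : ∀ ξ, inner ℝ (P ω) (P ξ) = inner ℝ ω ξ) (m : ℝ) (hm : 0 < m)
    (h2 : ∀ ξ, inner ℝ ω ξ = 0 → m * ‖ξ‖ ≤ ‖P ξ‖) (β : Ev n) (hβ : inner ℝ β ω = 0) :
    ∃ β' : Ev n, (∀ ξ, inner ℝ β' (P ξ) = inner ℝ β ξ) ∧ ‖β'‖ ≤ ‖β‖ / m := by
  have hinj := areaH_inj P ω hω hg m hm h2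
  have hsur : Function.Surjective (P : Ev n →ₗ[ℝ] Ev n) := LinearMap.surjective_of_injective hinj
  let e : Ev n ≃ₗ[ℝ] Ev n := LinearEquiv.ofBijective (P : Ev n →ₗ[ℝ] Ev n) ⟨hinj, hsur⟩
  let β' : Ev n := (InnerProductSpace.toDual ℝ (Ev n)).symm
    (LinearMap.toContinuousLinearMap ((innerSL ℝ β : Ev n →L[ℝ] ℝ).toLinearMap ∘ₗ e.symm.toLinearMap))
  have h1 : ∀ y, inner ℝ β' y = inner ℝ β (e.symm y) := by
    intro y
    exact InnerProductSpace.toDual_symm_apply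
  have h3 : ∀ ξ, inner ℝ β' (P ξ) = inner ℝ β ξ := by
    intro ξ
    rw [h1]
    congr 1
    exact e.symm_apply_apply ξ
  refine ⟨β', h3, ?_⟩
  obtain ⟨ξ, hξ⟩ := hsur β'
  have hξ' : P ξ = β' := hξ
  obtain ⟨t, η, rfl, hη, -⟩ := areaH_split ω hω ξ
  have ht : t = 0 := by
    have h4 : inner ℝ β' (P ω) = (0 : ℝ) := by rw [h3, hβ]
    rw [← hξ', real_inner_comm, hg, inner_add_right, real_inner_smul_right, hη,
      real_inner_self_eq_norm_sq, hω] at h4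
    linarith
  rw [ht, zero_smul, zero_add] at hξ'
  have h4 : ‖β'‖ * ‖β'‖ ≤ ‖β‖ * ‖η‖ := by
    calc ‖β'‖ * ‖β'‖ = inner ℝ β' β' := (real_inner_self_eq_norm_mul_norm β').symm
      _ = inner ℝ β' (P η) := by rw [hξ']
      _ = inner ℝ β η := h3 η
      _ ≤ ‖β‖ * ‖η‖ := real_inner_le_norm β η
  have h5 : m * ‖η‖ ≤ ‖β'‖ := by rw [← hξ']; exact h2 η hη
  rw [le_div_iff₀ hm]
  rcases (norm_nonneg β').eq_or_lt with h6 | h6
  · rw [← h6, zero_mul]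
    exact norm_nonneg _
  · have h7 : ‖β'‖ * (‖β'‖ * m) ≤ ‖β'‖ * ‖β‖ := by
      calc ‖β'‖ * (‖β'‖ * m) = (‖β'‖ * ‖β'‖) * m := by ring
        _ ≤ (‖β‖ * ‖η‖) * m := mul_le_mul_of_nonneg_right h4 hm.le
        _ = ‖β‖ * (m * ‖η‖) := by ring
        _ ≤ ‖β‖ * ‖β'‖ := mul_le_mul_of_nonneg_left h5 (norm_nonneg _)
        _ = ‖β'‖ * ‖β‖ := mul_comm _ _
    exact le_of_mul_le_mul_left h7 h6

private theorem areaH_det_smul {n : ℕ} (s : ℝ) (P : Ev n →L[ℝ] Ev n) :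
    (s • P).det = s ^ n * P.det := by
  have h : (s • P).det = LinearMap.det (s • (P : Ev n →ₗ[ℝ] Ev n)) := rfl
  rw [h, LinearMap.det_smul]
  simp only [finrank_euclideanSpace, Fintype.card_fin]

private theorem areaH_det_comp {n : ℕ} (A B : Ev n →L[ℝ] Ev n) :
    (A.comp B).det = A.det * B.det := by
  have h : (A.comp B).det = LinearMap.det ((A : Ev n →ₗ[ℝ] Ev n) ∘ₗ (B : Ev n →ₗ[ℝ] Ev n)) := rfl
  rw [h, LinearMap.det_comp]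

/-- monotonicity of cofactors in the directions orthogonal to `ω` -/
private theorem areaH_cof {n : ℕ} (hn : 2 ≤ n) (P₁ P₂ : Ev n →L[ℝ] Ev n) (ω : Ev n)
    (hω : ‖ω‖ = 1) (hg1 : ∀ ξ, inner ℝ (P₁ ω) (P₁ ξ) = inner ℝ ω ξ)
    (hg2 : ∀ ξ, inner ℝ (P₂ ω) (P₂ ξ) = inner ℝ ω ξ) (lam m : ℝ) (hlam : 0 < lam) (hm : 0 < m)
    (h12 : ∀ ξ, inner ℝ ω ξ = 0 → ‖P₁ ξ‖ ≤ lam * ‖P₂ ξ‖)
    (h2 : ∀ ξ, inner ℝ ω ξ = 0 → m * ‖ξ‖ ≤ ‖P₂ ξ‖) (q v : Ev n)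
    (hq : inner ℝ q (P₁ ω) = 0) (hv : inner ℝ v (P₂ ω) = 0)
    (hqv : ∀ ξ, inner ℝ q (P₁ ξ) = inner ℝ v (P₂ ξ)) :
    |P₁.det| * ‖q‖ ≤ lam ^ (n - 2) * (|P₂.det| * ‖v‖) := by
  obtain ⟨s, hs⟩ : ∃ s : ℝ, s = 1 + 1 / (lam * m) := ⟨_, rfl⟩
  have hlm : 0 < lam * m := mul_pos hlam hm
  have hs1 : 1 ≤ s := by
    rw [hs]
    have : 0 < 1 / (lam * m) := by positivity
    linarith
  have hs2 : 1 ≤ s * (lam * m) := by
    rw [hs, add_mul, one_mul, one_div, inv_mul_cancel₀ hlm.ne']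
    linarith
  have hs0 : 0 < s := by linarith
  have hD : ∀ (t : ℝ) (η : Ev n), inner ℝ ω η = 0 →
      Dm lam 1 ω 0 (t • ω + η) = t • ω + lam • η := by
    intro t η hη
    rw [Dm_apply, add_zero, real_inner_smul_left, inner_add_right, real_inner_smul_right, hη,
      real_inner_self_eq_norm_sq, hω]
    module
  have horth : ∀ η : Ev n, inner ℝ ω η = 0 → inner ℝ ω (lam • η) = 0 := fun η hη => by
    rw [real_inner_smul_right, hη, mul_zero]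
  have hn2 : ∀ (t : ℝ) (η : Ev n), inner ℝ ω η = 0 →
      ‖(s • (P₂.comp (Dm lam 1 ω 0))) (t • ω + η)‖ ^ 2 = s ^ 2 * (t ^ 2 + (lam * ‖P₂ η‖) ^ 2) := by
    intro t η hη
    have e1 : (s • (P₂.comp (Dm lam 1 ω 0))) (t • ω + η) = s • P₂ (t • ω + lam • η) := by
      rw [← hD t η hη]
      rfl
    rw [e1, norm_smul, mul_pow, areaH_norm P₂ ω hω hg2 t _ (horth η hη), map_smul, norm_smul,
      Real.norm_eq_abs, Real.norm_eq_abs, abs_of_pos hs0, abs_of_pos hlam]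
  have hn1 : ∀ (t : ℝ) (η : Ev n), inner ℝ ω η = 0 →
      ‖(s • P₁) (t • ω + η)‖ ^ 2 = s ^ 2 * (t ^ 2 + ‖P₁ η‖ ^ 2) := by
    intro t η hη
    have e1 : (s • P₁) (t • ω + η) = s • P₁ (t • ω + η) := rfl
    rw [e1, norm_smul, mul_pow, areaH_norm P₁ ω hω hg1 t η hη, Real.norm_eq_abs, abs_of_pos hs0]
  have hA : ∀ ξ, ‖(s • P₁) ξ‖ ≤ ‖(s • (P₂.comp (Dm lam 1 ω 0))) ξ‖ := by
    intro ξ
    obtain ⟨t, η, rfl, hη, -⟩ := areaH_split ω hω ξ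
    refine (pow_le_pow_iff_left₀ (norm_nonneg _) (norm_nonneg _) two_ne_zero).1 ?_
    rw [hn1 t η hη, hn2 t η hη]
    have h3 : ‖P₁ η‖ ^ 2 ≤ (lam * ‖P₂ η‖) ^ 2 := pow_le_pow_left₀ (norm_nonneg _) (h12 η hη) 2
    exact mul_le_mul_of_nonneg_left (by linarith) (sq_nonneg s)
  have hB : ∀ ξ, ‖ξ‖ ≤ ‖(s • (P₂.comp (Dm lam 1 ω 0))) ξ‖ := by
    intro ξ
    obtain ⟨t, η, rfl, hη, -⟩ := areaH_split ω hω ξ
    refine (pow_le_pow_iff_left₀ (norm_nonneg _) (norm_nonneg _) two_ne_zero).1 ?_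
    rw [hn2 t η hη]
    have h3 : ‖t • ω + η‖ ^ 2 = t ^ 2 + ‖η‖ ^ 2 := by
      have := areaH_norm (ContinuousLinearMap.id ℝ (Ev n)) ω hω (fun ξ => rfl) t η hη
      simpa using this
    rw [h3]
    have h4 : ‖η‖ ≤ s * (lam * ‖P₂ η‖) := by
      calc ‖η‖ = 1 * ‖η‖ := (one_mul _).symm
        _ ≤ (s * (lam * m)) * ‖η‖ := mul_le_mul_of_nonneg_right hs2 (norm_nonneg _)
        _ = s * (lam * (m * ‖η‖)) := by ring
        _ ≤ s * (lam * ‖P₂ η‖) := by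
          refine mul_le_mul_of_nonneg_left ?_ hs0.le
          exact mul_le_mul_of_nonneg_left (h2 η hη) hlam.le
    have h5 : ‖η‖ ^ 2 ≤ (s * (lam * ‖P₂ η‖)) ^ 2 := pow_le_pow_left₀ (norm_nonneg _) h4 2
    have h6 : t ^ 2 ≤ s ^ 2 * t ^ 2 := by
      have h7 : 1 ≤ s ^ 2 := one_le_pow₀ hs1
      nlinarith [sq_nonneg t]
    calc t ^ 2 + ‖η‖ ^ 2 ≤ s ^ 2 * t ^ 2 + (s * (lam * ‖P₂ η‖)) ^ 2 := add_le_add h6 h5
      _ = s ^ 2 * (t ^ 2 + (lam * ‖P₂ η‖) ^ 2) := by ring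
  have hC : ∀ ξ, inner ℝ q ((s • P₁) ξ) =
      inner ℝ (lam⁻¹ • v) ((s • (P₂.comp (Dm lam 1 ω 0))) ξ) := by
    intro ξ
    obtain ⟨t, η, rfl, hη, -⟩ := areaH_split ω hω ξ
    have e1 : (s • (P₂.comp (Dm lam 1 ω 0))) (t • ω + η) = s • P₂ (t • ω + lam • η) := by
      rw [← hD t η hη]
      rfl
    have e2 : (s • P₁) (t • ω + η) = s • P₁ (t • ω + η) := rfl
    rw [e1, e2, map_add, map_add, map_smul, map_smul, map_smul, real_inner_smul_right,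
      real_inner_smul_right, real_inner_smul_left, inner_add_right, inner_add_right,
      real_inner_smul_right, real_inner_smul_right, real_inner_smul_right, hq, hv, hqv η]
    field_simp
    ring
  have hmain := cofactor_mono (s • P₁) (s • (P₂.comp (Dm lam 1 ω 0))) hA hB (lam⁻¹ • v) q hC
  rw [areaH_det_smul, areaH_det_smul, areaH_det_comp,
    det_Dm (by omega) lam 1 ω 0 hω (inner_zero_left _), norm_smul, norm_inv, Real.norm_eq_abs,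
    abs_of_pos hlam, abs_mul, abs_mul, abs_mul, abs_of_pos (pow_pos hs0 n), one_mul,
    abs_of_pos (pow_pos hlam (n - 1))] at hmain
  have hsn : 0 < s ^ n := pow_pos hs0 n
  have e3 : lam ^ (n - 1) = lam ^ (n - 2) * lam := by
    rw [← pow_succ]
    congr 1
    omega
  have e4 : s ^ n * (|P₂.det| * lam ^ (n - 1)) * (lam⁻¹ * ‖v‖) =
      s ^ n * (lam ^ (n - 2) * (|P₂.det| * ‖v‖)) := by
    rw [e3]
    field_simp
  rw [e4, mul_assoc] at hmain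
  exact le_of_mul_le_mul_left hmain hsn

theorem area_factorH {n : ℕ} (hn : 2 ≤ n) (P₁ P₂ : Ev n →L[ℝ] Ev n) (ω β p q : Ev n)
    (μ ρ lam m : ℝ) (hμ : 0 < μ) (hρ : 0 < ρ) (hlam : 0 < lam) (hm : 0 < m) (hω : ‖ω‖ = 1)
    (hβ : inner ℝ β ω = 0)
    (h12 : ∀ ξ, inner ℝ ω ξ = 0 → ‖P₁ ξ‖ ≤ lam * ‖P₂ ξ‖)
    (h2 : ∀ ξ, inner ℝ ω ξ = 0 → m * ‖ξ‖ ≤ ‖P₂ ξ‖)
    (hinj : Function.Injective P₁)
    (hg1 : ∀ ξ, inner ℝ (P₁ ω) (P₁ ξ) = inner ℝ ω ξ)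
    (hg2 : ∀ ξ, inner ℝ (P₂ ω) (P₂ ξ) = inner ℝ ω ξ)
    (hpq : ∀ ξ, inner ℝ q (P₁ (Dm μ ρ ω β ξ)) = inner ℝ p (P₂ ξ))
    (c : ℝ) (hc : |c| ≤ 1) (hcp : c * ‖p‖ = -inner ℝ p (P₂ ω)) :
    (|P₁.det| * (ρ * μ ^ (n - 1)) * ‖q‖) ^ 2
      ≤ ‖p‖ ^ 2 * (c ^ 2 * (|P₁.det| * μ ^ (n - 1)) ^ 2
        + |P₂.det| ^ 2 * ((lam * μ) ^ (2 * n - 4)
          * (ρ * Real.sqrt (1 - c ^ 2) + |c| * (‖β‖ / m)) ^ 2)) := by
  obtain ⟨β', hβ', hβn⟩ := areaH_dual P₂ ω hω hg2 m hm h2 β hβ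
  -- the unit vectors
  have he2 : inner ℝ (P₂ ω) (P₂ ω) = (1 : ℝ) := by
    rw [hg2, real_inner_self_eq_norm_mul_norm, hω, one_mul]
  have he1 : inner ℝ (P₁ ω) (P₁ ω) = (1 : ℝ) := by
    rw [hg1, real_inner_self_eq_norm_mul_norm, hω, one_mul]
  have hb'e : inner ℝ β' (P₂ ω) = (0 : ℝ) := by rw [hβ', hβ]
  obtain ⟨a, ha⟩ : ∃ a : ℝ, a = inner ℝ p (P₂ ω) := ⟨_, rfl⟩
  have hac : a = -(c * ‖p‖) := by rw [hcp, ha, neg_neg]
  obtain ⟨b, hb⟩ : ∃ b, b = p - a • P₂ ω := ⟨_, rfl⟩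
  have hp : p = a • P₂ ω + b := by rw [hb]; abel
  have hbe : inner ℝ b (P₂ ω) = (0 : ℝ) := by
    rw [hb, inner_sub_left, real_inner_smul_left, he2, ← ha]
    ring
  have hbb : ‖b‖ ^ 2 = (1 - c ^ 2) * ‖p‖ ^ 2 := by
    have h1 : inner ℝ p p = a ^ 2 + inner ℝ b b := by
      conv_lhs => rw [hp]
      rw [inner_add_left, inner_add_right, inner_add_right, real_inner_smul_left,
        real_inner_smul_right, real_inner_smul_left, real_inner_smul_right, he2,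
        real_inner_comm b (P₂ ω), hbe]
      ring
    rw [real_inner_self_eq_norm_sq, real_inner_self_eq_norm_sq, hac] at h1
    linarith
  have hc2 : 0 ≤ 1 - c ^ 2 := by
    have := (sq_le_one_iff_abs_le_one c).2 hc
    linarith
  have hbn : ‖b‖ = Real.sqrt (1 - c ^ 2) * ‖p‖ := by
    have h3 : Real.sqrt (1 - c ^ 2) * ‖p‖ = Real.sqrt (‖b‖ ^ 2) := by
      rw [hbb, Real.sqrt_mul hc2, Real.sqrt_sq (norm_nonneg p)]
    rw [h3, Real.sqrt_sq (norm_nonneg b)]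
  -- the transported covector
  have hz1 : ρ * inner ℝ q (P₁ ω) = a := by
    have h1 := hpq ω
    rw [Dm_apply, inner_add_left, hβ, real_inner_smul_left, real_inner_self_eq_norm_mul_norm, hω,
      map_add, map_smul, map_smul, inner_add_right, real_inner_smul_right, real_inner_smul_right,
      ← ha] at h1
    linarith
  have hz1' : inner ℝ q (P₁ ω) = a / ρ := by
    rw [eq_div_iff hρ.ne', mul_comm]
    exact hz1
  obtain ⟨q1, hq1⟩ : ∃ q1, q1 = q - (a / ρ) • P₁ ω := ⟨_, rfl⟩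
  have hqd : q = (a / ρ) • P₁ ω + q1 := by rw [hq1]; abel
  have hq1e : inner ℝ q1 (P₁ ω) = (0 : ℝ) := by
    rw [hq1, inner_sub_left, real_inner_smul_left, he1, hz1']
    ring
  have hqn : ‖q‖ ^ 2 = (a / ρ) ^ 2 + ‖q1‖ ^ 2 := by
    conv_lhs => rw [hqd]
    rw [← real_inner_self_eq_norm_sq, ← real_inner_self_eq_norm_sq, inner_add_left,
      inner_add_right, inner_add_right, real_inner_smul_left, real_inner_smul_right,
      real_inner_smul_left, real_inner_smul_right, he1, real_inner_comm q1 (P₁ ω), hq1e]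
    ring
  obtain ⟨v, hv⟩ : ∃ v, v = b - (a / ρ) • β' := ⟨_, rfl⟩
  have hve : inner ℝ v (P₂ ω) = (0 : ℝ) := by
    rw [hv, inner_sub_left, real_inner_smul_left, hbe, hb'e]
    ring
  have hqq : ∀ ξ, inner ℝ (μ • q1) (P₁ ξ) = inner ℝ v (P₂ ξ) := by
    intro ξ
    have h1 := hpq ξ
    rw [Dm_apply, map_add, map_smul, map_smul, inner_add_right, real_inner_smul_right,
      real_inner_smul_right, hz1', inner_add_left, real_inner_smul_left] at h1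
    have h3 : inner ℝ p (P₂ ξ) = a * inner ℝ ω ξ + inner ℝ b (P₂ ξ) := by
      conv_lhs => rw [hp]
      rw [inner_add_left, real_inner_smul_left, hg2]
    rw [h3] at h1
    rw [hq1, real_inner_smul_left, inner_sub_left, real_inner_smul_left, hg1, hv, inner_sub_left,
      real_inner_smul_left, hβ']
    have h4 : a / ρ * ρ = a := div_mul_cancel₀ a hρ.ne'
    generalize a / ρ = t at *
    subst h4
    linarith
  have hcof := areaH_cof hn P₁ P₂ ω hω hg1 hg2 lam m hlam hm h12 h2 (μ • q1) v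
    (by rw [real_inner_smul_left, hq1e, mul_zero]) hve hqq
  rw [norm_smul, Real.norm_eq_abs, abs_of_pos hμ] at hcof
  have hvn : ρ * ‖v‖ ≤ ‖p‖ * (ρ * Real.sqrt (1 - c ^ 2) + |c| * (‖β‖ / m)) := by
    have h3 : ρ • b - a • β' = ρ • v := by
      rw [hv, smul_sub, smul_smul, mul_div_cancel₀ a hρ.ne']
    have h4 : ρ * ‖v‖ = ‖ρ • b - a • β'‖ := by
      rw [h3, norm_smul, Real.norm_eq_abs, abs_of_pos hρ]
    rw [h4]
    calc ‖ρ • b - a • β'‖ ≤ ‖ρ • b‖ + ‖a • β'‖ := norm_sub_le _ _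
      _ = ρ * (Real.sqrt (1 - c ^ 2) * ‖p‖) + |c| * ‖p‖ * ‖β'‖ := by
        rw [norm_smul, norm_smul, Real.norm_eq_abs, Real.norm_eq_abs, abs_of_pos hρ, hbn, hac,
          abs_neg, abs_mul, abs_norm]
      _ ≤ ρ * (Real.sqrt (1 - c ^ 2) * ‖p‖) + |c| * ‖p‖ * (‖β‖ / m) := by
        refine add_le_add le_rfl (mul_le_mul_of_nonneg_left hβn ?_)
        positivity
      _ = ‖p‖ * (ρ * Real.sqrt (1 - c ^ 2) + |c| * (‖β‖ / m)) := by ring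
  -- second term
  have hsec : |P₁.det| * μ ^ (n - 1) * (ρ * ‖q1‖) ≤
      |P₂.det| * (lam * μ) ^ (n - 2) *
        (‖p‖ * (ρ * Real.sqrt (1 - c ^ 2) + |c| * (‖β‖ / m))) := by
    have e1 : μ ^ (n - 1) = μ ^ (n - 2) * μ := by
      rw [← pow_succ]
      congr 1
      omega
    calc |P₁.det| * μ ^ (n - 1) * (ρ * ‖q1‖)
        = (μ ^ (n - 2) * ρ) * (|P₁.det| * (μ * ‖q1‖)) := by rw [e1]; ring
      _ ≤ (μ ^ (n - 2) * ρ) * (lam ^ (n - 2) * (|P₂.det| * ‖v‖)) :=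
        mul_le_mul_of_nonneg_left hcof (by positivity)
      _ = |P₂.det| * (lam * μ) ^ (n - 2) * (ρ * ‖v‖) := by rw [mul_pow]; ring
      _ ≤ _ := mul_le_mul_of_nonneg_left hvn (by positivity)
  have hsec2 := pow_le_pow_left₀ (by positivity) hsec 2
  have e5 : (lam * μ) ^ (2 * n - 4) = ((lam * μ) ^ (n - 2)) ^ 2 := by
    rw [← pow_mul]
    congr 1
    omega
  have e6 : (|P₁.det| * (ρ * μ ^ (n - 1)) * ‖q‖) ^ 2 =
      (|P₁.det| * μ ^ (n - 1)) ^ 2 * (ρ ^ 2 * ‖q‖ ^ 2) := by ring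
  have e7 : ρ ^ 2 * ‖q‖ ^ 2 = a ^ 2 + (ρ * ‖q1‖) ^ 2 := by
    rw [hqn]
    have h4 : a = a / ρ * ρ := (div_mul_cancel₀ a hρ.ne').symm
    generalize a / ρ = t at *
    rw [h4]
    ring
  rw [e6, e7, e5]
  calc (|P₁.det| * μ ^ (n - 1)) ^ 2 * (a ^ 2 + (ρ * ‖q1‖) ^ 2)
      = (|P₁.det| * μ ^ (n - 1)) ^ 2 * a ^ 2 +
        (|P₁.det| * μ ^ (n - 1) * (ρ * ‖q1‖)) ^ 2 := by ring
    _ ≤ (|P₁.det| * μ ^ (n - 1)) ^ 2 * a ^ 2 + (|P₂.det| * (lam * μ) ^ (n - 2) *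
        (‖p‖ * (ρ * Real.sqrt (1 - c ^ 2) + |c| * (‖β‖ / m)))) ^ 2 :=
        add_le_add le_rfl hsec2
    _ = _ := by rw [hac]; ring

end LA

end Vale.Agent.Lib.P219
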