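import Vale.Agent.Lib.P219.K.Basic
import Vale.Agent.Lib.P219.K.LAArea
import Vale.Agent.Lib.P219.K.KerHB
import Vale.Agent.Lib.P219.A.AreaPt

/-! # P219, curvature `≤ -1`: pointwise area estimate for the transported function

Model: `A/AreaPt` (`area_pt`), with `LA.area_factorH` in place of `LA.area_factor`
(`lam = sinh (μ r) / (μ sinh r)`, `m = sinh r / r`). -/

namespace Vale.Agent.Lib.P219

open MeasureTheory Set Filter Topology

namespace HDataH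

variable {n : ℕ} (H : HDataH n) (k : KerH n)

private theorem inner_gr_auxH (u : Ev n → ℝ) (y ζ : Ev n) :
    inner ℝ (H.gr u y) ζ = fderiv ℝ u y (H.L y ζ) := by
  unfold HData.gr
  rw [InnerProductSpace.toDual_symm_apply]
  rfl

private theorem P_innerH (x w : Ev n) {m : ℝ} (hm : m ≠ 0) (ξ : Ev n) :
    inner ℝ (H.P x (m • w) w) (H.P x (m • w) ξ) = inner ℝ w ξ := by
  have h1 : inner ℝ (H.ve x (m • w)) (H.P x (m • w) ξ) = inner ℝ (m • w) ξ :=
    H.P_gauss x (m • w) ξ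
  rw [← H.P_self, map_smul, real_inner_smul_left, real_inner_smul_left] at h1
  exact mul_left_cancel₀ hm h1

private theorem P_injH (x w : Ev n) : Function.Injective (H.P x w) := by
  intro a b hab
  have h1 := H.norm_le_P x w (a - b)
  rw [map_sub, hab, sub_self, norm_zero] at h1
  exact sub_eq_zero.1 (norm_le_zero_iff.1 h1)

theorem area_ptH (hn : 2 ≤ n) (x e : Ev n) (he : ‖e‖ = 1) {τ : ℝ} (hτ : 0 ≤ τ)
    (hτ' : τ ≤ (k.toKer hn).τ₀) {u v : Ev n → ℝ} (hu : ContDiff ℝ 1 u) (hv : ContDiff ℝ 1 v)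
    (huv : ∀ w, v (H.Ex x ((k.toKer hn).phi τ 1 e w)) = u (H.Ex x w)) (w : Ev n) (hw : w ≠ 0) :
    ‖H.gr v (H.Ex x ((k.toKer hn).phi τ 1 e w))‖ * (H.th x ((k.toKer hn).phi τ 1 e w)
        * |(fderiv ℝ ((k.toKer hn).phi τ 1 e) w).det|)
      ≤ ‖H.gr u (H.Ex x w)‖ * H.th x w * Real.sqrt (H.cy u x w ^ 2
          * (H.th x ((k.toKer hn).phi τ 1 e w) * (k.toKer hn).mu τ 1 e w ^ (n - 1)
              / H.th x w) ^ 2
          + (Real.sinh ((k.toKer hn).mu τ 1 e w * ‖w‖) / Real.sinh ‖w‖) ^ (2 * n - 4)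
            * ((1 - τ * k.ηr ‖w‖ (inner ℝ w e / ‖w‖)) * Real.sqrt (1 - H.cy u x w ^ 2)
              + |H.cy u x w| * (τ * |k.ηc ‖w‖ (inner ℝ w e / ‖w‖)|
                * Real.sqrt (1 - (inner ℝ w e / ‖w‖) ^ 2) / Real.sinh ‖w‖)) ^ 2) := by
  obtain ⟨K, hK⟩ : ∃ K : Ker n, K = k.toKer hn := ⟨_, rfl⟩
  have hηr : k.ηr = K.ηr := by rw [hK, k.toKer_ηr hn]
  have hηc : k.ηc = K.ηc := by rw [hK, k.toKer_ηc hn]
  rw [hηr, hηc]
  rw [← hK] at hτ' huv ⊢
  have hw' : 0 < ‖w‖ := norm_pos_iff.2 hw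
  obtain ⟨hμ1, hμ2, -⟩ := K.mu_mem hτ hτ' one_pos he w
  have hc' : |inner ℝ w e / ‖w‖| ≤ 1 := by
    rw [abs_div, abs_norm]
    refine div_le_one_of_le₀ ?_ (norm_nonneg _)
    have h := abs_real_inner_le_norm w e
    rwa [he, mul_one] at h
  obtain ⟨hρ1, hρ2⟩ := K.rho_deriv_mem hτ hτ' ‖w‖ (inner ℝ w e / ‖w‖) hc'
  have hcy := H.abs_cy_le u x w
  have hβn := K.norm_beta hτ one_pos he w hw
  have hβo := K.beta_orth (τ := τ) (ρ₀ := 1) e w hw
  have hφ := K.phi_hasFDerivAt (τ := τ) one_pos he w hw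
  have hdet := K.det_fderiv_phi (by omega : 1 ≤ n) (τ := τ) one_pos he w hw
  rw [div_one] at hβn hφ hdet
  have hμ0 : 0 < K.mu τ 1 e w := by linarith
  have hρ0 : 0 < 1 - τ * K.ηr ‖w‖ (inner ℝ w e / ‖w‖) := by linarith
  have hphi : K.phi τ 1 e w = K.mu τ 1 e w • w := rfl
  have hω : ‖(‖w‖⁻¹ • w : Ev n)‖ = 1 := by
    rw [norm_smul, norm_inv, norm_norm, inv_mul_cancel₀ hw'.ne']
  have hP2w : H.P x w w = H.ve x w := H.P_self x w
  have hsh : 0 < Real.sinh ‖w‖ := Real.sinh_pos_iff.2 hw'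
  have hshμ : 0 < Real.sinh (K.mu τ 1 e w * ‖w‖) := Real.sinh_pos_iff.2 (by positivity)
  have hperp : ∀ ξ : Ev n, inner ℝ (‖w‖⁻¹ • w) ξ = 0 → inner ℝ w ξ = 0 := by
    intro ξ hξ
    rw [real_inner_smul_left] at hξ
    rcases mul_eq_zero.1 hξ with h | h
    · exact absurd h (inv_ne_zero hw'.ne')
    · exact h
  have hmain := LA.area_factorH hn (H.P x (K.phi τ 1 e w)) (H.P x w) (‖w‖⁻¹ • w)
    (K.beta τ 1 e w) (H.gr u (H.Ex x w)) (H.gr v (H.Ex x (K.phi τ 1 e w)))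
    (K.mu τ 1 e w) (1 - τ * K.ηr ‖w‖ (inner ℝ w e / ‖w‖))
    (Real.sinh (K.mu τ 1 e w * ‖w‖) / (K.mu τ 1 e w * Real.sinh ‖w‖))
    (Real.sinh ‖w‖ / ‖w‖) hμ0 hρ0 (by positivity) (by positivity) hω hβo
    (by
      intro ξ hξ
      rw [hphi]
      exact H.P_perp_le x w ξ hw (hperp ξ hξ) hμ0 hμ2)
    (by
      intro ξ hξ
      exact H.P_perp_ge x w ξ hw (hperp ξ hξ))
    (P_injH H x (K.phi τ 1 e w))
    (by
      intro ξ
      rw [map_smul, real_inner_smul_left, real_inner_smul_left, hphi,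
        P_innerH H x w hμ0.ne'])
    (by
      intro ξ
      have h := P_innerH H x w one_ne_zero ξ
      rw [one_smul] at h
      rw [map_smul, real_inner_smul_left, real_inner_smul_left, h])
    (by
      have h1 : HasFDerivAt (fun w' => H.Ex x w')
          ((H.L (H.Ex x (K.phi τ 1 e w))).comp (H.P x (K.phi τ 1 e w)))
          (K.phi τ 1 e w) := H.exp_deriv x (K.phi τ 1 e w)
      have h2 : HasFDerivAt (fun w' => H.Ex x w')
          ((H.L (H.Ex x w)).comp (H.P x w)) w := H.exp_deriv x w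
      have h3 := (hv.differentiable (by norm_num)
        (H.Ex x (K.phi τ 1 e w))).hasFDerivAt.comp w (h1.comp w hφ)
      have h4 := (hu.differentiable (by norm_num) (H.Ex x w)).hasFDerivAt.comp w h2
      have h5 : (v ∘ ((fun w' => H.Ex x w') ∘ K.phi τ 1 e)) = u ∘ (fun w' => H.Ex x w') := by
        funext w'
        exact huv w'
      rw [h5] at h3
      have h6 := h3.unique h4
      intro ξ
      rw [inner_gr_auxH, inner_gr_auxH]
      exact congrArg (fun T => T ξ) h6)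
    (H.cy u x w) hcy
    (by
      rw [map_smul, real_inner_smul_right, hP2w]
      unfold HData.cy
      rcases eq_or_ne (H.gr u (H.Ex x w)) 0 with h0 | h0
      · rw [h0]
        simp
      · have h1 : ‖H.gr u (H.Ex x w)‖ ≠ 0 := norm_ne_zero_iff.2 h0
        have h2 : ‖w‖ ≠ 0 := hw'.ne'
        field_simp)
  have hdet' : |(fderiv ℝ (K.phi τ 1 e) w).det| =
      (1 - τ * K.ηr ‖w‖ (inner ℝ w e / ‖w‖)) * K.mu τ 1 e w ^ (n - 1) := by
    rw [hdet]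
    exact abs_of_nonneg (by positivity)
  rw [hdet']
  have hlm : Real.sinh (K.mu τ 1 e w * ‖w‖) / (K.mu τ 1 e w * Real.sinh ‖w‖) * K.mu τ 1 e w =
      Real.sinh (K.mu τ 1 e w * ‖w‖) / Real.sinh ‖w‖ := by
    have h1 := hμ0.ne'
    have h2 := hsh.ne'
    field_simp
  have hbm : ‖K.beta τ 1 e w‖ / (Real.sinh ‖w‖ / ‖w‖) =
      τ * |K.ηc ‖w‖ (inner ℝ w e / ‖w‖)| * Real.sqrt (1 - (inner ℝ w e / ‖w‖) ^ 2) /
        Real.sinh ‖w‖ := by
    rw [hβn]
    have h1 := hw'.ne'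
    have h2 := hsh.ne'
    field_simp
  rw [hlm, hbm] at hmain
  have hth : 0 < H.th x w := lt_of_lt_of_le one_pos (H.one_le_th x w)
  have hX : 0 ≤ H.cy u x w ^ 2
          * (H.th x (K.phi τ 1 e w) * K.mu τ 1 e w ^ (n - 1)
              / H.th x w) ^ 2
          + (Real.sinh (K.mu τ 1 e w * ‖w‖) / Real.sinh ‖w‖) ^ (2 * n - 4)
            * ((1 - τ * K.ηr ‖w‖ (inner ℝ w e / ‖w‖)) * Real.sqrt (1 - H.cy u x w ^ 2)
              + |H.cy u x w| * (τ * |K.ηc ‖w‖ (inner ℝ w e / ‖w‖)|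
                * Real.sqrt (1 - (inner ℝ w e / ‖w‖) ^ 2) / Real.sinh ‖w‖)) ^ 2 := by
    positivity
  refine le_of_sq_le_sq ?_ (by positivity)
  rw [mul_pow (‖H.gr u (H.Ex x w)‖ * H.th x w), Real.sq_sqrt hX]
  have e1 : (‖H.gr v (H.Ex x (K.phi τ 1 e w))‖ * (H.th x (K.phi τ 1 e w) *
        ((1 - τ * K.ηr ‖w‖ (inner ℝ w e / ‖w‖)) * K.mu τ 1 e w ^ (n - 1)))) ^ 2 =
      (|(H.P x (K.phi τ 1 e w)).det| * ((1 - τ * K.ηr ‖w‖ (inner ℝ w e / ‖w‖)) *
        K.mu τ 1 e w ^ (n - 1)) * ‖H.gr v (H.Ex x (K.phi τ 1 e w))‖) ^ 2 := by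
    unfold HData.th
    ring
  rw [e1]
  refine hmain.trans (le_of_eq ?_)
  have hth' : |(H.P x w).det| ≠ 0 := hth.ne'
  unfold HData.th
  field_simp

end HDataH

end Vale.Agent.Lib.P219
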