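import Vale.Agent.Lib.P219.LA.Rank

/-! # P219, curvature `≤ -1`: determinants of maps that are isometric in one direction -/

namespace Vale.Agent.Lib.P219

open MeasureTheory Set Filter Topology

namespace LA

private theorem norm_sq_comp_Dm {n : ℕ} (P : Ev n →L[ℝ] Ev n) (ω : Ev n)
    (hω : ‖ω‖ = 1) (hg : ∀ ξ, inner ℝ (P ω) (P ξ) = inner ℝ ω ξ) (a : ℝ) (ξ : Ev n) :
    ‖P.comp (Dm a 1 ω 0) ξ‖ ^ 2
      = (a * ‖P (ξ - (inner ℝ ω ξ : ℝ) • ω)‖) ^ 2 + (inner ℝ ω ξ : ℝ) ^ 2 := by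
  set c : ℝ := inner ℝ ω ξ with hc
  have hωω : (inner ℝ ω ω : ℝ) = 1 := by rw [real_inner_self_eq_norm_sq, hω, one_pow]
  have h0 : (inner ℝ ω (ξ - c • ω) : ℝ) = 0 := by
    rw [inner_sub_right, inner_smul_right, hωω, ← hc]
    ring
  have h1 : Dm a 1 ω 0 ξ = a • (ξ - c • ω) + c • ω := by
    rw [Dm_apply, add_zero, inner_smul_left, ← hc, conj_trivial, smul_sub, smul_smul]
    rw [sub_mul, one_mul, sub_smul]
    abel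
  have h2 : P.comp (Dm a 1 ω 0) ξ = a • P (ξ - c • ω) + c • P ω := by
    rw [ContinuousLinearMap.comp_apply, h1, map_add, map_smul, map_smul]
  have h3 : ‖P ω‖ ^ 2 = 1 := by
    rw [← real_inner_self_eq_norm_sq, hg, hωω]
  have h4 : (inner ℝ (P (ξ - c • ω)) (P ω) : ℝ) = 0 := by
    rw [real_inner_comm, hg, h0]
  rw [h2, norm_add_sq_real, norm_smul, norm_smul, inner_smul_left, inner_smul_right, h4,
    mul_pow, mul_pow, mul_pow, h3, Real.norm_eq_abs, Real.norm_eq_abs, sq_abs, sq_abs]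
  ring

private theorem det_comp_Dm {n : ℕ} (hn : 1 ≤ n) (P : Ev n →L[ℝ] Ev n) (ω : Ev n)
    (hω : ‖ω‖ = 1) {a : ℝ} (ha : 0 ≤ a) :
    |(P.comp (Dm a 1 ω 0)).det| = a ^ (n - 1) * |P.det| := by
  have h1 : (P.comp (Dm a 1 ω 0)).det = P.det * (Dm a 1 ω 0).det := by
    show LinearMap.det ((P : Ev n →ₗ[ℝ] Ev n) ∘ₗ (Dm a 1 ω 0 : Ev n →ₗ[ℝ] Ev n)) = _
    rw [LinearMap.det_comp]
  rw [h1, det_Dm hn a 1 ω 0 hω (inner_zero_left ω), one_mul, abs_mul,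
    abs_of_nonneg (pow_nonneg ha _), mul_comm]

/-- Gauss lemma plus a bound on the orthogonal complement: apply `abs_det_mono` to
`P₁ ∘ Dm a 1 ω 0` and `P₂ ∘ Dm b 1 ω 0`. -/
theorem abs_det_mono_perp {n : ℕ} (hn : 1 ≤ n) (P₁ P₂ : Ev n →L[ℝ] Ev n) (ω : Ev n)
    (hω : ‖ω‖ = 1) (hg1 : ∀ ξ, inner ℝ (P₁ ω) (P₁ ξ) = inner ℝ ω ξ)
    (hg2 : ∀ ξ, inner ℝ (P₂ ω) (P₂ ξ) = inner ℝ ω ξ) {a b : ℝ} (ha : 0 ≤ a) (hb : 0 ≤ b)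
    (h : ∀ ξ, inner ℝ ω ξ = 0 → a * ‖P₁ ξ‖ ≤ b * ‖P₂ ξ‖) :
    a ^ (n - 1) * |P₁.det| ≤ b ^ (n - 1) * |P₂.det| := by
  rw [← det_comp_Dm hn P₁ ω hω ha, ← det_comp_Dm hn P₂ ω hω hb]
  refine abs_det_mono _ _ fun ξ => ?_
  refine le_of_sq_le_sq ?_ (norm_nonneg _)
  rw [norm_sq_comp_Dm P₁ ω hω hg1, norm_sq_comp_Dm P₂ ω hω hg2]
  have hωω : (inner ℝ ω ω : ℝ) = 1 := by rw [real_inner_self_eq_norm_sq, hω, one_pow]
  have h0 : (inner ℝ ω (ξ - (inner ℝ ω ξ : ℝ) • ω) : ℝ) = 0 := by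
    rw [inner_sub_right, inner_smul_right, hωω]
    ring
  have h1 := h _ h0
  have h2 : 0 ≤ a * ‖P₁ (ξ - (inner ℝ ω ξ : ℝ) • ω)‖ := mul_nonneg ha (norm_nonneg _)
  gcongr

end LA

end Vale.Agent.Lib.P219
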