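import Mathlib.Analysis.SpecialFunctions.Trigonometric.DerivHyp
import Vale.Agent.Lib.P219.K.LADet
import Vale.Agent.Lib.P219.K.Defs
import Vale.Agent.Lib.P219.A.Basic

/-! # P219, curvature `≤ -1`: basic facts about `HDataH` -/

namespace Vale.Agent.Lib.P219

open MeasureTheory Set Filter Topology

namespace HDataH

variable {n : ℕ} (H : HDataH n)

private theorem sinh_pos' {r : ℝ} (hr : 0 < r) : 0 < Real.sinh r := Real.sinh_pos_iff.2 hr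

/-- the unit vector in the direction of `w` -/
private theorem exists_unit (w : Ev n) (hw : w ≠ 0) :
    ∃ e : Ev n, ‖e‖ = 1 ∧ w = ‖w‖ • e ∧ 0 < ‖w‖ := by
  have hw' : 0 < ‖w‖ := norm_pos_iff.2 hw
  refine ⟨‖w‖⁻¹ • w, ?_, ?_, hw'⟩
  · rw [norm_smul, norm_inv, norm_norm, inv_mul_cancel₀ hw'.ne']
  · rw [smul_smul, mul_inv_cancel₀ hw'.ne', one_smul]

private theorem inner_unit {w e ξ : Ev n} (he : w = ‖w‖ • e) (hw : 0 < ‖w‖)
    (hξ : inner ℝ w ξ = 0) : inner ℝ e ξ = 0 := by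
  rw [he, real_inner_smul_left] at hξ
  rcases mul_eq_zero.1 hξ with h | h
  · exact absurd h hw.ne'
  · exact h

private theorem gauss_unit (x e ξ : Ev n) {r : ℝ} (hr : r ≠ 0) :
    inner ℝ (H.P x (r • e) e) (H.P x (r • e) ξ) = inner ℝ e ξ := by
  have h1 : inner ℝ (H.toHData.ve x (r • e)) (H.P x (r • e) ξ) = inner ℝ (r • e) ξ :=
    H.P_gauss x (r • e) ξ
  rw [← H.toHData.P_self, map_smul, real_inner_smul_left, real_inner_smul_left] at h1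
  exact mul_left_cancel₀ hr h1

/-- `|J|/sinh` monotone, between `μ w` and `w` -/
theorem P_perp_le (x w ξ : Ev n) (hw : w ≠ 0) (hξ : inner ℝ w ξ = 0) {μ : ℝ} (hμ : 0 < μ)
    (hμ1 : μ ≤ 1) : ‖H.P x (μ • w) ξ‖
      ≤ Real.sinh (μ * ‖w‖) / (μ * Real.sinh ‖w‖) * ‖H.P x w ξ‖ := by
  obtain ⟨e, he, hwe, hw'⟩ := exists_unit w hw
  have hs : 0 < μ * ‖w‖ := mul_pos hμ hw'
  have h1 := H.P_monoH x e ξ he (inner_unit hwe hw' hξ) (μ * ‖w‖) ‖w‖ hs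
    (mul_le_of_le_one_left hw'.le hμ1)
  have e1 : (μ * ‖w‖) • e = μ • w := by
    conv_rhs => rw [hwe]
    rw [smul_smul]
  rw [e1, ← hwe] at h1
  have hS := sinh_pos' hs
  have hS' := sinh_pos' hw'
  have h2 : ‖H.P x (μ • w) ξ‖ ≤ ‖H.P x w ξ‖ * (‖w‖ / Real.sinh ‖w‖) /
      (μ * ‖w‖ / Real.sinh (μ * ‖w‖)) := by
    rw [le_div_iff₀ (div_pos hs hS)]
    exact h1
  refine h2.trans (le_of_eq ?_)
  have hn1 : ‖w‖ ≠ 0 := hw'.ne'
  have hn2 : μ ≠ 0 := hμ.ne'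
  have hn3 : Real.sinh ‖w‖ ≠ 0 := hS'.ne'
  have hn4 : Real.sinh (μ * ‖w‖) ≠ 0 := hS.ne'
  field_simp

private theorem tendsto_ratio :
    Tendsto (fun s : ℝ => s / Real.sinh s) (𝓝[>] 0) (𝓝 1) := by
  have h1 := (Real.hasDerivAt_sinh 0)
  rw [hasDerivAt_iff_tendsto_slope_zero, Real.cosh_zero] at h1
  have h2 := h1.inv₀ one_ne_zero
  rw [inv_one] at h2
  have h3 : Tendsto (fun s : ℝ => s / Real.sinh s) (𝓝[≠] 0) (𝓝 1) := by
    refine h2.congr fun s => ?_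
    rw [zero_add, Real.sinh_zero, sub_zero, smul_eq_mul, mul_inv, inv_inv, div_eq_mul_inv]
  exact h3.mono_left (nhdsWithin_mono _ fun s (hs : 0 < s) => hs.ne')

theorem P_perp_ge (x w ξ : Ev n) (hw : w ≠ 0) (hξ : inner ℝ w ξ = 0) :
    Real.sinh ‖w‖ / ‖w‖ * ‖ξ‖ ≤ ‖H.P x w ξ‖ := by
  obtain ⟨e, he, hwe, hw'⟩ := exists_unit w hw
  have hS' := sinh_pos' hw'
  have h1 : Tendsto (fun s : ℝ => ‖ξ‖ * (s / Real.sinh s)) (𝓝[>] 0) (𝓝 (‖ξ‖ * 1)) :=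
    tendsto_ratio.const_mul _
  have h2 : ‖ξ‖ * 1 ≤ ‖H.P x w ξ‖ * (‖w‖ / Real.sinh ‖w‖) := by
    refine le_of_tendsto h1 ?_
    have h3 : ∀ᶠ s : ℝ in 𝓝[>] 0, s < ‖w‖ :=
      (eventually_lt_nhds hw').filter_mono nhdsWithin_le_nhds
    filter_upwards [h3, self_mem_nhdsWithin] with s hs1 hs2
    have hs2' : 0 < s := hs2
    have h4 := H.P_monoH x e ξ he (inner_unit hwe hw' hξ) s ‖w‖ hs2' hs1.le
    rw [← hwe] at h4
    refine le_trans ?_ h4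
    exact mul_le_mul_of_nonneg_right (H.toHData.norm_le_P x (s • e) ξ)
      (div_pos hs2' (sinh_pos' hs2')).le
  rw [mul_one] at h2
  calc Real.sinh ‖w‖ / ‖w‖ * ‖ξ‖
      ≤ Real.sinh ‖w‖ / ‖w‖ * (‖H.P x w ξ‖ * (‖w‖ / Real.sinh ‖w‖)) :=
        mul_le_mul_of_nonneg_left h2 (div_pos hS' hw').le
    _ = ‖H.P x w ξ‖ := by
        have hn1 : ‖w‖ ≠ 0 := hw'.ne'
        have hn3 : Real.sinh ‖w‖ ≠ 0 := hS'.ne'
        field_simp

theorem one_le_Qn (hn : 1 ≤ n) (x w : Ev n) (hw : w ≠ 0) : 1 ≤ H.Qn x w := by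
  obtain ⟨e, he, hwe, hw'⟩ := exists_unit w hw
  have hS' := sinh_pos' hw'
  have h1 := LA.abs_det_mono_perp hn (ContinuousLinearMap.id ℝ (Ev n)) (H.P x w) e he
    (fun ξ => rfl) (fun ξ => by
      have h := H.gauss_unit x e ξ hw'.ne'
      rwa [← hwe] at h) (a := Real.sinh ‖w‖ / ‖w‖) (b := 1) (div_pos hS' hw').le zero_le_one
    (fun ξ hξ => by
      rw [one_mul]
      refine H.P_perp_ge x w ξ hw ?_
      rw [hwe, real_inner_smul_left, hξ, mul_zero])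
  have h2 : (ContinuousLinearMap.id ℝ (Ev n)).det = 1 := by
    unfold ContinuousLinearMap.det
    exact LinearMap.det_id
  rw [h2, abs_one, mul_one, one_pow, one_mul] at h1
  unfold Qn HData.th
  have h3 : (0 : ℝ) < (‖w‖ / Real.sinh ‖w‖) ^ (n - 1) := pow_pos (div_pos hw' hS') _
  calc (1 : ℝ) = (Real.sinh ‖w‖ / ‖w‖) ^ (n - 1) * (‖w‖ / Real.sinh ‖w‖) ^ (n - 1) := by
        rw [← mul_pow]
        have hn1 : ‖w‖ ≠ 0 := hw'.ne'
        have hn3 : Real.sinh ‖w‖ ≠ 0 := hS'.ne'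
        have h4 : Real.sinh ‖w‖ / ‖w‖ * (‖w‖ / Real.sinh ‖w‖) = 1 := by field_simp
        rw [h4, one_pow]
    _ ≤ _ := mul_le_mul_of_nonneg_right h1 h3.le

/-- symmetric: `Qn y (-ve) = Qn x w` -/
theorem Qn_symm (x w : Ev n) : H.Qn (H.Ex x w) (-(H.ve x w)) = H.Qn x w := by
  unfold Qn
  rw [H.th_symm, norm_neg, H.norm_ve]

/-- the density divided by the model density is nondecreasing -/
private theorem det_ratio (hn : 1 ≤ n) (x w : Ev n) (hw : w ≠ 0) {t : ℝ} (ht : 1 ≤ t) :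
    Real.sinh (t * ‖w‖) ^ (n - 1) * |(H.P x w).det| ≤
      Real.sinh ‖w‖ ^ (n - 1) * (t ^ (n - 1) * |(H.P x (t • w)).det|) := by
  obtain ⟨e, he, hwe, hw'⟩ := exists_unit w hw
  have ht0 : 0 < t := by linarith
  have hs : 0 < t * ‖w‖ := mul_pos ht0 hw'
  have hS := sinh_pos' hs
  have hS' := sinh_pos' hw'
  have e1 : (t * ‖w‖) • e = t • w := by
    conv_rhs => rw [hwe]
    rw [smul_smul]
  have h1 := LA.abs_det_mono_perp hn (H.P x w) (H.P x (t • w)) e he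
    (fun ξ => by
      have h := H.gauss_unit x e ξ hw'.ne'
      rwa [← hwe] at h)
    (fun ξ => by
      have h := H.gauss_unit x e ξ hs.ne'
      rwa [e1] at h)
    (a := ‖w‖ / Real.sinh ‖w‖) (b := t * ‖w‖ / Real.sinh (t * ‖w‖)) (div_pos hw' hS').le
    (div_pos hs hS).le
    (fun ξ hξ => by
      have h := H.P_monoH x e ξ he hξ ‖w‖ (t * ‖w‖) hw' (le_mul_of_one_le_left hw'.le ht)
      rw [← hwe, e1] at h
      rw [mul_comm, mul_comm (t * ‖w‖ / Real.sinh (t * ‖w‖))]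
      exact h)
  have hc : (0 : ℝ) < (Real.sinh ‖w‖ * Real.sinh (t * ‖w‖) / ‖w‖) ^ (n - 1) :=
    pow_pos (div_pos (mul_pos hS' hS) hw') _
  have h2 := mul_le_mul_of_nonneg_left h1 hc.le
  have hn1 : ‖w‖ ≠ 0 := hw'.ne'
  have hn3 : Real.sinh ‖w‖ ≠ 0 := hS'.ne'
  have hn4 : Real.sinh (t * ‖w‖) ≠ 0 := hS.ne'
  rw [← mul_assoc, ← mul_assoc, ← mul_pow, ← mul_pow] at h2
  have e2 : Real.sinh ‖w‖ * Real.sinh (t * ‖w‖) / ‖w‖ * (‖w‖ / Real.sinh ‖w‖) =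
      Real.sinh (t * ‖w‖) := by field_simp
  have e3 : Real.sinh ‖w‖ * Real.sinh (t * ‖w‖) / ‖w‖ * (t * ‖w‖ / Real.sinh (t * ‖w‖)) =
      Real.sinh ‖w‖ * t := by field_simp
  rw [e2, e3, mul_pow, mul_assoc] at h2
  exact h2

theorem lt_ge (hn : 1 ≤ n) (x w : Ev n) (hw : w ≠ 0) :
    ((n : ℝ) - 1) * rcoth ‖w‖ ≤ H.lt x w := by
  have hw' : 0 < ‖w‖ := norm_pos_iff.2 hw
  have hS' := sinh_pos' hw'
  have hth : 0 < |(H.P x w).det| := lt_of_lt_of_le one_pos (H.toHData.one_le_th x w)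
  have hd1 : HasDerivAt (fun t : ℝ => Real.sinh ‖w‖ ^ (n - 1) *
      (t ^ (n - 1) * |(H.P x (t • w)).det|))
      (Real.sinh ‖w‖ ^ (n - 1) * (H.lt x w * |(H.P x w).det|)) 1 :=
    (H.lt_deriv x w).const_mul _
  have hd2 : HasDerivAt (fun t : ℝ => Real.sinh (t * ‖w‖) ^ (n - 1) * |(H.P x w).det|)
      (((n - 1 : ℕ) : ℝ) * Real.sinh (1 * ‖w‖) ^ (n - 1 - 1) *
        (Real.cosh (1 * ‖w‖) * (1 * ‖w‖)) * |(H.P x w).det|) 1 := by
    have h1 : HasDerivAt (fun t : ℝ => t * ‖w‖) (1 * ‖w‖) 1 := (hasDerivAt_id (1 : ℝ)).mul_const _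
    exact ((h1.sinh.pow (n - 1)).mul_const _)
  have hd := hd1.sub hd2
  rw [hasDerivAt_iff_tendsto_slope_zero] at hd
  have hsub : Ioi (0 : ℝ) ⊆ {0}ᶜ := fun s hs => ne_of_gt hs
  have hpos := hd.mono_left (nhdsWithin_mono (0 : ℝ) hsub)
  have hge := ge_of_tendsto (b := 0) hpos (by
    filter_upwards [self_mem_nhdsWithin] with s hs
    have hs' : 0 < s := hs
    have h1 := H.det_ratio hn x w hw (t := 1 + s) (by linarith)
    simp only [Pi.sub_apply, smul_eq_mul, one_mul, one_smul, one_pow]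
    have h2 : (0 : ℝ) ≤ s⁻¹ := inv_nonneg.2 hs'.le
    refine mul_nonneg h2 ?_
    linarith)
  rw [one_mul] at hge
  -- simplify the derivative
  have hn2 : ((n - 1 : ℕ) : ℝ) = (n : ℝ) - 1 := by
    rw [Nat.cast_sub hn, Nat.cast_one]
  have hpw : ((n - 1 : ℕ) : ℝ) * Real.sinh ‖w‖ ^ (n - 1 - 1) * Real.sinh ‖w‖ =
      ((n - 1 : ℕ) : ℝ) * Real.sinh ‖w‖ ^ (n - 1) := by
    rcases Nat.eq_zero_or_pos (n - 1) with h0 | h0
    · rw [h0]
      simp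
    · rw [mul_assoc, ← pow_succ, Nat.sub_add_cancel h0]
  have h5 : 0 ≤ Real.sinh ‖w‖ ^ (n - 1) * |(H.P x w).det| *
      (H.lt x w - ((n : ℝ) - 1) * rcoth ‖w‖) := by
    have h6 : Real.sinh ‖w‖ ^ (n - 1) * |(H.P x w).det| *
        (H.lt x w - ((n : ℝ) - 1) * rcoth ‖w‖) =
        Real.sinh ‖w‖ ^ (n - 1) * (H.lt x w * |(H.P x w).det|) -
          ((n - 1 : ℕ) : ℝ) * Real.sinh ‖w‖ ^ (n - 1 - 1) *
            (Real.cosh ‖w‖ * ‖w‖) * |(H.P x w).det| := by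
      have hn3 : Real.sinh ‖w‖ ≠ 0 := hS'.ne'
      have h7 : ((n : ℝ) - 1) * Real.sinh ‖w‖ ^ (n - 1) * rcoth ‖w‖ =
          ((n - 1 : ℕ) : ℝ) * Real.sinh ‖w‖ ^ (n - 1 - 1) * (Real.cosh ‖w‖ * ‖w‖) := by
        rw [← hn2, ← hpw]
        unfold rcoth
        field_simp
      rw [← h7]
      ring
    rw [h6]
    exact hge
  have h8 : 0 < Real.sinh ‖w‖ ^ (n - 1) * |(H.P x w).det| := mul_pos (pow_pos hS' _) hth
  have h9 := nonneg_of_mul_nonneg_right h5 h8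
  linarith

theorem ex_nonneg (hn : 1 ≤ n) (x w : Ev n) : 0 ≤ H.ex x w := by
  unfold ex
  rcases eq_or_ne w 0 with rfl | hw
  · rw [norm_zero, div_zero]
  · exact div_nonneg (by linarith [H.lt_ge hn x w hw]) (norm_nonneg _)

theorem ex_couple (hn : 1 ≤ n) (x w : Ev n) (hw : w ≠ 0) :
    (1 - 1 / H.Qn x w) / Real.sinh ‖w‖
      ≤ Real.sqrt (H.ex x w * H.ex (H.Ex x w) (-(H.ve x w))) := by
  have hw' : 0 < ‖w‖ := norm_pos_iff.2 hw
  have hS' := sinh_pos' hw'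
  apply Real.le_sqrt_of_sq_le
  have hc := H.couple x w hw
  have e1 : |(H.P x w).det| * (‖w‖ / Real.sinh ‖w‖) ^ (n - 1) = H.Qn x w := rfl
  rw [e1] at hc
  unfold ex
  rw [norm_neg, H.toHData.norm_ve]
  have e2 : (H.lt x w - ((n : ℝ) - 1) * rcoth ‖w‖) / ‖w‖ *
      ((H.lt (H.Ex x w) (-(H.ve x w)) - ((n : ℝ) - 1) * rcoth ‖w‖) / ‖w‖) =
      (H.lt x w - ((n : ℝ) - 1) * rcoth ‖w‖) *
      (H.lt (H.Ex x w) (-(H.ve x w)) - ((n : ℝ) - 1) * rcoth ‖w‖) / ‖w‖ ^ 2 := by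
    rw [div_mul_div_comm, sq]
  rw [e2, le_div_iff₀ (pow_pos hw' 2)]
  refine le_trans (le_of_eq ?_) hc
  rw [div_pow, div_pow]
  ring

theorem ex_measurable : Measurable (fun p : Ev n × Ev n => H.ex p.1 p.2) := by
  unfold ex rcoth
  have h1 : Measurable (fun p : Ev n × Ev n => H.lt p.1 p.2) := H.lt_cont.measurable
  have h2 : Measurable (fun p : Ev n × Ev n => ‖p.2‖) := measurable_snd.norm
  have h3 : Measurable (fun p : Ev n × Ev n => Real.cosh ‖p.2‖) :=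
    Real.continuous_cosh.measurable.comp h2
  have h4 : Measurable (fun p : Ev n × Ev n => Real.sinh ‖p.2‖) :=
    Real.continuous_sinh.measurable.comp h2
  exact (h1.sub (((h2.mul h3).div h4).const_mul _)).div h2

end HDataH

end Vale.Agent.Lib.P219
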