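import Vale.Agent.Lib.P219.K.Basic
import Vale.Agent.Lib.P219.K.KerHB

/-! # P219, curvature `≤ -1`: the true pair kernel dominates the model kernel

For `c, c' ≥ 0`: `th = Q s`, `s = (sinh r / r)^(n-1)`, `Q ≥ 1`; AM-GM and `ex_couple` give
`Bt ≥ B + c c' sqrt(η η') (1 - 1/Q) / sinh r`, so `Bt Q ≥ B + (Q - 1) (B + c c' sqrt(η η')/sinh r) ≥ B`
by `B_slope_m`.  If `c ≤ 0` or `c' ≤ 0`: `Bt ≥ B ≥ 0`. -/

namespace Vale.Agent.Lib.P219

open MeasureTheory Set Filter Topology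

namespace HDataH

variable {n : ℕ} (H : HDataH n) (k : KerH n)

/-- pair kernel with the true mean curvatures of geodesic spheres -/
noncomputable def Bt (m : ℝ) (x w : Ev n) (c c' : ℝ) : ℝ :=
  k.B m ‖w‖ c c' + (c ^ 2 * k.η ‖w‖ c' * H.ex x w
    + c' ^ 2 * k.η ‖w‖ c * H.ex (H.Ex x w) (-(H.ve x w))) / 2

theorem Bt_lower (hn : 2 ≤ n) {m : ℝ} (hm : 0 ≤ m) (hm' : m ≤ k.Hm) (x w : Ev n) (hw : w ≠ 0)
    {c c' : ℝ} (hc : |c| ≤ 1) (hc' : |c'| ≤ 1) :
    k.B m ‖w‖ c c' * (Real.sinh ‖w‖ / ‖w‖) ^ (n - 1) ≤ H.Bt k m x w c c' * H.th x w := by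
  have hr : 0 < ‖w‖ := norm_pos_iff.2 hw
  have hs : 0 < Real.sinh ‖w‖ := Real.sinh_pos_iff.2 hr
  have hS : 0 < (Real.sinh ‖w‖ / ‖w‖) ^ (n - 1) := pow_pos (div_pos hs hr) _
  have hth : H.th x w = H.Qn x w * (Real.sinh ‖w‖ / ‖w‖) ^ (n - 1) := by
    unfold Qn
    rw [mul_assoc, ← mul_pow]
    have : ‖w‖ / Real.sinh ‖w‖ * (Real.sinh ‖w‖ / ‖w‖) = 1 := by
      field_simp
    rw [this, one_pow, mul_one]
  have hQ : 1 ≤ H.Qn x w := H.one_le_Qn (by omega) x w hw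
  have hE : 0 ≤ H.ex x w := H.ex_nonneg (by omega) x w
  have hE' : 0 ≤ H.ex (H.Ex x w) (-(H.ve x w)) := H.ex_nonneg (by omega) _ _
  have hη : 0 ≤ k.η ‖w‖ c := k.η_nonneg _ _ hc
  have hη' : 0 ≤ k.η ‖w‖ c' := k.η_nonneg _ _ hc'
  suffices h : k.B m ‖w‖ c c' ≤ H.Bt k m x w c c' * H.Qn x w by
    rw [hth, ← mul_assoc]
    exact mul_le_mul_of_nonneg_right h hS.le
  have hBt : k.B m ‖w‖ c c' ≤ H.Bt k m x w c c' := by
    unfold Bt
    have : 0 ≤ (c ^ 2 * k.η ‖w‖ c' * H.ex x w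
      + c' ^ 2 * k.η ‖w‖ c * H.ex (H.Ex x w) (-(H.ve x w))) / 2 := by positivity
    linarith
  by_cases hneg : c ≤ 0 ∨ c' ≤ 0
  · have hB := k.B_nonneg_of_nonpos hm hm' hr hc hc' hneg
    have h1 : 0 ≤ H.Bt k m x w c c' := hB.trans hBt
    nlinarith
  · obtain ⟨h1, h2⟩ := not_or.1 hneg
    have hc0 : 0 < c := not_le.1 h1
    have hc0' : 0 < c' := not_le.1 h2
    have hsl := k.B_slope_m hm hm' hr hc0.le ((abs_le.1 hc).2) hc0'.le ((abs_le.1 hc').2)
    have hcp := H.ex_couple (by omega) x w hw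
    set Q := H.Qn x w with hQdef
    set E := H.ex x w with hEdef
    set E' := H.ex (H.Ex x w) (-(H.ve x w)) with hE'def
    set a := k.η ‖w‖ c with hadef
    set b := k.η ‖w‖ c' with hbdef
    have hQ0 : 0 < Q := lt_of_lt_of_le one_pos hQ
    -- AM-GM
    have hag : 2 * (c * c' * Real.sqrt (a * b) * Real.sqrt (E * E')) ≤
        c ^ 2 * b * E + c' ^ 2 * a * E' := by
      have hsq : (c * Real.sqrt (b * E)) ^ 2 = c ^ 2 * b * E := by
        rw [mul_pow, Real.sq_sqrt (mul_nonneg hη' hE)]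
        ring
      have hsq' : (c' * Real.sqrt (a * E')) ^ 2 = c' ^ 2 * a * E' := by
        rw [mul_pow, Real.sq_sqrt (mul_nonneg hη hE')]
        ring
      have hprod : Real.sqrt (a * b) * Real.sqrt (E * E')
          = Real.sqrt (b * E) * Real.sqrt (a * E') := by
        rw [← Real.sqrt_mul (mul_nonneg hη hη'), ← Real.sqrt_mul (mul_nonneg hη' hE)]
        congr 1
        ring
      have h3 := two_mul_le_add_sq (c * Real.sqrt (b * E)) (c' * Real.sqrt (a * E'))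
      rw [hsq, hsq'] at h3
      calc 2 * (c * c' * Real.sqrt (a * b) * Real.sqrt (E * E'))
          = 2 * (c * c' * (Real.sqrt (a * b) * Real.sqrt (E * E'))) := by ring
        _ = 2 * (c * Real.sqrt (b * E)) * (c' * Real.sqrt (a * E')) := by rw [hprod]; ring
        _ ≤ _ := h3
    have hK : 0 ≤ c * c' * Real.sqrt (a * b) := by positivity
    have hstep : k.B m ‖w‖ c c' + c * c' * Real.sqrt (a * b) * ((1 - 1 / Q) / Real.sinh ‖w‖)
        ≤ H.Bt k m x w c c' := by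
      have h4 : c * c' * Real.sqrt (a * b) * ((1 - 1 / Q) / Real.sinh ‖w‖)
          ≤ c * c' * Real.sqrt (a * b) * Real.sqrt (E * E') :=
        mul_le_mul_of_nonneg_left hcp hK
      unfold Bt
      rw [← hEdef, ← hE'def, ← hadef, ← hbdef]
      linarith
    have h5 : (k.B m ‖w‖ c c' + c * c' * Real.sqrt (a * b) * ((1 - 1 / Q) / Real.sinh ‖w‖)) * Q
        = k.B m ‖w‖ c c'
          + (Q - 1) * (k.B m ‖w‖ c c' + c * c' * Real.sqrt (a * b) / Real.sinh ‖w‖) := by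
      field_simp
      ring
    calc k.B m ‖w‖ c c' ≤ k.B m ‖w‖ c c'
          + (Q - 1) * (k.B m ‖w‖ c c' + c * c' * Real.sqrt (a * b) / Real.sinh ‖w‖) := by
          have h6 : 0 ≤ (Q - 1)
              * (k.B m ‖w‖ c c' + c * c' * Real.sqrt (a * b) / Real.sinh ‖w‖) :=
            mul_nonneg (by linarith) hsl
          linarith
      _ = _ := h5.symm
      _ ≤ _ := mul_le_mul_of_nonneg_right hstep hQ0.le

end HDataH

end Vale.Agent.Lib.P219
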