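import Vale.Agent.Lib.P219.K.RawH
import Vale.Agent.Lib.P219.K.Profile
import Vale.Agent.Lib.P219.Ce.Cutoff

/-! # P219, curvature `-1`: cut-off of a raw certificate

Model: `Ce/Cutoff`. `η_δ = ζ(r/δ) η`, `h_δ = ζ(r/δ) h`, `f_δ = f + 2 d δ`, `ζ = 0` on `(-∞,1]`, `1` on
`[2,∞)`, nondecreasing. `B_δ = ζ B + (1 - ζ) a + (terms ≥ 0)`. The final inequality is strict for small
`δ` because `c₀ Φ < areaM n R`. -/

namespace Vale.Agent.Lib.P219

open MeasureTheory Set Filter Topology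

private noncomputable def hzf (r : ℝ) : ℝ := Real.smoothTransition (r - 1)

private noncomputable def hzd (r : ℝ) : ℝ := deriv Real.smoothTransition (r - 1)

private theorem hzf_nonneg (r : ℝ) : 0 ≤ hzf r := Real.smoothTransition.nonneg _

private theorem hzf_le_one (r : ℝ) : hzf r ≤ 1 := Real.smoothTransition.le_one _

private theorem hzf_zero {r : ℝ} (h : r ≤ 1) : hzf r = 0 :=
  Real.smoothTransition.zero_of_nonpos (by linarith)

private theorem hzf_one {r : ℝ} (h : 2 ≤ r) : hzf r = 1 :=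
  Real.smoothTransition.one_of_one_le (by linarith)

private theorem hzf_contDiff : ContDiff ℝ 1 hzf := by
  unfold hzf
  exact Real.smoothTransition.contDiff.comp (contDiff_id.sub contDiff_const)

private theorem hst_hasDerivAt (s : ℝ) :
    HasDerivAt Real.smoothTransition (deriv Real.smoothTransition s) s :=
  ((Real.smoothTransition.contDiff (n := 1)).differentiable (by norm_num) s).hasDerivAt

private theorem hzf_hasDerivAt (r : ℝ) : HasDerivAt hzf (hzd r) r := by
  have h := (hst_hasDerivAt (r - 1)).comp r ((hasDerivAt_id r).sub_const 1)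
  unfold hzd
  rw [mul_one] at h
  exact h

private theorem hzd_nonneg (r : ℝ) : 0 ≤ hzd r := by
  unfold hzd
  exact Real.smoothTransition.monotone.deriv_nonneg

private theorem hzd_zero {r : ℝ} (h : r < 1) : hzd r = 0 := by
  unfold hzd
  have h1 : Real.smoothTransition =ᶠ[𝓝 (r - 1)] fun _ => (0 : ℝ) := by
    filter_upwards [Iio_mem_nhds (show r - 1 < 0 by linarith)] with s hs
    exact Real.smoothTransition.zero_of_nonpos (le_of_lt hs)
  rw [h1.deriv_eq, deriv_const]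

private theorem hzd_one {r : ℝ} (h : 2 < r) : hzd r = 0 := by
  unfold hzd
  have h1 : Real.smoothTransition =ᶠ[𝓝 (r - 1)] fun _ => (1 : ℝ) := by
    filter_upwards [Ioi_mem_nhds (show 1 < r - 1 by linarith)] with s hs
    exact Real.smoothTransition.one_of_one_le (le_of_lt hs)
  rw [h1.deriv_eq, deriv_const]

private theorem hzd_bound : ∃ Z : ℝ, 0 ≤ Z ∧ ∀ r, |hzd r| ≤ Z := by
  have hc : Continuous hzd := by
    unfold hzd
    exact ((Real.smoothTransition.contDiff (n := 1)).continuous_deriv (by norm_num)).comp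
      (continuous_id.sub continuous_const)
  obtain ⟨Z, hZ⟩ := (isCompact_Icc (a := (1 : ℝ)) (b := 2)).exists_bound_of_continuousOn
    hc.continuousOn
  refine ⟨max Z 0, le_max_right _ _, ?_⟩
  intro r
  by_cases h1 : r < 1
  · rw [hzd_zero h1, abs_zero]
    exact le_max_right _ _
  · by_cases h2 : 2 < r
    · rw [hzd_one h2, abs_zero]
      exact le_max_right _ _
    · refine le_trans ?_ (le_max_left _ _)
      exact hZ r ⟨not_lt.mp h1, not_lt.mp h2⟩

variable {n : ℕ} {R : ℝ}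

private noncomputable def hce (c : RawCertH n R) (δ r x : ℝ) : ℝ :=
  if 0 < r then hzf (r / δ) * c.η r x else 0

private noncomputable def hcer (c : RawCertH n R) (δ r x : ℝ) : ℝ :=
  if 0 < r then hzd (r / δ) / δ * c.η r x + hzf (r / δ) * c.ηr r x else 0

private noncomputable def hcec (c : RawCertH n R) (δ r x : ℝ) : ℝ :=
  if 0 < r then hzf (r / δ) * c.ηc r x else 0

private theorem hce_pos (c : RawCertH n R) {δ r : ℝ} (x : ℝ) (hr : 0 < r) :
    hce c δ r x = hzf (r / δ) * c.η r x := if_pos hr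

private theorem hcer_pos (c : RawCertH n R) {δ r : ℝ} (x : ℝ) (hr : 0 < r) :
    hcer c δ r x = hzd (r / δ) / δ * c.η r x + hzf (r / δ) * c.ηr r x := if_pos hr

private theorem hcec_pos (c : RawCertH n R) {δ r : ℝ} (x : ℝ) (hr : 0 < r) :
    hcec c δ r x = hzf (r / δ) * c.ηc r x := if_pos hr

private theorem hce_zero (c : RawCertH n R) {δ : ℝ} (hδ : 0 < δ) {r : ℝ} (x : ℝ) (hr : r ≤ δ) :
    hce c δ r x = 0 := by
  unfold hce
  split_ifs with h
  · rw [hzf_zero ((div_le_one hδ).mpr hr), zero_mul]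
  · rfl

private theorem hcer_zero (c : RawCertH n R) {δ : ℝ} (hδ : 0 < δ) {r : ℝ} (x : ℝ) (hr : r < δ) :
    hcer c δ r x = 0 := by
  unfold hcer
  split_ifs with h
  · rw [hzf_zero ((div_le_one hδ).mpr hr.le), hzd_zero ((div_lt_one hδ).mpr hr)]
    simp
  · rfl

private theorem hcec_zero (c : RawCertH n R) {δ : ℝ} (hδ : 0 < δ) {r : ℝ} (x : ℝ) (hr : r ≤ δ) :
    hcec c δ r x = 0 := by
  unfold hcec
  split_ifs with h
  · rw [hzf_zero ((div_le_one hδ).mpr hr), zero_mul]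
  · rfl

private theorem hce_smooth (c : RawCertH n R) {δ : ℝ} (hδ : 0 < δ) :
    ContDiff ℝ 1 (fun p : ℝ × ℝ => hce c δ p.1 p.2) := by
  rw [contDiff_iff_contDiffAt]
  intro p
  by_cases hp : p.1 < δ
  · have h1 : (fun p : ℝ × ℝ => hce c δ p.1 p.2) =ᶠ[𝓝 p] fun _ => (0 : ℝ) := by
      have h2 : {q : ℝ × ℝ | q.1 < δ} ∈ 𝓝 p :=
        (isOpen_lt continuous_fst continuous_const).mem_nhds hp
      filter_upwards [h2] with q hq
      exact hce_zero c hδ q.2 (le_of_lt hq)
    exact contDiffAt_const.congr_of_eventuallyEq h1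
  · have hp0 : 0 < p.1 := lt_of_lt_of_le hδ (not_lt.mp hp)
    have h2 : {q : ℝ × ℝ | 0 < q.1} ∈ 𝓝 p :=
      (isOpen_lt continuous_const continuous_fst).mem_nhds hp0
    have h1 : (fun p : ℝ × ℝ => hce c δ p.1 p.2) =ᶠ[𝓝 p]
        fun q => hzf (q.1 / δ) * c.η q.1 q.2 := by
      filter_upwards [h2] with q hq
      exact hce_pos c q.2 hq
    refine ContDiffAt.congr_of_eventuallyEq ?_ h1
    apply ContDiffAt.mul
    · exact (hzf_contDiff.comp (contDiff_fst.div_const δ)).contDiffAt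
    · apply c.smooth.contDiffAt
      have h3 : (Ioi (0 : ℝ) ×ˢ (univ : Set ℝ)) = {q : ℝ × ℝ | 0 < q.1} := by
        ext q
        simp
      rw [h3]
      exact h2

private theorem hce_deriv_r (c : RawCertH n R) {δ : ℝ} (hδ : 0 < δ) (r x : ℝ) :
    HasDerivAt (fun s => hce c δ s x) (hcer c δ r x) r := by
  by_cases hr : r < δ
  · rw [hcer_zero c hδ x hr]
    have h1 : (fun s => hce c δ s x) =ᶠ[𝓝 r] fun _ => (0 : ℝ) := by
      filter_upwards [Iio_mem_nhds hr] with s hs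
      exact hce_zero c hδ x (le_of_lt hs)
    exact (hasDerivAt_const r (0 : ℝ)).congr_of_eventuallyEq h1
  · have hr0 : 0 < r := lt_of_lt_of_le hδ (not_lt.mp hr)
    rw [hcer_pos c x hr0]
    have h1 : (fun s => hce c δ s x) =ᶠ[𝓝 r] fun s => hzf (s / δ) * c.η s x := by
      filter_upwards [Ioi_mem_nhds hr0] with s hs
      exact hce_pos c x hs
    refine HasDerivAt.congr_of_eventuallyEq ?_ h1
    have h2 : HasDerivAt (fun s => hzf (s / δ)) (hzd (r / δ) / δ) r := by
      have h3 := (hzf_hasDerivAt (r / δ)).comp r ((hasDerivAt_id r).div_const δ)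
      have h4 : hzd (r / δ) / δ = hzd (r / δ) * (1 / δ) := by ring
      rw [h4]
      exact h3
    exact h2.mul (c.deriv_r r x hr0)

private theorem hce_deriv_c (c : RawCertH n R) {δ : ℝ} (r x : ℝ) :
    HasDerivAt (fun s => hce c δ r s) (hcec c δ r x) x := by
  by_cases hr : 0 < r
  · rw [hcec_pos c x hr]
    have h1 : (fun s => hce c δ r s) = fun s => hzf (r / δ) * c.η r s := by
      funext s
      exact hce_pos c s hr
    rw [h1]
    exact (c.deriv_c r x hr).const_mul _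
  · have h1 : (fun s => hce c δ r s) = fun _ => (0 : ℝ) := by
      funext s
      exact if_neg hr
    have h2 : hcec c δ r x = 0 := if_neg hr
    rw [h1, h2]
    exact hasDerivAt_const x (0 : ℝ)

private theorem hce_nonneg (c : RawCertH n R) {δ : ℝ} (r x : ℝ) (hx : |x| ≤ 1) :
    0 ≤ hce c δ r x := by
  unfold hce
  split_ifs with h
  · exact mul_nonneg (hzf_nonneg _) (c.η_nonneg r x h hx)
  · exact le_refl _

private theorem hzf_mono {r s : ℝ} (h : r ≤ s) : hzf r ≤ hzf s := by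
  unfold hzf
  exact Real.smoothTransition.monotone (by linarith)

private noncomputable def hch (c : RawCertH n R) (δ r : ℝ) : ℝ :=
  if 0 < r then hzf (r / δ) * c.h r else 0

private theorem hch_pos (c : RawCertH n R) {δ r : ℝ} (hr : 0 < r) :
    hch c δ r = hzf (r / δ) * c.h r := if_pos hr

private theorem hch_zero (c : RawCertH n R) {δ : ℝ} (hδ : 0 < δ) {r : ℝ} (hr : r ≤ δ) :
    hch c δ r = 0 := by
  unfold hch
  split_ifs with h
  · rw [hzf_zero ((div_le_one hδ).mpr hr), zero_mul]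
  · rfl

private theorem hch_smooth (c : RawCertH n R) {δ : ℝ} (hδ : 0 < δ) :
    ContDiff ℝ 1 (hch c δ) := by
  rw [contDiff_iff_contDiffAt]
  intro p
  by_cases hp : p < δ
  · have h1 : (hch c δ) =ᶠ[𝓝 p] fun _ => (0 : ℝ) := by
      filter_upwards [Iio_mem_nhds hp] with q hq
      exact hch_zero c hδ (le_of_lt hq)
    exact contDiffAt_const.congr_of_eventuallyEq h1
  · have hp0 : 0 < p := lt_of_lt_of_le hδ (not_lt.mp hp)
    have h1 : (hch c δ) =ᶠ[𝓝 p] fun q => hzf (q / δ) * c.h q := by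
      filter_upwards [Ioi_mem_nhds hp0] with q hq
      exact hch_pos c hq
    refine ContDiffAt.congr_of_eventuallyEq ?_ h1
    apply ContDiffAt.mul
    · exact (hzf_contDiff.comp (contDiff_id.div_const δ)).contDiffAt
    · exact c.h_smooth.contDiffAt (Ioi_mem_nhds hp0)

private theorem hch_nonneg (c : RawCertH n R) {δ : ℝ} (r : ℝ) : 0 ≤ hch c δ r := by
  unfold hch
  split_ifs with h
  · exact mul_nonneg (hzf_nonneg _) (c.h_nonneg r h)
  · exact le_refl _

private theorem hch_mono (c : RawCertH n R) {δ : ℝ} (hδ : 0 < δ) (r s : ℝ) (hrs : r ≤ s) :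
    hch c δ r ≤ hch c δ s := by
  by_cases hr : 0 < r
  · have hs : 0 < s := lt_of_lt_of_le hr hrs
    rw [hch_pos c hr, hch_pos c hs]
    exact mul_le_mul (hzf_mono (div_le_div_of_nonneg_right hrs hδ.le)) (c.h_mono r s hr hrs)
      (c.h_nonneg r hr) (hzf_nonneg _)
  · have h1 : hch c δ r = 0 := if_neg hr
    rw [h1]
    exact hch_nonneg c s

/-- kernel expression -/
private noncomputable def Bx (n : ℕ) (a m : ℝ) (η ηr ηc : ℝ → ℝ → ℝ) (r x y : ℝ) : ℝ :=
  a + ((ηr r y * (1 - x ^ 2) + η r y * (Real.cosh r / Real.sinh r) * (n - 2 + x ^ 2)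
      - |x| * |ηc r y| * Real.sqrt ((1 - x ^ 2) * (1 - y ^ 2)) / Real.sinh r - m * x * η r y)
    + (ηr r x * (1 - y ^ 2) + η r x * (Real.cosh r / Real.sinh r) * (n - 2 + y ^ 2)
      - |y| * |ηc r x| * Real.sqrt ((1 - y ^ 2) * (1 - x ^ 2)) / Real.sinh r
      - m * y * η r x)) / 2

private theorem Bx_zero (n : ℕ) (a : ℝ) (η ηr ηc : ℝ → ℝ → ℝ) (r x y : ℝ) :
    a + ((ηr r y * (1 - x ^ 2) + η r y * (Real.cosh r / Real.sinh r) * (n - 2 + x ^ 2)
      - |x| * |ηc r y| * Real.sqrt ((1 - x ^ 2) * (1 - y ^ 2)) / Real.sinh r)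
    + (ηr r x * (1 - y ^ 2) + η r x * (Real.cosh r / Real.sinh r) * (n - 2 + y ^ 2)
      - |y| * |ηc r x| * Real.sqrt ((1 - y ^ 2) * (1 - x ^ 2)) / Real.sinh r)) / 2
    = Bx n a 0 η ηr ηc r x y := by
  unfold Bx
  ring

private theorem Bx_neg (n : ℕ) (a m : ℝ) (η ηr ηc : ℝ → ℝ → ℝ) (r γ y : ℝ) :
    a + ((ηr r y * (1 - γ ^ 2) + η r y * (Real.cosh r / Real.sinh r) * (n - 2 + γ ^ 2)
      - |γ| * |ηc r y| * Real.sqrt ((1 - γ ^ 2) * (1 - y ^ 2)) / Real.sinh r + m * γ * η r y)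
    + (ηr r (-γ) * (1 - y ^ 2) + η r (-γ) * (Real.cosh r / Real.sinh r) * (n - 2 + y ^ 2)
      - |y| * |ηc r (-γ)| * Real.sqrt ((1 - y ^ 2) * (1 - γ ^ 2)) / Real.sinh r
      - m * y * η r (-γ))) / 2
    = Bx n a m η ηr ηc r (-γ) y := by
  unfold Bx
  rw [abs_neg, neg_sq]
  ring

private theorem hB_eq (c : RawCertH n R) {δ : ℝ} {r : ℝ} (hr : 0 < r) (m x y : ℝ) :
    Bx n c.a m (hce c δ) (hcer c δ) (hcec c δ) r x y
    = hzf (r / δ) * Bx n c.a m c.η c.ηr c.ηc r x y
      + (1 - hzf (r / δ)) * c.a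
      + hzd (r / δ) / δ * (c.η r y * (1 - x ^ 2) + c.η r x * (1 - y ^ 2)) / 2 := by
  have hz := hzf_nonneg (r / δ)
  unfold Bx
  rw [hcer_pos c y hr, hcer_pos c x hr, hce_pos c y hr, hce_pos c x hr, hcec_pos c y hr,
    hcec_pos c x hr, abs_mul, abs_mul, abs_of_nonneg hz]
  ring

private theorem hB_ge (c : RawCertH n R) {δ : ℝ} (hδ : 0 < δ) {r : ℝ} (hr : 0 < r) (m x y : ℝ)
    (hx : |x| ≤ 1) (hy : |y| ≤ 1) :
    hzf (r / δ) * Bx n c.a m c.η c.ηr c.ηc r x y + (1 - hzf (r / δ)) * c.a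
      ≤ Bx n c.a m (hce c δ) (hcer c δ) (hcec c δ) r x y := by
  rw [hB_eq c hr m x y]
  have h4 := hzd_nonneg (r / δ)
  have h5 := c.η_nonneg r x hr hx
  have h6 := c.η_nonneg r y hr hy
  have h7 : x ^ 2 ≤ 1 := (sq_le_one_iff_abs_le_one x).mpr hx
  have h8 : y ^ 2 ≤ 1 := (sq_le_one_iff_abs_le_one y).mpr hy
  have t1 : 0 ≤ hzd (r / δ) / δ * (c.η r y * (1 - x ^ 2) + c.η r x * (1 - y ^ 2)) / 2 := by
    have h10 : 0 ≤ 1 - x ^ 2 := by linarith
    have h11 : 0 ≤ 1 - y ^ 2 := by linarith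
    positivity
  linarith

private theorem hB_ge' (c : RawCertH n R) {δ : ℝ} (hδ : 0 < δ) {r : ℝ} (hr : 0 < r) (m x y : ℝ)
    (hx : |x| ≤ 1) (hy : |y| ≤ 1) :
    hzf (r / δ) * Bx n c.a m c.η c.ηr c.ηc r x y
      ≤ Bx n c.a m (hce c δ) (hcer c δ) (hcec c δ) r x y := by
  have h1 := hB_ge c hδ hr m x y hx hy
  have h2 : 0 ≤ (1 - hzf (r / δ)) * c.a :=
    mul_nonneg (by have := hzf_le_one (r / δ); linarith) c.a_pos.le
  linarith

/-- `K'` of the cut certificate -/
private noncomputable def hK (c : RawCertH n R) (δ : ℝ) : ℝ :=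
  (c.d * (n * om n * volM n R) - c.a * areaM n R ^ 2) / areaM n R + c.d * δ * (n * om n)

private theorem abs_le_one_of {x : ℝ} (h0 : 0 ≤ x) (h1 : x ≤ 1) : |x| ≤ 1 := by
  rw [abs_of_nonneg h0]; exact h1

private noncomputable def hcutKer (hn : 2 ≤ n) (hR : 0 < R) (c : RawCertH n R) {δ : ℝ}
    (hδ : 0 < δ) (M : ℝ) (hM : 0 < M)
    (hM1 : ∀ r x, |x| ≤ 1 → hce c δ r x ≤ M)
    (hM2 : ∀ r x, |x| ≤ 1 → |hcer c δ r x| ≤ M)
    (hM3 : ∀ r x, |x| ≤ 1 → |hcec c δ r x| ≤ M) : KerH n where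
  η := hce c δ
  ηr := hcer c δ
  ηc := hcec c δ
  smooth := hce_smooth c hδ
  deriv_r := hce_deriv_r c hδ
  deriv_c := hce_deriv_c c
  δ := δ
  δ_pos := hδ
  M := M
  M_pos := hM
  η_zero := fun _ x hr => hce_zero c hδ x hr
  η_nonneg := hce_nonneg c
  η_le := hM1
  ηr_le := hM2
  ηc_le := hM3
  a := c.a
  a_pos := c.a_pos
  d := c.d
  d_pos := c.d_pos
  f := fun s => c.f s + c.d * δ
  f_cont := c.f_cont.add continuous_const
  f_nonneg := fun s => add_nonneg (c.f_nonneg s) (mul_nonneg c.d_pos.le hδ.le)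
  K' := hK c δ
  Hm := (n - 1) * (Real.cosh R / Real.sinh R)
  Hm_pos := by
    have h1 : (2 : ℝ) ≤ n := by exact_mod_cast hn
    exact mul_pos (by linarith) (div_pos (Real.cosh_pos R) (Real.sinh_pos_iff.2 hR))
  h := hch c δ
  h_smooth := hch_smooth c hδ
  h_nonneg := fun r _ => hch_nonneg c r
  h_mono := fun r s _ hrs => hch_mono c hδ r s hrs
  B_zero := by
    intro r x y hr hx hy
    rw [Bx_zero]
    have h1 := c.B_zero r x y hr hx hy
    rw [Bx_zero] at h1
    exact (mul_nonneg (hzf_nonneg _) h1).trans (hB_ge' c hδ hr 0 x y hx hy)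
  B_slope := by
    intro r x y hr hx0 hx1 hy0 hy1
    have h1 := c.B_slope r x y hr hx0 hx1 hy0 hy1
    have h2 := hB_ge' c hδ hr ((n - 1) * (Real.cosh R / Real.sinh R)) x y (abs_le_one_of hx0 hx1)
      (abs_le_one_of hy0 hy1)
    have h3 := mul_nonneg (hzf_nonneg (r / δ)) h1
    have hz := hzf_nonneg (r / δ)
    have h4 : Real.sqrt (hce c δ r x * hce c δ r y)
        = hzf (r / δ) * Real.sqrt (c.η r x * c.η r y) := by
      rw [hce_pos c x hr, hce_pos c y hr,
        show hzf (r / δ) * c.η r x * (hzf (r / δ) * c.η r y)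
          = hzf (r / δ) ^ 2 * (c.η r x * c.η r y) by ring,
        Real.sqrt_mul (sq_nonneg _), Real.sqrt_sq hz]
    rw [h4]
    unfold Bx at h2
    rw [mul_add] at h3
    have h5 : x * y * (hzf (r / δ) * Real.sqrt (c.η r x * c.η r y)) / Real.sinh r
        = hzf (r / δ) * (x * y * Real.sqrt (c.η r x * c.η r y) / Real.sinh r) := by ring
    rw [h5]
    linarith
  B_comp := by
    intro r x y hr hx0 hx1 hy0 hy1
    have h1 := c.B_comp r x y hr hx0 hx1 hy0 hy1
    have h2 := hB_ge' c hδ hr ((n - 1) * (Real.cosh R / Real.sinh R)) x y (abs_le_one_of hx0 hx1)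
      (abs_le_one_of hy0 hy1)
    have hS : 0 ≤ Real.sinh r ^ (n - 1) := pow_nonneg (Real.sinh_pos_iff.2 hr).le _
    have h3 := mul_le_mul_of_nonneg_right h2 hS
    have h4 := mul_le_mul_of_nonneg_left h1 (hzf_nonneg (r / δ))
    rw [hch_pos c hr]
    unfold Bx at h3
    refine le_trans ?_ h3
    refine le_trans ?_ (h4.trans (le_of_eq (by ring)))
    exact le_of_eq (by ring)
  B_comp' := by
    intro r γ y hr hx0 hx1 hy0 hy1
    rw [Bx_neg]
    have h1 := c.B_comp' r γ y hr hx0 hx1 hy0 hy1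
    rw [Bx_neg] at h1
    have h2 := hB_ge' c hδ hr ((n - 1) * (Real.cosh R / Real.sinh R)) (-γ) y
      (by rw [abs_neg]; exact abs_le_one_of hx0 hx1) (abs_le_one_of hy0 hy1)
    have hS : 0 ≤ Real.sinh r ^ (n - 1) := pow_nonneg (Real.sinh_pos_iff.2 hr).le _
    have h3 := mul_le_mul_of_nonneg_right h2 hS
    have h4 := mul_le_mul_of_nonneg_left h1 (hzf_nonneg (r / δ))
    rw [hch_pos c hr]
    refine le_trans ?_ h3
    refine le_trans ?_ (h4.trans (le_of_eq (by ring)))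
    exact le_of_eq (by ring)
  B_lower := by
    intro r x y hr hx0 hx1 hy0 hy1
    have hx : |x| ≤ 1 := abs_le_one_of hx0.le hx1
    have hy : |y| ≤ 1 := abs_le_one_of hy0.le hy1
    have hd := c.d_pos
    have hfx := c.f_nonneg x
    have hfy := c.f_nonneg y
    have hxy : 0 < x * y := mul_pos hx0 hy0
    have hS : 0 ≤ Real.sinh r ^ (n - 1) := pow_nonneg (Real.sinh_pos_iff.2 hr).le _
    have h1 := c.B_lower r x y hr hx0 hx1 hy0 hy1
    have h2 := hB_ge' c hδ hr ((n - 1) * (Real.cosh R / Real.sinh R)) x y hx hy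
    have h3 := mul_le_mul_of_nonneg_right h2 hS
    have h4 := mul_le_mul_of_nonneg_left h1 (hzf_nonneg (r / δ))
    have hz1 := hzf_le_one (r / δ)
    have hz0 := hzf_nonneg (r / δ)
    have h5 : x * y * (c.d * r - (c.f x + c.d * δ) - (c.f y + c.d * δ))
        ≤ hzf (r / δ) * (x * y * (c.d * r - c.f x - c.f y)) := by
      have h6 : hzf (r / δ) * (x * y * (c.d * r - (c.f x + c.d * δ) - (c.f y + c.d * δ)))
          ≤ hzf (r / δ) * (x * y * (c.d * r - c.f x - c.f y)) := by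
        apply mul_le_mul_of_nonneg_left _ hz0
        apply mul_le_mul_of_nonneg_left _ hxy.le
        have := mul_pos hd hδ
        linarith
      refine le_trans ?_ h6
      by_cases h7 : r < 2 * δ
      · have h8 : c.d * r - (c.f x + c.d * δ) - (c.f y + c.d * δ) ≤ 0 := by
          have := mul_lt_mul_of_pos_left h7 hd
          linarith
        have h9 : x * y * (c.d * r - (c.f x + c.d * δ) - (c.f y + c.d * δ)) ≤ 0 :=
          mul_nonpos_of_nonneg_of_nonpos hxy.le h8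
        nlinarith
      · have h8 : 2 ≤ r / δ := by
          rw [le_div_iff₀ hδ]
          exact not_lt.mp h7
        rw [hzf_one h8, one_mul]
    unfold Bx at h3
    refine h5.trans (le_trans ?_ h3)
    exact h4.trans (le_of_eq (by ring))
  K'_bound := by
    intro e he
    have := isFiniteMeasure_toSphere n
    have hfin := c.final e he
    have hA : 0 < areaM n R := areaM_pos (by omega) hR
    have hc1 : Continuous (fun ω : Metric.sphere (0 : Ev n) 1 => |inner ℝ (ω : Ev n) e|) := by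
      fun_prop
    have hc2 : Continuous (fun ω : Metric.sphere (0 : Ev n) 1 =>
        |inner ℝ (ω : Ev n) e| * c.f |inner ℝ (ω : Ev n) e|) := hc1.mul (c.f_cont.comp hc1)
    have hi1 : Integrable (fun ω : Metric.sphere (0 : Ev n) 1 => |inner ℝ (ω : Ev n) e|)
        (volume : Measure (Ev n)).toSphere :=
      hc1.integrable_of_hasCompactSupport (HasCompactSupport.of_compactSpace _)
    have hi2 : Integrable (fun ω : Metric.sphere (0 : Ev n) 1 =>
        |inner ℝ (ω : Ev n) e| * c.f |inner ℝ (ω : Ev n) e|)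
        (volume : Measure (Ev n)).toSphere :=
      hc2.integrable_of_hasCompactSupport (HasCompactSupport.of_compactSpace _)
    have e1 : ∫ ω : Metric.sphere (0 : Ev n) 1, |inner ℝ (ω : Ev n) e|
        * (c.f |inner ℝ (ω : Ev n) e| + c.d * δ) ∂(volume : Measure (Ev n)).toSphere
        = (∫ ω : Metric.sphere (0 : Ev n) 1, |inner ℝ (ω : Ev n) e| * c.f |inner ℝ (ω : Ev n) e|
          ∂(volume : Measure (Ev n)).toSphere)
        + c.d * δ * ∫ ω : Metric.sphere (0 : Ev n) 1, |inner ℝ (ω : Ev n) e|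
          ∂(volume : Measure (Ev n)).toSphere := by
      rw [← integral_const_mul, ← integral_add hi2 (hi1.const_mul _)]
      congr 1
      funext ω
      ring
    have e2 : ∫ ω : Metric.sphere (0 : Ev n) 1, |inner ℝ (ω : Ev n) e|
        ∂(volume : Measure (Ev n)).toSphere ≤ n * om n := by
      have h3 : ∫ ω : Metric.sphere (0 : Ev n) 1, |inner ℝ (ω : Ev n) e|
          ∂(volume : Measure (Ev n)).toSphere
          ≤ ∫ _ω : Metric.sphere (0 : Ev n) 1, (1 : ℝ) ∂(volume : Measure (Ev n)).toSphere := by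
        apply integral_mono hi1 (integrable_const _)
        intro ω
        have h4 : ‖(ω : Ev n)‖ = 1 := by simp
        calc |inner ℝ (ω : Ev n) e| ≤ ‖(ω : Ev n)‖ * ‖e‖ := abs_real_inner_le_norm _ _
          _ = 1 := by rw [h4, he, one_mul]
      refine le_trans h3 ?_
      rw [integral_const, smul_eq_mul, mul_one, Measure.real, toSphere_univ_eq,
        ENNReal.toReal_ofReal]
      have : 0 ≤ om n := ENNReal.toReal_nonneg
      positivity
    rw [e1]
    have h5 : c.d * δ * ∫ ω : Metric.sphere (0 : Ev n) 1, |inner ℝ (ω : Ev n) e|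
          ∂(volume : Measure (Ev n)).toSphere ≤ c.d * δ * (n * om n) :=
      mul_le_mul_of_nonneg_left e2 (mul_nonneg c.d_pos.le hδ.le)
    have h6 : (∫ ω : Metric.sphere (0 : Ev n) 1, |inner ℝ (ω : Ev n) e| * c.f |inner ℝ (ω : Ev n) e|
          ∂(volume : Measure (Ev n)).toSphere)
        ≤ (c.d * (n * om n * volM n R) - c.a * areaM n R ^ 2) / areaM n R := by
      rw [le_div_iff₀ hA]
      linarith
    unfold hK
    linarith

/-- the cut off certificate: all data -/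
private theorem exists_hcut (hn : 2 ≤ n) (hR : 0 < R) (c : RawCertH n R) {δ : ℝ} (hδ : 0 < δ) :
    ∃ k : KerH n, k.a = c.a ∧ k.d = c.d ∧ k.K' = hK c δ ∧
      k.Hm = (n - 1) * (Real.cosh R / Real.sinh R) ∧ (k.f = fun s => c.f s + c.d * δ) ∧
      k.h = hch c δ ∧ k.η = hce c δ ∧ k.ηr = hcer c δ ∧ k.ηc = hcec c δ := by
  obtain ⟨M₀, hM₀⟩ := c.bound δ hδ
  obtain ⟨Z, hZ0, hZ⟩ := hzd_bound
  set M₁ : ℝ := max M₀ 0 with hM₁
  have hM10 : 0 ≤ M₁ := le_max_right _ _
  have hM11 : M₀ ≤ M₁ := le_max_left _ _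
  set M : ℝ := Z / δ * M₁ + M₁ + 1 with hM
  have hMpos : 0 < M := by positivity
  have hM1M : M₁ ≤ M := by
    have : 0 ≤ Z / δ * M₁ := by positivity
    linarith
  have b1 : ∀ r x, |x| ≤ 1 → hce c δ r x ≤ M := by
    intro r x hx
    by_cases hr : r < δ
    · rw [hce_zero c hδ x hr.le]
      exact hMpos.le
    · have hr0 : 0 < r := lt_of_lt_of_le hδ (not_lt.mp hr)
      rw [hce_pos c x hr0]
      have h1 := (hM₀ r x (not_lt.mp hr) hx).1
      have h2 := c.η_nonneg r x hr0 hx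
      have h3 := hzf_le_one (r / δ)
      have h4 : hzf (r / δ) * c.η r x ≤ 1 * c.η r x := mul_le_mul_of_nonneg_right h3 h2
      linarith
  have b2 : ∀ r x, |x| ≤ 1 → |hcer c δ r x| ≤ M := by
    intro r x hx
    by_cases hr : r < δ
    · rw [hcer_zero c hδ x hr, abs_zero]
      exact hMpos.le
    · have hr0 : 0 < r := lt_of_lt_of_le hδ (not_lt.mp hr)
      rw [hcer_pos c x hr0]
      have h1 := (hM₀ r x (not_lt.mp hr) hx).1
      have h1' := (hM₀ r x (not_lt.mp hr) hx).2.1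
      have h2 := c.η_nonneg r x hr0 hx
      have h3 := hzf_le_one (r / δ)
      have h3' := hzf_nonneg (r / δ)
      have h4 : |hzd (r / δ) / δ * c.η r x| ≤ Z / δ * M₁ := by
        rw [abs_mul, abs_div, abs_of_pos hδ, abs_of_nonneg h2]
        have h5 := hZ (r / δ)
        have h6 : c.η r x ≤ M₁ := by linarith
        gcongr
      have h7 : |hzf (r / δ) * c.ηr r x| ≤ M₁ := by
        rw [abs_mul, abs_of_nonneg h3']
        calc hzf (r / δ) * |c.ηr r x| ≤ 1 * |c.ηr r x| :=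
              mul_le_mul_of_nonneg_right h3 (abs_nonneg _)
          _ ≤ M₁ := by linarith
      refine le_trans (abs_add_le _ _) ?_
      linarith
  have b3 : ∀ r x, |x| ≤ 1 → |hcec c δ r x| ≤ M := by
    intro r x hx
    by_cases hr : r < δ
    · rw [hcec_zero c hδ x hr.le, abs_zero]
      exact hMpos.le
    · have hr0 : 0 < r := lt_of_lt_of_le hδ (not_lt.mp hr)
      rw [hcec_pos c x hr0]
      have h1 := (hM₀ r x (not_lt.mp hr) hx).2.2
      have h3 := hzf_le_one (r / δ)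
      have h3' := hzf_nonneg (r / δ)
      rw [abs_mul, abs_of_nonneg h3']
      calc hzf (r / δ) * |c.ηc r x| ≤ 1 * |c.ηc r x| :=
            mul_le_mul_of_nonneg_right h3 (abs_nonneg _)
        _ ≤ M := by linarith
  exact ⟨hcutKer hn hR c hδ M hMpos b1 b2 b3, rfl, rfl, rfl, rfl, rfl, rfl, rfl, rfl, rfl⟩

theorem hasKerR_of_raw {n : ℕ} (hn : 2 ≤ n) {R : ℝ} (hR : 0 < R) (c : RawCertH n R) :
    HasKerR n R := by
  intro V Φ Φ' hV hΦ hΦA hΦ' hΦH c₀ hc0 hc1
  have hA : 0 < areaM n R := areaM_pos (by omega) hR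
  have hom : 0 ≤ om n := ENNReal.toReal_nonneg
  have ha := c.a_pos
  have hd := c.d_pos
  set A := areaM n R with hAdef
  set K₀ : ℝ := (c.d * (n * om n * volM n R) - c.a * A ^ 2) / A with hK₀
  have hK0 : 0 ≤ K₀ := by
    have hpos : 0 < n := by omega
    let e : Ev n := EuclideanSpace.single (⟨0, hpos⟩ : Fin n) (1 : ℝ)
    have he : ‖e‖ = 1 := by simp [e]
    have hfin := c.final e he
    have hnn : 0 ≤ ∫ ω : Metric.sphere (0 : Ev n) 1, |inner ℝ (ω : Ev n) e|
        * c.f |inner ℝ (ω : Ev n) e| ∂(volume : Measure (Ev n)).toSphere := by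
      apply integral_nonneg
      intro ω
      exact mul_nonneg (abs_nonneg _) (c.f_nonneg _)
    apply div_nonneg _ hA.le
    have := mul_nonneg hnn hA.le
    linarith
  set X : ℝ := c₀ * Φ with hX
  have hX0 : 0 < X := mul_pos hc0 hΦ
  have hXA : X < A := by
    calc X < 1 * Φ := mul_lt_mul_of_pos_right hc1 hΦ
      _ = Φ := one_mul _
      _ ≤ A := hΦA
  have hKA : K₀ * A = c.d * (n * om n * volM n R) - c.a * A ^ 2 := div_mul_cancel₀ _ hA.ne'
  have hgap : c.a * X ^ 2 + K₀ * X < c.d * (n * om n * volM n R) := by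
    have h1 : X ^ 2 < A ^ 2 := by nlinarith
    have h2 : K₀ * X ≤ K₀ * A := mul_le_mul_of_nonneg_left hXA.le hK0
    have h3 : c.a * X ^ 2 < c.a * A ^ 2 := mul_lt_mul_of_pos_left h1 ha
    linarith
  set g : ℝ := c.d * (n * om n * volM n R) - (c.a * X ^ 2 + K₀ * X) with hg
  have hg0 : 0 < g := by linarith
  set S : ℝ := c.d * (n * om n) * X with hS
  have hS0 : 0 ≤ S := by positivity
  set δ : ℝ := g / (S + 1) with hδdef
  have hδ : 0 < δ := by positivity
  have hδS : δ * S < g := by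
    rw [hδdef, div_mul_eq_mul_div, div_lt_iff₀ (by positivity)]
    nlinarith
  obtain ⟨k, ha', hd', hK', hH', -⟩ := exists_hcut hn hR c hδ
  refine ⟨k, ?_, ?_⟩
  · rw [hH']
    refine le_trans ?_ hΦH
    calc c₀ * Φ' ≤ 1 * Φ' := mul_le_mul_of_nonneg_right hc1.le hΦ'
      _ = Φ' := one_mul _
  · rw [ha', hd', hK']
    have h1 : hK c δ = K₀ + c.d * δ * (n * om n) := rfl
    rw [h1]
    have h2 : (K₀ + c.d * δ * (n * om n)) * X = K₀ * X + δ * S := by rw [hS]; ring
    rw [h2]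
    have h3 : c.d * (n * om n * volM n R) ≤ c.d * (n * om n * V) := by
      apply mul_le_mul_of_nonneg_left _ hd.le
      exact mul_le_mul_of_nonneg_left hV (by positivity)
    linarith

/-- the cut off certificate: it agrees with the raw one for `r > 2 δ` -/
theorem exists_hcut_data {n : ℕ} (hn : 2 ≤ n) {R : ℝ} (hR : 0 < R) (c : RawCertH n R) {δ : ℝ}
    (hδ : 0 < δ) :
    ∃ k : KerH n, k.a = c.a ∧ k.d = c.d ∧
      k.K' = (c.d * (n * om n * volM n R) - c.a * areaM n R ^ 2) / areaM n R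
        + c.d * δ * (n * om n) ∧
      k.Hm = (n - 1) * (Real.cosh R / Real.sinh R) ∧ (∀ s, k.f s = c.f s + c.d * δ) ∧
      (∀ r, 2 * δ < r → k.h r = c.h r) ∧ (∀ r x, 2 * δ < r → k.η r x = c.η r x) ∧
      (∀ r x, 2 * δ < r → k.ηr r x = c.ηr r x) ∧ (∀ r x, 2 * δ < r → k.ηc r x = c.ηc r x) := by
  obtain ⟨k, h1, h2, h3, h4, h5, h6, h7, h8, h9⟩ := exists_hcut hn hR c hδ
  have hz : ∀ r, 2 * δ < r → 0 < r ∧ hzf (r / δ) = 1 ∧ hzd (r / δ) = 0 := by
    intro r hr
    have hr2 : 2 < r / δ := by rwa [lt_div_iff₀ hδ]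
    exact ⟨by linarith, hzf_one hr2.le, hzd_one hr2⟩
  refine ⟨k, h1, h2, h3, h4, ?_, ?_, ?_, ?_, ?_⟩
  · intro s
    rw [h5]
  · intro r hr
    obtain ⟨a1, a2, a3⟩ := hz r hr
    rw [h6, hch_pos c a1, a2, one_mul]
  · intro r x hr
    obtain ⟨a1, a2, a3⟩ := hz r hr
    rw [h7, hce_pos c x a1, a2, one_mul]
  · intro r x hr
    obtain ⟨a1, a2, a3⟩ := hz r hr
    rw [h8, hcer_pos c x a1, a2, a3, zero_div, zero_mul, zero_add, one_mul]
  · intro r x hr
    obtain ⟨a1, a2, a3⟩ := hz r hr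
    rw [h9, hcec_pos c x a1, a2, one_mul]

end Vale.Agent.Lib.P219
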