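import Vale.Agent.Lib.P219.Mo.Final

/-! # P219: the isoperimetric inequality for sets of finite perimeter, general profile -/

namespace Vale.Agent.Lib.P219

open MeasureTheory Set Filter Topology
open scoped ENNReal ContDiff

variable {n : ℕ} {g : Ev n → (Ev n →L[ℝ] Ev n →L[ℝ] ℝ)}

private theorem fin_keyH (hn : 2 ≤ n) (hg : IsMetric g) {H : HData n}
    (hH : Represents H g) {Φ : ℝ → ℝ} (hΦc : ContinuousOn Φ (Ioi 0))
    (hΦm : ∀ V W, 0 < V → V ≤ W → Φ V ≤ Φ W)
    (hA : ∀ K : Set (Ev n), IsCompact K → H.Conv K → ∀ c : ℝ, c < 1 →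
      ∃ h > 0, ∀ u, H.Adm K h u → c * Φ (H.V u) ≤ H.A u)
    {Ω : Set (Ev n)} (hΩ : Bornology.IsBounded Ω) (hm : MeasurableSet Ω)
    (hp : per g Ω ≠ ⊤) (hfin : H.vol Ω ≠ ⊤) (hpos : 0 < (H.vol Ω).toReal) {c : ℝ} (hc : 0 ≤ c)
    (hcl : c < 1) :
    c * Φ (H.vol Ω).toReal ≤ (per g Ω).toReal := by
  set m := (H.vol Ω).toReal with hmdef
  set p := (per g Ω).toReal with hpdef
  have hp0 : 0 ≤ p := ENNReal.toReal_nonneg
  obtain ⟨K₀, hK₀, happ⟩ := approx hg hH hΩ hm hp
  obtain ⟨K, hK, hK₀K, hKc⟩ := H.convex_exhaustion K₀ hK₀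
  obtain ⟨h, hh, hA⟩ := hA K hK hKc c hcl
  have hind : Integrable (Ω.indicator (1 : Ev n → ℝ)) H.vol :=
    (integrable_indicator_iff hm).mpr (integrableOn_const hfin)
  have hindI : ∫ x, Ω.indicator (1 : Ev n → ℝ) x ∂H.vol = m := by
    rw [integral_indicator_one hm]
    rfl
  have hstep : ∀ ε : ℝ, 0 < ε → ε < m → ε * (1 + h) < h * m →
      c * Φ (m - ε) ≤ (1 + ε) * p + ε := by
    intro ε hε hεm hεh
    obtain ⟨u, hu1, hu2, hu3, hu4, hu5, hu6⟩ := happ ε hε
    have hus : HasCompactSupport u := hK₀.of_isClosed_subset (isClosed_tsupport u) hu2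
    have hui : Integrable u H.vol := H.integrable_of_continuous hu1.continuous hus
    have hdi : Integrable (fun x => |u x - Ω.indicator (1 : Ev n → ℝ) x|) H.vol :=
      (hui.sub hind).abs
    have hV : m - ε ≤ H.V u := by
      have h1 : ∫ x, (Ω.indicator (1 : Ev n → ℝ) x - u x) ∂H.vol
          ≤ ∫ x, |u x - Ω.indicator (1 : Ev n → ℝ) x| ∂H.vol := by
        refine integral_mono (hind.sub hui) hdi fun x => ?_
        show Ω.indicator (1 : Ev n → ℝ) x - u x ≤ |u x - Ω.indicator (1 : Ev n → ℝ) x|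
        rw [abs_sub_comm]
        exact le_abs_self _
      rw [integral_sub hind hui, hindI] at h1
      unfold HData.V
      linarith
    have hVpos : 0 < H.V u := by linarith
    have hlay : ∫ x, u x * (1 - u x) ∂H.vol ≤ h * H.V u := by
      have h1 : ∫ x, u x * (1 - u x) ∂H.vol
          ≤ ∫ x, |u x - Ω.indicator (1 : Ev n → ℝ) x| ∂H.vol := by
        refine integral_mono_of_nonneg (Filter.Eventually.of_forall fun x => ?_) hdi
          (Filter.Eventually.of_forall fun x => ?_)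
        · have h3 := hu3 x
          have h4 := hu4 x
          simp only [Pi.zero_apply]
          exact mul_nonneg h3 (by linarith)
        · have h3 := hu3 x
          have h4 := hu4 x
          show u x * (1 - u x) ≤ |u x - Ω.indicator (1 : Ev n → ℝ) x|
          by_cases hx : x ∈ Ω
          · rw [indicator_of_mem hx, Pi.one_apply, abs_sub_comm, abs_of_nonneg (by linarith)]
            nlinarith
          · rw [indicator_of_notMem hx, sub_zero, abs_of_nonneg h3]
            nlinarith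
      have h2 : h * (m - ε) ≤ h * H.V u := mul_le_mul_of_nonneg_left hV hh.le
      nlinarith
    have hadm : H.Adm K h u :=
      ⟨hu1, hu2.trans hK₀K, hu3, hu4, hVpos, hlay⟩
    have h7 := hA u hadm
    have h8 : Φ (m - ε) ≤ Φ (H.V u) := hΦm _ _ (by linarith) hV
    have h9 : c * Φ (m - ε) ≤ c * Φ (H.V u) := mul_le_mul_of_nonneg_left h8 hc
    linarith
  have hev : ∀ᶠ ε : ℝ in 𝓝[>] 0,
      c * Φ (m - ε) ≤ (1 + ε) * p + ε := by
    have e1 : ∀ᶠ ε : ℝ in 𝓝[>] (0 : ℝ), ε < m :=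
      (eventually_lt_nhds hpos).filter_mono nhdsWithin_le_nhds
    have e2 : ∀ᶠ ε : ℝ in 𝓝[>] (0 : ℝ), ε < h * m / (1 + h) := by
      have : 0 < h * m / (1 + h) := by positivity
      exact (eventually_lt_nhds this).filter_mono nhdsWithin_le_nhds
    filter_upwards [e1, e2, self_mem_nhdsWithin] with ε h1 h2 h3
    refine hstep ε h3 h1 ?_
    rw [lt_div_iff₀ (by linarith)] at h2
    exact h2
  have t1 : Tendsto (fun ε : ℝ => c * Φ (m - ε)) (𝓝[>] 0) (𝓝 (c * Φ m)) := by
    have hcm : ContinuousAt Φ m := hΦc.continuousAt (Ioi_mem_nhds hpos)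
    have h0 : Tendsto (fun ε : ℝ => m - ε) (𝓝 0) (𝓝 m) := by
      have : Continuous (fun ε : ℝ => m - ε) := by fun_prop
      have h1 := this.tendsto 0
      rwa [sub_zero] at h1
    exact ((hcm.tendsto.comp h0).const_mul c).mono_left nhdsWithin_le_nhds
  have t2 : Tendsto (fun ε : ℝ => (1 + ε) * p + ε) (𝓝[>] 0) (𝓝 p) := by
    have : Continuous (fun ε : ℝ => (1 + ε) * p + ε) := by fun_prop
    have h1 := this.tendsto 0
    have h2 : (1 + (0 : ℝ)) * p + 0 = p := by ring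
    rw [h2] at h1
    exact h1.mono_left nhdsWithin_le_nhds
  exact le_of_tendsto_of_tendsto t1 t2 hev

/-- from almost indicator functions to sets of finite perimeter, for a monotone profile `Φ` -/
theorem isoperimetric_of_profile (hn : 2 ≤ n) (hg : IsMetric g) {H : HData n}
    (hH : Represents H g) {Φ : ℝ → ℝ} (hΦc : ContinuousOn Φ (Ioi 0))
    (hΦm : ∀ V W, 0 < V → V ≤ W → Φ V ≤ Φ W)
    (hA : ∀ K : Set (Ev n), IsCompact K → H.Conv K → ∀ c : ℝ, c < 1 →
      ∃ h > 0, ∀ u, H.Adm K h u → c * Φ (H.V u) ≤ H.A u)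
    {Ω : Set (Ev n)} (hΩ : Bornology.IsBounded Ω) (hm : MeasurableSet Ω) {V : ℝ} (hV : 0 < V)
    (hVΩ : ENNReal.ofReal V ≤ gvol g Ω) : ENNReal.ofReal (Φ V) ≤ per g Ω := by
  by_cases hp : per g Ω = ⊤
  · rw [hp]
    exact le_top
  rw [← vol_eq_gvol hH] at hVΩ
  have hfin : H.vol Ω ≠ ⊤ := by
    have := H.vol_isFiniteMeasureOnCompacts
    have h1 : H.vol (closure Ω) < ⊤ := hΩ.isCompact_closure.measure_lt_top
    exact ((measure_mono subset_closure).trans_lt h1).ne
  have hVm : V ≤ (H.vol Ω).toReal := (ENNReal.ofReal_le_iff_le_toReal hfin).1 hVΩ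
  have hpos : 0 < (H.vol Ω).toReal := hV.trans_le hVm
  have hkey : Φ (H.vol Ω).toReal ≤ (per g Ω).toReal := by
    have hev : ∀ᶠ c : ℝ in 𝓝[<] 1, c * Φ (H.vol Ω).toReal ≤ (per g Ω).toReal := by
      have e1 : ∀ᶠ c : ℝ in 𝓝[<] (1 : ℝ), 0 < c :=
        (eventually_gt_nhds one_pos).filter_mono nhdsWithin_le_nhds
      filter_upwards [e1, self_mem_nhdsWithin] with c h1 h2
      exact fin_keyH hn hg hH hΦc hΦm hA hΩ hm hp hfin hpos h1.le h2
    have t1 : Tendsto (fun c : ℝ => c * Φ (H.vol Ω).toReal) (𝓝[<] 1)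
        (𝓝 (1 * Φ (H.vol Ω).toReal)) := by
      have : Continuous (fun c : ℝ => c * Φ (H.vol Ω).toReal) := by fun_prop
      exact (this.tendsto _).mono_left nhdsWithin_le_nhds
    rw [one_mul] at t1
    exact le_of_tendsto t1 hev
  exact (ENNReal.ofReal_le_ofReal ((hΦm V _ hV hVm).trans hkey)).trans ENNReal.ofReal_toReal_le

end Vale.Agent.Lib.P219
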