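import Vale.Agent.Lib.P219.K.AreaIntH
import Vale.Agent.Lib.P219.A.FirstVar

/-! # P219, curvature `≤ -1`: the first variation inequality for near minimisers of `A / Φ(V)`

Model: `A/FirstVar` (`first_var`).  Competitor `v` from `exists_comp` (with `τ` small, then
`ε₁ ≪ τ`), `layer_le`, `vol_int` (with `modulus`), `area_intH`, and
`Φ (V v) ≥ Φ (V u) - Φ' Vs (V u - V v) - small |V u - V v|`. -/

namespace Vale.Agent.Lib.P219

open MeasureTheory Set Filter Topology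

/-- the transported function has at most slightly more mass -/
private theorem fvh_vol_le {n : ℕ} (H : HData n) (k : Ker n) (hn : 1 ≤ n) (x : Ev n) {e : Ev n}
    (he : ‖e‖ = 1) {τ ρ₀ : ℝ} (hτ : 0 ≤ τ) (hτ' : τ ≤ k.τ₀) (hρ : 0 < ρ₀) {u v : Ev n → ℝ}
    (hu : ContDiff ℝ 1 u) (hus : HasCompactSupport u) (h0 : ∀ y, 0 ≤ u y)
    (huv : ∀ w, v (H.Ex x (k.phi τ ρ₀ e w)) = u (H.Ex x w)) :
    H.V v ≤ (1 + τ * k.M) * H.V u := by
  have hM := k.M_pos
  unfold HData.V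
  rw [H.integral_comp k hn x he hτ hτ' hρ (fun y => v y), H.integral_exp x (fun y => u y),
    ← integral_const_mul]
  have hint : Integrable (fun w => H.th x w * u (H.Ex x w)) := by
    refine (H.integrable_exp_iff x (fun y => u y)).mp ?_
    exact H.integrable_of_continuous hu.continuous hus
  have : Nonempty (Fin n) := ⟨⟨0, hn⟩⟩
  have : Nontrivial (Ev n) := inferInstance
  refine integral_mono_of_nonneg ?_ (hint.const_mul (1 + τ * k.M)) ?_
  · refine Filter.Eventually.of_forall fun w => ?_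
    simp only [huv]
    exact mul_nonneg (h0 _) (mul_nonneg (abs_nonneg _) (abs_nonneg _))
  · have hae : ∀ᵐ w : Ev n, w ≠ 0 := by
      exact compl_mem_ae_iff.mpr (measure_singleton 0)
    filter_upwards [hae] with w hw
    simp only [huv]
    have nw : 0 < ‖w‖ := norm_pos_iff.mpr hw
    have hcos : |(inner ℝ w e : ℝ) / ‖w‖| ≤ 1 := by
      rw [abs_div, abs_norm, div_le_one nw]
      have := abs_real_inner_le_norm w e
      rwa [he, mul_one] at this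
    obtain ⟨m1, m2, -⟩ := k.mu_mem hτ hτ' hρ he w
    have hr := abs_le.1 (k.ηr_le (‖w‖ / ρ₀) _ hcos)
    have hτM : 0 ≤ τ * k.M := mul_nonneg hτ hM.le
    have hb1 : τ * k.ηr (‖w‖ / ρ₀) (inner ℝ w e / ‖w‖) ≤ τ * k.M :=
      mul_le_mul_of_nonneg_left hr.2 hτ
    have hb2 : -(τ * k.M) ≤ τ * k.ηr (‖w‖ / ρ₀) (inner ℝ w e / ‖w‖) := by
      have := mul_le_mul_of_nonneg_left hr.1 hτ
      linarith
    have hdet : |(fderiv ℝ (k.phi τ ρ₀ e) w).det| ≤ 1 + τ * k.M := by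
      rw [k.det_fderiv_phi hn hρ he w hw, abs_mul, abs_pow]
      have a1 : |1 - τ * k.ηr (‖w‖ / ρ₀) (inner ℝ w e / ‖w‖)| ≤ 1 + τ * k.M := by
        rw [abs_le]; constructor <;> linarith
      have a2 : |k.mu τ ρ₀ e w| ^ (n - 1) ≤ 1 :=
        pow_le_one₀ (abs_nonneg _) (by rw [abs_le]; constructor <;> linarith)
      calc _ ≤ (1 + τ * k.M) * 1 := mul_le_mul a1 a2 (by positivity) (by linarith)
        _ = 1 + τ * k.M := mul_one _
    have hth : H.th x (k.phi τ ρ₀ e w) ≤ H.th x w := by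
      have h := H.th_mono x w (s := k.mu τ ρ₀ e w) (t := 1) (by linarith) m2
      rw [one_smul] at h
      exact h
    have hth0 : 0 ≤ H.th x (k.phi τ ρ₀ e w) := abs_nonneg _
    have key : H.th x (k.phi τ ρ₀ e w) * |(fderiv ℝ (k.phi τ ρ₀ e) w).det| ≤
        H.th x w * (1 + τ * k.M) :=
      mul_le_mul hth hdet (abs_nonneg _) (hth0.trans hth)
    calc u (H.Ex x w) * (H.th x (k.phi τ ρ₀ e w) * |(fderiv ℝ (k.phi τ ρ₀ e) w).det|)
        ≤ u (H.Ex x w) * (H.th x w * (1 + τ * k.M)) := mul_le_mul_of_nonneg_left key (h0 _)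
      _ = (1 + τ * k.M) * (H.th x w * u (H.Ex x w)) := by ring

/-- strict differentiability in `ε`-`δ` form together with a bound for the values -/
private theorem fvh_strict {Φ Φ' : ℝ → ℝ} {Vs : ℝ}
    (hΦ : ∀ᶠ V in 𝓝 Vs, HasDerivAt Φ (Φ' V) V) (hΦc : ContinuousAt Φ' Vs) (hΦp : 0 < Φ Vs)
    {η : ℝ} (hη : 0 < η) : ∃ δ > 0, (∀ V, |V - Vs| < δ → Φ V ≤ 2 * Φ Vs) ∧
      ∀ V W, |V - Vs| < δ → |W - Vs| < δ → |Φ V - Φ W - Φ' Vs * (V - W)| ≤ η * |V - W| := by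
  have h1 : HasStrictDerivAt Φ (Φ' Vs) Vs := hasStrictDerivAt_of_hasDerivAt_of_continuousAt hΦ hΦc
  have h2 := h1.isLittleO.def hη
  have h3 : ∀ᶠ V in 𝓝 Vs, Φ V < 2 * Φ Vs :=
    h1.hasDerivAt.continuousAt.eventually_lt continuousAt_const (by linarith)
  obtain ⟨δ1, hδ1, h4⟩ := Metric.eventually_nhds_iff.1 h2
  obtain ⟨δ2, hδ2, h5⟩ := Metric.eventually_nhds_iff.1 h3
  refine ⟨min δ1 δ2, lt_min hδ1 hδ2, ?_, ?_⟩
  · intro V hV
    exact (h5 (by rw [Real.dist_eq]; exact hV.trans_le (min_le_right _ _))).le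
  · intro V W hV hW
    have h6 : dist (V, W) (Vs, Vs) < δ1 := by
      rw [Prod.dist_eq, max_lt_iff, Real.dist_eq, Real.dist_eq]
      exact ⟨hV.trans_le (min_le_left _ _), hW.trans_le (min_le_left _ _)⟩
    have h7 := h4 h6
    simpa [Real.norm_eq_abs, mul_comm] using h7

namespace HDataH

variable {n : ℕ} (H : HDataH n) (k : KerH n)

theorem first_varH (hn : 2 ≤ n) {K : Set (Ev n)} (hK : IsCompact K) (hc : H.Conv K)
    {Φ Φ' : ℝ → ℝ} {Vs : ℝ} (hVs : 0 < Vs) (hΦ : ∀ᶠ V in 𝓝 Vs, HasDerivAt Φ (Φ' V) V)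
    (hΦc : ContinuousAt Φ' Vs) (hΦ0 : 0 ≤ Φ' Vs) (hΦp : 0 < Φ Vs) {c₀ : ℝ} (hc₀ : 0 < c₀)
    {ε : ℝ} (hε : 0 < ε) :
    ∃ ε₁ > 0, ∀ h : ℝ, 0 ≤ h → ∀ u : Ev n → ℝ, H.Adm K h u → |H.V u - Vs| ≤ ε₁ →
      H.A u ≤ (1 + ε₁) * c₀ * Φ (H.V u) →
      (∀ v, H.Adm K (4 * h) v → (1 - ε₁) * c₀ * Φ (H.V v) ≤ H.A v) →
      ∀ x ∈ K, ∀ e : Ev n, ‖e‖ = 1 →
        H.FV k.gh u 1 x e + H.FX k u x e
          - c₀ * Φ' Vs * H.FV (fun r c c' => c * k.η r c') u 1 x e ≤ ε := by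
  have hM := k.M_pos
  set Am : ℝ := 4 * c₀ * Φ Vs with hAm
  have hAmp : 0 < Am := by positivity
  set C₁ : ℝ := k.M * (2 * Vs) + 2 * k.M * Am with hC₁
  have hC₁p : 0 < C₁ := by positivity
  -- constants
  obtain ⟨δ, hδ, hδ1, hδ2⟩ := fvh_strict hΦ hΦc hΦp (η := ε / (4 * (c₀ * C₁))) (by positivity)
  set om : ℝ := min 1 (ε / (4 * ((c₀ * Φ' Vs + 1) * k.M * Am))) with hom
  have homp : 0 < om := lt_min one_pos (by positivity)
  have hom1 : om ≤ 1 := min_le_left _ _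
  have hom2 : c₀ * Φ' Vs * (om * k.M * Am) ≤ ε / 4 := by
    have h1 : om ≤ ε / (4 * ((c₀ * Φ' Vs + 1) * k.M * Am)) := min_le_right _ _
    rw [le_div_iff₀ (by positivity)] at h1
    have h2 : 0 ≤ om * k.M * Am := by positivity
    calc c₀ * Φ' Vs * (om * k.M * Am) ≤ (c₀ * Φ' Vs + 1) * (om * k.M * Am) :=
          mul_le_mul_of_nonneg_right (by linarith) h2
      _ = (om * (4 * ((c₀ * Φ' Vs + 1) * k.M * Am))) / 4 := by ring
      _ ≤ ε / 4 := by linarith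
  obtain ⟨τa, hτa, hτa', harea⟩ := H.area_intH k hn hK (ε := ε / (4 * Am)) (by positivity)
  obtain ⟨τm, hτm, hτm', hmod⟩ := H.toHData.modulus (k.toKer hn) hK homp
  set τ : ℝ := min (min τa τm) (min (δ / (4 * C₁)) (Vs / (8 * (k.M * Am)))) with hτdef
  have hτ : 0 < τ := lt_min (lt_min hτa hτm) (lt_min (by positivity) (by positivity))
  have hτ1 : τ ≤ τa := (min_le_left _ _).trans (min_le_left _ _)
  have hτ2 : τ ≤ τm := (min_le_left _ _).trans (min_le_right _ _)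
  have hτ3 : τ * C₁ ≤ δ / 4 := by
    have h1 : τ ≤ δ / (4 * C₁) := (min_le_right _ _).trans (min_le_left _ _)
    rw [le_div_iff₀ (by positivity)] at h1
    linarith
  have hτ4 : τ * (2 * k.M * Am) ≤ Vs / 4 := by
    have h1 : τ ≤ Vs / (8 * (k.M * Am)) := (min_le_right _ _).trans (min_le_right _ _)
    rw [le_div_iff₀ (by positivity)] at h1
    linarith
  set ε₁ : ℝ := min (min 1 (Vs / 2)) (min (δ / 4) (τ * ε / (16 * (c₀ * Φ Vs)))) with hε₁def
  have hε₁ : 0 < ε₁ := lt_min (lt_min one_pos (by positivity)) (lt_min (by positivity) (by positivity))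
  have he1 : ε₁ ≤ 1 := (min_le_left _ _).trans (min_le_left _ _)
  have he2 : ε₁ ≤ Vs / 2 := (min_le_left _ _).trans (min_le_right _ _)
  have he3 : ε₁ ≤ δ / 4 := (min_le_right _ _).trans (min_le_left _ _)
  have he4 : ε₁ * (4 * (c₀ * Φ Vs)) ≤ τ * (ε / 4) := by
    have h1 : ε₁ ≤ τ * ε / (16 * (c₀ * Φ Vs)) := (min_le_right _ _).trans (min_le_right _ _)
    rw [le_div_iff₀ (by positivity)] at h1
    linarith
  refine ⟨ε₁, hε₁, ?_⟩
  intro h hh u hu hVu hup hlow x hx e he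
  have hs : HasCompactSupport u := hK.of_isClosed_subset (isClosed_tsupport u) hu.supp
  have hVu' := abs_le.1 hVu
  have hVu1 : Vs / 2 ≤ H.V u := by linarith
  have hVu2 : H.V u ≤ 2 * Vs := by linarith
  have hVuδ : |H.V u - Vs| < δ := by linarith
  have hΦu : Φ (H.V u) ≤ 2 * Φ Vs := hδ1 _ hVuδ
  have hAu : H.A u ≤ Am := by
    have h1 : (1 + ε₁) * c₀ * Φ (H.V u) ≤ (1 + ε₁) * c₀ * (2 * Φ Vs) :=
      mul_le_mul_of_nonneg_left hΦu (by positivity)
    have h2 : (1 + ε₁) * c₀ * (2 * Φ Vs) ≤ 2 * c₀ * (2 * Φ Vs) := by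
      refine mul_le_mul_of_nonneg_right (mul_le_mul_of_nonneg_right (by linarith) hc₀.le)
        (by positivity)
    calc H.A u ≤ (1 + ε₁) * c₀ * Φ (H.V u) := hup
      _ ≤ _ := h1
      _ ≤ _ := h2
      _ = Am := by rw [hAm]; ring
  have hA0 : 0 ≤ H.A u := H.toHData.A_nonneg u
  have hη : (k.toKer hn).η = k.η := k.toKer_η hn
  have hMM : (k.toKer hn).M = k.M := k.toKer_M hn
  have hτ0 : τ ≤ (k.toKer hn).τ₀ := hτ1.trans hτa'
  obtain ⟨v, hv, huv, hvs, hv0, hv1⟩ := H.toHData.exists_comp (k.toKer hn) (by omega : 1 ≤ n)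
    hK.isClosed hc hx he hτ.le hτ0 one_pos hu.smooth hu.supp hu.nonneg hu.le_one
  have hvol := H.toHData.vol_int (k.toKer hn) hn hK x e hx he τ 1 hτ.le hτ0 one_pos u v hu.smooth
    hu.supp hv huv om homp.le (fun w hw => hmod τ hτ.le hτ2 1 one_pos x hx e he w hw)
  rw [hη, hMM, mul_one] at hvol
  set Fc : ℝ := H.FV (fun r c c' => c * k.η r c') u 1 x e with hFcdef
  have hFc : |Fc| ≤ k.M * H.A u := by
    refine H.toHData.abs_FV_le (F := fun r c c' => c * k.η r c') (fun r c c' hc hc' => ?_)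
      hu.smooth hs 1 x he.le
    rw [abs_mul, abs_of_nonneg (k.η_nonneg r c' hc')]
    calc |c| * k.η r c' ≤ 1 * k.M :=
          mul_le_mul hc (k.η_le r c' hc') (k.η_nonneg r c' hc') zero_le_one
      _ = k.M := one_mul _
  have hMA : k.M * H.A u ≤ k.M * Am := mul_le_mul_of_nonneg_left hAu hM.le
  have homA : om * k.M * H.A u ≤ om * k.M * Am := mul_le_mul_of_nonneg_left hAu (by positivity)
  have homA1 : om * k.M * Am ≤ 1 * (k.M * Am) := by
    rw [mul_assoc]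
    exact mul_le_mul_of_nonneg_right hom1 (by positivity)
  -- one side
  have hd1 : H.V u - H.V v ≤ τ * (2 * k.M * Am) := by
    refine hvol.trans (mul_le_mul_of_nonneg_left ?_ hτ.le)
    have := (abs_le.1 hFc).2
    linarith
  -- other side
  have hd2 : H.V v - H.V u ≤ τ * (k.M * (2 * Vs)) := by
    have h1 := fvh_vol_le H.toHData (k.toKer hn) (by omega : 1 ≤ n) x he hτ.le hτ0 one_pos
      hu.smooth hs hu.nonneg huv
    rw [hMM] at h1
    have h2 : k.M * H.V u ≤ k.M * (2 * Vs) := mul_le_mul_of_nonneg_left hVu2 hM.le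
    have h3 := mul_le_mul_of_nonneg_left h2 hτ.le
    linarith
  have hdd : |H.V u - H.V v| ≤ τ * C₁ := by
    have h1 : 0 ≤ τ * (2 * k.M * Am) := by positivity
    have h2 : 0 ≤ τ * (k.M * (2 * Vs)) := by positivity
    have h3 : τ * C₁ = τ * (k.M * (2 * Vs)) + τ * (2 * k.M * Am) := by rw [hC₁]; ring
    rw [h3, abs_le]
    constructor <;> linarith
  have hVv : H.V u / 2 ≤ H.V v := by linarith
  have hVvp : 0 < H.V v := by linarith
  have hVvδ : |H.V v - Vs| < δ := by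
    have h1 : H.V v - Vs = -(H.V u - H.V v) + (H.V u - Vs) := by ring
    rw [h1]
    refine (abs_add_le _ _).trans_lt ?_
    rw [abs_neg]
    linarith
  have hlay := H.toHData.layer_le (k.toKer hn) (by omega : 1 ≤ n) x he hτ.le hτ0 one_pos
    (fun s => s * (1 - s)) (by fun_prop) (fun s hs0 hs1 => mul_nonneg hs0 (by linarith))
    (by norm_num) hu.smooth hs hu.nonneg hu.le_one hv huv
  have hadm : H.Adm K (4 * h) v := by
    refine ⟨hv, hvs, hv0, hv1, hVvp, ?_⟩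
    have h2 : h * H.V u ≤ h * (2 * H.V v) := mul_le_mul_of_nonneg_left (by linarith) hh
    calc ∫ y, v y * (1 - v y) ∂H.vol ≤ 2 * ∫ y, u y * (1 - u y) ∂H.vol := hlay
      _ ≤ 2 * (h * H.V u) := by linarith [hu.layer]
      _ ≤ 4 * h * H.V v := by linarith
  have hlow' := hlow v hadm
  have har := harea x hx e he τ hτ.le hτ1 u v hu.smooth hu.supp hv huv
  set Fgh : ℝ := H.FV k.gh u 1 x e + H.FX k u x e with hFgh
  have hΦv : Φ (H.V v) ≤ 2 * Φ Vs := hδ1 _ hVvδ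
  have hst := hδ2 (H.V u) (H.V v) hVuδ hVvδ
  -- final arithmetic
  have f1 : ε / (4 * Am) * τ * H.A u ≤ τ * (ε / 4) := by
    have h1 : ε / (4 * Am) * τ * H.A u ≤ ε / (4 * Am) * τ * Am :=
      mul_le_mul_of_nonneg_left hAu (by positivity)
    have h2 : ε / (4 * Am) * τ * Am = τ * (ε / 4) := by
      field_simp
    linarith
  have f2 : Φ (H.V u) - Φ (H.V v) ≤
      Φ' Vs * (τ * (Fc + om * k.M * Am)) + ε / (4 * (c₀ * C₁)) * (τ * C₁) := by
    have h1 := (abs_le.1 hst).2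
    have h2 : ε / (4 * (c₀ * C₁)) * |H.V u - H.V v| ≤ ε / (4 * (c₀ * C₁)) * (τ * C₁) :=
      mul_le_mul_of_nonneg_left hdd (by positivity)
    have h3 : Φ' Vs * (H.V u - H.V v) ≤ Φ' Vs * (τ * (Fc + om * k.M * Am)) := by
      refine mul_le_mul_of_nonneg_left (hvol.trans ?_) hΦ0
      exact mul_le_mul_of_nonneg_left (by linarith) hτ.le
    linarith
  have f3 : c₀ * (Φ (H.V u) - Φ (H.V v)) ≤
      τ * (c₀ * Φ' Vs * Fc) + τ * (ε / 4) + τ * (ε / 4) := by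
    have h1 := mul_le_mul_of_nonneg_left f2 hc₀.le
    have h2 : c₀ * (ε / (4 * (c₀ * C₁)) * (τ * C₁)) = τ * (ε / 4) := by
      field_simp
    have h3 : τ * (c₀ * Φ' Vs * (om * k.M * Am)) ≤ τ * (ε / 4) :=
      mul_le_mul_of_nonneg_left hom2 hτ.le
    calc c₀ * (Φ (H.V u) - Φ (H.V v)) ≤ c₀ * (Φ' Vs * (τ * (Fc + om * k.M * Am)) +
          ε / (4 * (c₀ * C₁)) * (τ * C₁)) := h1
      _ = τ * (c₀ * Φ' Vs * Fc) + τ * (c₀ * Φ' Vs * (om * k.M * Am)) +
          c₀ * (ε / (4 * (c₀ * C₁)) * (τ * C₁)) := by ring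
      _ ≤ _ := by rw [h2]; linarith
  have f4 : ε₁ * c₀ * Φ (H.V u) + ε₁ * c₀ * Φ (H.V v) ≤ τ * (ε / 4) := by
    have h1 : ε₁ * c₀ * Φ (H.V u) ≤ ε₁ * c₀ * (2 * Φ Vs) :=
      mul_le_mul_of_nonneg_left hΦu (by positivity)
    have h2 : ε₁ * c₀ * Φ (H.V v) ≤ ε₁ * c₀ * (2 * Φ Vs) :=
      mul_le_mul_of_nonneg_left hΦv (by positivity)
    linarith
  have f5 : τ * (Fgh - c₀ * Φ' Vs * Fc) ≤ τ * ε := by
    have e1 : τ * Fgh ≤ H.A u + ε / (4 * Am) * τ * H.A u - (1 - ε₁) * c₀ * Φ (H.V v) := by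
      have h1 : (1 + ε / (4 * Am) * τ) * H.A u = H.A u + ε / (4 * Am) * τ * H.A u := by ring
      rw [h1] at har
      linarith
    have e2 : (1 + ε₁) * c₀ * Φ (H.V u) = c₀ * Φ (H.V u) + ε₁ * c₀ * Φ (H.V u) := by ring
    have e3 : (1 - ε₁) * c₀ * Φ (H.V v) = c₀ * Φ (H.V v) - ε₁ * c₀ * Φ (H.V v) := by ring
    rw [e2] at hup
    rw [e3] at e1
    have e4 : c₀ * (Φ (H.V u) - Φ (H.V v)) = c₀ * Φ (H.V u) - c₀ * Φ (H.V v) := by ring
    rw [e4] at f3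
    have e5 : τ * (Fgh - c₀ * Φ' Vs * Fc) = τ * Fgh - τ * (c₀ * Φ' Vs * Fc) := by ring
    have e6 : τ * ε = τ * (ε / 4) + τ * (ε / 4) + τ * (ε / 4) + τ * (ε / 4) := by ring
    rw [e5, e6]
    linarith only [e1, hup, f1, f3, f4]
  exact le_of_mul_le_mul_left f5 hτ

end HDataH

end Vale.Agent.Lib.P219
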