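import Vale.Agent.Lib.P219.K.Model
import Vale.Agent.Lib.P219.K.Defs

/-! # P219, curvature `-1`: unregularised certificates for the model ball of radius `R` -/

namespace Vale.Agent.Lib.P219

open MeasureTheory Set Filter Topology

/-- An unregularised certificate for the model ball of radius `R` in curvature `-1`: `η` is only
given for `r > 0`. -/
structure RawCertH (n : ℕ) (R : ℝ) where
  η : ℝ → ℝ → ℝ
  ηr : ℝ → ℝ → ℝ
  ηc : ℝ → ℝ → ℝ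
  smooth : ContDiffOn ℝ 1 (fun p : ℝ × ℝ => η p.1 p.2) (Ioi 0 ×ˢ univ)
  deriv_r : ∀ r c, 0 < r → HasDerivAt (fun s => η s c) (ηr r c) r
  deriv_c : ∀ r c, 0 < r → HasDerivAt (fun s => η r s) (ηc r c) c
  bound : ∀ δ > 0, ∃ M : ℝ, ∀ r c, δ ≤ r → |c| ≤ 1 →
    η r c ≤ M ∧ |ηr r c| ≤ M ∧ |ηc r c| ≤ M
  η_nonneg : ∀ r c, 0 < r → |c| ≤ 1 → 0 ≤ η r c
  a : ℝ
  a_pos : 0 < a
  d : ℝ
  d_pos : 0 < d
  f : ℝ → ℝ
  f_cont : Continuous f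
  f_nonneg : ∀ c, 0 ≤ f c
  h : ℝ → ℝ
  h_smooth : ContDiffOn ℝ 1 h (Ioi 0)
  h_nonneg : ∀ r, 0 < r → 0 ≤ h r
  h_mono : ∀ r s, 0 < r → r ≤ s → h r ≤ h s
  /-- `B ≥ 0` for mean curvature `0` -/
  B_zero : ∀ r c c', 0 < r → |c| ≤ 1 → |c'| ≤ 1 →
    0 ≤ a + ((ηr r c' * (1 - c ^ 2) + η r c' * (Real.cosh r / Real.sinh r) * (n - 2 + c ^ 2)
        - |c| * |ηc r c'| * Real.sqrt ((1 - c ^ 2) * (1 - c' ^ 2)) / Real.sinh r)
      + (ηr r c * (1 - c' ^ 2) + η r c * (Real.cosh r / Real.sinh r) * (n - 2 + c' ^ 2)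
        - |c'| * |ηc r c| * Real.sqrt ((1 - c' ^ 2) * (1 - c ^ 2)) / Real.sinh r)) / 2
  /-- (N1) -/
  B_slope : ∀ r c c', 0 < r → 0 ≤ c → c ≤ 1 → 0 ≤ c' → c' ≤ 1 →
    0 ≤ a + ((ηr r c' * (1 - c ^ 2) + η r c' * (Real.cosh r / Real.sinh r) * (n - 2 + c ^ 2)
        - |c| * |ηc r c'| * Real.sqrt ((1 - c ^ 2) * (1 - c' ^ 2)) / Real.sinh r
        - (n - 1) * (Real.cosh R / Real.sinh R) * c * η r c')
      + (ηr r c * (1 - c' ^ 2) + η r c * (Real.cosh r / Real.sinh r) * (n - 2 + c' ^ 2)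
        - |c'| * |ηc r c| * Real.sqrt ((1 - c' ^ 2) * (1 - c ^ 2)) / Real.sinh r
        - (n - 1) * (Real.cosh R / Real.sinh R) * c' * η r c)) / 2
      + c * c' * Real.sqrt (η r c * η r c') / Real.sinh r
  /-- (N4) visible pairs -/
  B_comp : ∀ r c c', 0 < r → 0 ≤ c → c ≤ 1 → 0 ≤ c' → c' ≤ 1 →
    -(c * h r) ≤ (a + ((ηr r c' * (1 - c ^ 2)
        + η r c' * (Real.cosh r / Real.sinh r) * (n - 2 + c ^ 2)
        - |c| * |ηc r c'| * Real.sqrt ((1 - c ^ 2) * (1 - c' ^ 2)) / Real.sinh r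
        - (n - 1) * (Real.cosh R / Real.sinh R) * c * η r c')
      + (ηr r c * (1 - c' ^ 2) + η r c * (Real.cosh r / Real.sinh r) * (n - 2 + c' ^ 2)
        - |c'| * |ηc r c| * Real.sqrt ((1 - c' ^ 2) * (1 - c ^ 2)) / Real.sinh r
        - (n - 1) * (Real.cosh R / Real.sinh R) * c' * η r c)) / 2) * Real.sinh r ^ (n - 1)
  /-- (N4) compensating pairs -/
  B_comp' : ∀ r γ c', 0 < r → 0 ≤ γ → γ ≤ 1 → 0 ≤ c' → c' ≤ 1 →
    γ * h r ≤ (a + ((ηr r c' * (1 - γ ^ 2)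
        + η r c' * (Real.cosh r / Real.sinh r) * (n - 2 + γ ^ 2)
        - |γ| * |ηc r c'| * Real.sqrt ((1 - γ ^ 2) * (1 - c' ^ 2)) / Real.sinh r
        + (n - 1) * (Real.cosh R / Real.sinh R) * γ * η r c')
      + (ηr r (-γ) * (1 - c' ^ 2) + η r (-γ) * (Real.cosh r / Real.sinh r) * (n - 2 + c' ^ 2)
        - |c'| * |ηc r (-γ)| * Real.sqrt ((1 - c' ^ 2) * (1 - γ ^ 2)) / Real.sinh r
        - (n - 1) * (Real.cosh R / Real.sinh R) * c' * η r (-γ))) / 2) * Real.sinh r ^ (n - 1)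
  /-- (N2) -/
  B_lower : ∀ r c c', 0 < r → 0 < c → c ≤ 1 → 0 < c' → c' ≤ 1 →
    c * c' * (d * r - f c - f c') ≤
      (a + ((ηr r c' * (1 - c ^ 2) + η r c' * (Real.cosh r / Real.sinh r) * (n - 2 + c ^ 2)
        - |c| * |ηc r c'| * Real.sqrt ((1 - c ^ 2) * (1 - c' ^ 2)) / Real.sinh r
        - (n - 1) * (Real.cosh R / Real.sinh R) * c * η r c')
      + (ηr r c * (1 - c' ^ 2) + η r c * (Real.cosh r / Real.sinh r) * (n - 2 + c' ^ 2)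
        - |c'| * |ηc r c| * Real.sqrt ((1 - c' ^ 2) * (1 - c ^ 2)) / Real.sinh r
        - (n - 1) * (Real.cosh R / Real.sinh R) * c' * η r c)) / 2) * Real.sinh r ^ (n - 1)
  final : ∀ e : Ev n, ‖e‖ = 1 → a * areaM n R ^ 2
    + (∫ ω : Metric.sphere (0 : Ev n) 1, |inner ℝ (ω : Ev n) e| * f |inner ℝ (ω : Ev n) e|
      ∂(volume : Measure (Ev n)).toSphere) * areaM n R ≤ d * (n * om n * volM n R)

end Vale.Agent.Lib.P219
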