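import Mathlib.MeasureTheory.Integral.IntegralEqImproper
import Mathlib.Order.CompletePartialOrder
import Vale.Agent.Lib.P219.LL.Defs

/-!
# P219, signed line lemma (first part): last crossings

`Lst f`: points where `f` decreases and which are the last points of their level.
-/

namespace Vale.Agent.Lib.P219.LL

open MeasureTheory Set
open scoped ENNReal

/-- last crossings -/
def Lst (f : ℝ → ℝ) : Set ℝ := {b | deriv f b < 0 ∧ ∀ t, b ≤ t → f t ≤ f b}

/-- first crossings -/
def Fst (f : ℝ → ℝ) : Set ℝ := {a | 0 < deriv f a ∧ ∀ t, t ≤ a → f t ≤ f a}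

theorem Good.neg {f : ℝ → ℝ} (hf : Good f) : Good (fun t => f (-t)) where
  smooth := hf.smooth.comp contDiff_neg
  supp := hf.supp.comp_homeomorph (Homeomorph.neg ℝ)
  nonneg := fun t => hf.nonneg (-t)
  le_one := fun t => hf.le_one (-t)

theorem Good.cont_deriv {f : ℝ → ℝ} (hf : Good f) : Continuous (deriv f) :=
  hf.smooth.continuous_deriv le_rfl

theorem Good.hasDerivAt {f : ℝ → ℝ} (hf : Good f) (x : ℝ) : HasDerivAt f (deriv f x) x :=
  ((hf.smooth.differentiable one_ne_zero) x).hasDerivAt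

theorem mem_Fst_iff (f : ℝ → ℝ) (a : ℝ) : a ∈ Fst f ↔ -a ∈ Lst (fun t => f (-t)) := by
  constructor
  · rintro ⟨h1, h2⟩
    refine ⟨?_, ?_⟩
    · rw [deriv_comp_neg, neg_neg]
      linarith
    · intro t ht
      have := h2 (-t) (by linarith)
      simpa using this
  · rintro ⟨h1, h2⟩
    rw [deriv_comp_neg, neg_neg] at h1
    refine ⟨by linarith, ?_⟩
    intro t ht
    have := h2 (-t) (by linarith)
    simpa using this

theorem measurableSet_Lst {f : ℝ → ℝ} (hf : Good f) : MeasurableSet (Lst f) := by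
  have h1 : MeasurableSet {b : ℝ | deriv f b < 0} :=
    (isOpen_lt hf.cont_deriv continuous_const).measurableSet
  have h2 : {b : ℝ | ∀ t, b ≤ t → f t ≤ f b} = ⋂ t : ℝ, ({b | t ≤ b} ∪ {b | f t ≤ f b}) := by
    ext b
    simp only [mem_ofPred_eq, mem_iInter, mem_union]
    constructor
    · intro h t
      rcases le_total b t with h' | h'
      · exact Or.inr (h t h')
      · exact Or.inl h'
    · intro h t hbt
      rcases h t with h' | h'
      · rw [le_antisymm h' hbt]
      · exact h'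
  have h3 : MeasurableSet {b : ℝ | ∀ t, b ≤ t → f t ≤ f b} := by
    rw [h2]
    refine (isClosed_iInter fun t => ?_).measurableSet
    exact (isClosed_le continuous_const continuous_id).union
      (isClosed_le continuous_const hf.smooth.continuous)
  exact h1.inter h3

theorem measurableSet_Fst {f : ℝ → ℝ} (hf : Good f) : MeasurableSet (Fst f) := by
  have h : Fst f = (fun a : ℝ => -a) ⁻¹' (Lst (fun t => f (-t))) := by
    ext a
    exact mem_Fst_iff f a
  rw [h]
  exact measurable_neg (measurableSet_Lst hf.neg)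

/-- a point with negative derivative has larger values slightly to the left -/
theorem exists_left_gt {f : ℝ → ℝ} (hf : Good f) {a b : ℝ} (hab : a < b) (hb : deriv f b < 0) :
    ∃ t, a ≤ t ∧ t < b ∧ f b < f t := by
  have hs : Filter.Tendsto (slope f b) (nhdsWithin b (Iio b)) (nhds (deriv f b)) :=
    (hasDerivAt_iff_tendsto_slope.1 (hf.hasDerivAt b)).mono_left
      (nhdsWithin_mono _ fun x hx => (ne_of_lt hx))
  have h1 : ∀ᶠ t in nhdsWithin b (Iio b), slope f b t < 0 := hs.eventually_lt_const hb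
  have h2 : ∀ᶠ t in nhdsWithin b (Iio b), t ∈ Ico a b := Ico_mem_nhdsLT hab
  obtain ⟨t, ht1, ht2⟩ := (h1.and h2).exists
  refine ⟨t, ht2.1, ht2.2, ?_⟩
  rw [slope_def_field] at ht1
  have h3 : t - b < 0 := by linarith [ht2.2]
  by_contra hcon
  push Not at hcon
  have h4 : 0 ≤ (f t - f b) / (t - b) := div_nonneg_of_nonpos (by linarith) h3.le
  linarith

theorem injOn_Lst {f : ℝ → ℝ} (hf : Good f) : InjOn f (Lst f) := by
  have key : ∀ b1 ∈ Lst f, ∀ b2 ∈ Lst f, b1 < b2 → f b1 = f b2 → False := by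
    intro b1 h1 b2 h2 hlt heq
    obtain ⟨t, ht1, ht2, ht3⟩ := exists_left_gt hf hlt h2.1
    have := h1.2 t ht1
    linarith
  intro b1 h1 b2 h2 heq
  rcases lt_trichotomy b1 b2 with h | h | h
  · exact (key b1 h1 b2 h2 h heq).elim
  · exact h
  · exact (key b2 h2 b1 h1 h heq.symm).elim

theorem volume_image_crit {f : ℝ → ℝ} (hf : Good f) :
    volume (f '' {x | deriv f x = 0}) = 0 := by
  have h1 : ∀ x ∈ {x | deriv f x = 0}, HasFDerivWithinAt f
      (ContinuousLinearMap.toSpanSingleton ℝ (deriv f x)) {x | deriv f x = 0} x :=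
    fun x _ => (hf.hasDerivAt x).hasFDerivAt.hasFDerivWithinAt
  refine addHaar_image_eq_zero_of_det_fderivWithin_eq_zero volume h1 ?_
  intro x hx
  rw [ContinuousLinearMap.det_toSpanSingleton]
  exact hx

/-- every level below `f τ` has a last point, which lies to the right of `τ` -/
theorem exists_last {f : ℝ → ℝ} (hf : Good f) {τ s : ℝ} (hs0 : 0 < s) (hs : s < f τ) :
    ∃ b, τ < b ∧ f b = s ∧ (∀ t, b ≤ t → f t ≤ f b) ∧ deriv f b ≤ 0 := by
  have hc : Continuous f := hf.smooth.continuous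
  set K : Set ℝ := {t | τ ≤ t ∧ s ≤ f t} with hK
  have hne : K.Nonempty := ⟨τ, le_rfl, hs.le⟩
  have hbdd : BddAbove K := by
    have h1 : BddAbove (tsupport f) := hf.supp.isCompact.bddAbove
    refine h1.mono fun t ht => subset_tsupport f ?_
    rw [Function.mem_support]
    have h2 := ht.2
    intro h3
    linarith
  have hcl : IsClosed K := by
    have : K = Ici τ ∩ {t | s ≤ f t} := rfl
    rw [this]
    exact isClosed_Ici.inter (isClosed_le continuous_const hc)
  set b : ℝ := sSup K with hb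
  have hbK : b ∈ K := hcl.csSup_mem hne hbdd
  have hle : ∀ t ∈ K, t ≤ b := fun t ht => le_csSup hbdd ht
  have hgt : ∀ t, b < t → f t < s := by
    intro t ht
    by_contra hcon
    push Not at hcon
    have := hle t ⟨hbK.1.trans ht.le, hcon⟩
    linarith
  have hfb : f b = s := by
    refine le_antisymm ?_ hbK.2
    by_contra hlt
    rw [not_le] at hlt
    have hopen : IsOpen {u | s < f u} := isOpen_lt continuous_const hc
    obtain ⟨ε, hε, hball⟩ := Metric.isOpen_iff.1 hopen b hlt
    have h1 : s < f (b + ε / 2) := by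
      apply hball
      rw [Metric.mem_ball, Real.dist_eq]
      rw [show b + ε / 2 - b = ε / 2 by ring, abs_of_pos (by positivity)]
      linarith
    have := hgt (b + ε / 2) (by linarith)
    linarith
  have hτb : τ < b := by
    rcases hbK.1.lt_or_eq with h | h
    · exact h
    · rw [h] at hs
      linarith
  refine ⟨b, hτb, hfb, ?_, ?_⟩
  · intro t ht
    rcases ht.lt_or_eq with h | h
    · rw [hfb]
      exact (hgt t h).le
    · rw [h]
  · have hs' : Filter.Tendsto (slope f b) (nhdsWithin b (Ioi b)) (nhds (deriv f b)) :=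
      (hasDerivAt_iff_tendsto_slope.1 (hf.hasDerivAt b)).mono_left
        (nhdsWithin_mono _ fun x hx => (ne_of_gt hx))
    refine le_of_tendsto hs' ?_
    filter_upwards [self_mem_nhdsWithin] with u hu
    have h3 : f u < f b := by
      rw [hfb]
      exact hgt u hu
    rw [slope_def_field]
    have hu' : b < u := hu
    exact div_nonpos_of_nonpos_of_nonneg (by linarith) (by linarith)

theorem Ioo_subset_image {f : ℝ → ℝ} (hf : Good f) (τ : ℝ) :
    Ioo 0 (f τ) ⊆ f '' (Lst f ∩ Ioi τ) ∪ f '' {x | deriv f x = 0} := by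
  rintro s ⟨hs0, hs1⟩
  obtain ⟨b, h1, h2, h3, h4⟩ := exists_last hf hs0 hs1
  rcases h4.lt_or_eq with h | h
  · exact Or.inl ⟨b, ⟨⟨h, h3⟩, h1⟩, h2⟩
  · exact Or.inr ⟨b, h, h2⟩

theorem volume_image_Lst {f : ℝ → ℝ} (hf : Good f) {S : Set ℝ} (hS : MeasurableSet S)
    (hSL : S ⊆ Lst f) : ∫⁻ b in S, ENNReal.ofReal (-(deriv f b)) = volume (f '' S) := by
  have hd : ∀ x ∈ S, HasDerivWithinAt f (deriv f x) S x := fun x _ =>
    (hf.hasDerivAt x).hasDerivWithinAt
  have h := lintegral_image_eq_lintegral_abs_deriv_mul hS hd ((injOn_Lst hf).mono hSL)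
    (fun _ => 1)
  simp only [mul_one] at h
  rw [lintegral_const, Measure.restrict_apply_univ, one_mul] at h
  rw [h]
  refine setLIntegral_congr_fun hS fun b hb => ?_
  have hb' : deriv f b < 0 := (hSL hb).1
  show ENNReal.ofReal (-(deriv f b)) = ENNReal.ofReal |deriv f b|
  rw [abs_of_neg hb']

/-- the last crossings to the right of `τ` have total weight at least `f τ` -/
theorem lst_lower {f : ℝ → ℝ} (hf : Good f) (τ : ℝ) :
    ENNReal.ofReal (f τ) ≤ ∫⁻ b in Lst f ∩ Ioi τ, ENNReal.ofReal (-(deriv f b)) := by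
  rw [volume_image_Lst hf ((measurableSet_Lst hf).inter measurableSet_Ioi) inter_subset_left]
  calc ENNReal.ofReal (f τ) = volume (Ioo 0 (f τ)) := by rw [Real.volume_Ioo, sub_zero]
    _ ≤ volume (f '' (Lst f ∩ Ioi τ) ∪ f '' {x | deriv f x = 0}) :=
        measure_mono (Ioo_subset_image hf τ)
    _ ≤ volume (f '' (Lst f ∩ Ioi τ)) + volume (f '' {x | deriv f x = 0}) :=
        measure_union_le _ _
    _ = volume (f '' (Lst f ∩ Ioi τ)) := by rw [volume_image_crit hf, add_zero]

/-- the last crossings have total weight at most one -/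
theorem lst_upper {f : ℝ → ℝ} (hf : Good f) :
    ∫⁻ b in Lst f, ENNReal.ofReal (-(deriv f b)) ≤ 1 := by
  rw [volume_image_Lst hf (measurableSet_Lst hf) le_rfl]
  calc volume (f '' Lst f) ≤ volume (Icc (0 : ℝ) 1) := by
        apply measure_mono
        rintro _ ⟨b, _, rfl⟩
        exact ⟨hf.nonneg b, hf.le_one b⟩
    _ = 1 := by rw [Real.volume_Icc]; norm_num

/-- tail inequality -/
theorem tail_le {f : ℝ → ℝ} (hf : Good f) (τ : ℝ) :
    ∫⁻ b in Ioi τ \ Lst f, ENNReal.ofReal (-(deriv f b)) ≤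
      ∫⁻ b in Ioi τ \ Lst f, ENNReal.ofReal (deriv f b) := by
  have hLm := measurableSet_Lst hf
  have hint : IntegrableOn (deriv f) (Ioi τ) :=
    (hf.cont_deriv.integrable_of_hasCompactSupport hf.supp.deriv).integrableOn
  have h1 : ∫ x in Ioi τ, deriv f x = - f τ := hf.supp.integral_Ioi_deriv_eq hf.smooth τ
  have h2 := integral_eq_lintegral_pos_part_sub_lintegral_neg_part hint
  rw [h1] at h2
  set P : ℝ≥0∞ := ∫⁻ x in Ioi τ, ENNReal.ofReal (deriv f x) with hP
  set N : ℝ≥0∞ := ∫⁻ x in Ioi τ, ENNReal.ofReal (-(deriv f x)) with hN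
  have hPf : P ≠ ∞ := by
    have := hint.lintegral_lt_top
    exact this.ne
  have hNf : N ≠ ∞ := by
    have := hint.neg.lintegral_lt_top
    exact this.ne
  have h3 : N = P + ENNReal.ofReal (f τ) := by
    have h4 : N.toReal = P.toReal + f τ := by linarith
    rw [← ENNReal.ofReal_toReal hNf, h4, ENNReal.ofReal_add ENNReal.toReal_nonneg (hf.nonneg τ),
      ENNReal.ofReal_toReal hPf]
  have h5 : N = (∫⁻ b in Ioi τ ∩ Lst f, ENNReal.ofReal (-(deriv f b))) +
      ∫⁻ b in Ioi τ \ Lst f, ENNReal.ofReal (-(deriv f b)) :=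
    (lintegral_inter_add_sdiff (fun x => ENNReal.ofReal (-(deriv f x))) (Ioi τ) hLm).symm
  have h6 : P = (∫⁻ b in Ioi τ ∩ Lst f, ENNReal.ofReal (deriv f b)) +
      ∫⁻ b in Ioi τ \ Lst f, ENNReal.ofReal (deriv f b) :=
    (lintegral_inter_add_sdiff (fun x => ENNReal.ofReal (deriv f x)) (Ioi τ) hLm).symm
  have h7 : ∫⁻ b in Ioi τ ∩ Lst f, ENNReal.ofReal (deriv f b) = 0 := by
    rw [setLIntegral_congr_fun (g := fun _ => 0) (measurableSet_Ioi.inter hLm)]
    · simp
    · intro b hb
      have : deriv f b < 0 := hb.2.1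
      exact ENNReal.ofReal_of_nonpos this.le
  rw [h7, zero_add] at h6
  set A : ℝ≥0∞ := ∫⁻ b in Ioi τ ∩ Lst f, ENNReal.ofReal (-(deriv f b)) with hA
  have hA1 : ENNReal.ofReal (f τ) ≤ A := by
    rw [hA, inter_comm]
    exact lst_lower hf τ
  have hAf : A ≠ ∞ := by
    refine ne_top_of_le_ne_top ENNReal.one_ne_top (le_trans ?_ (lst_upper hf))
    exact lintegral_mono_set inter_subset_right
  rw [← h6]
  have h8 : A + ∫⁻ b in Ioi τ \ Lst f, ENNReal.ofReal (-(deriv f b)) ≤ A + P := by
    rw [← h5, h3, add_comm A P]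
    gcongr
  exact (ENNReal.add_le_add_iff_left hAf).1 h8

end Vale.Agent.Lib.P219.LL
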