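import Mathlib.MeasureTheory.Integral.Layercake
import Vale.Agent.Lib.P219.K.Line

/-!
# P219, signed line lemma

Only the pairs (first crossing of its level, last crossing of its level) are charged with the sharp
lower bound; all other visible pairs are compensated with the help of the nondecreasing function `h`.
-/

namespace Vale.Agent.Lib.P219.LL

open MeasureTheory Set
open scoped ENNReal

/-- two weights whose tails are ordered, integrated against a nondecreasing function -/
theorem mono_weight {g₁ g₂ : ℝ → ℝ≥0∞} (hg₁ : Measurable g₁) (hg₂ : Measurable g₂) {S : Set ℝ}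
    (hS : MeasurableSet S) {a : ℝ} {H : ℝ → ℝ} (hHm : Measurable H)
    (hH0 : ∀ b, a < b → 0 ≤ H b) (hH : ∀ b c, a < b → b ≤ c → H b ≤ H c)
    (htail : ∀ τ, a ≤ τ → ∫⁻ b in Ioi τ \ S, g₁ b ≤ ∫⁻ b in Ioi τ \ S, g₂ b) :
    ∫⁻ b in Ioi a \ S, g₁ b * ENNReal.ofReal (H b) ≤
      ∫⁻ b in Ioi a \ S, g₂ b * ENNReal.ofReal (H b) := by
  have hD : MeasurableSet (Ioi a \ S) := measurableSet_Ioi.diff hS
  have hrep : ∀ g : ℝ → ℝ≥0∞, Measurable g →
      ∫⁻ b in Ioi a \ S, g b * ENNReal.ofReal (H b) =
        ∫⁻ l in Ioi (0 : ℝ), ((volume.restrict (Ioi a \ S)).withDensity g) {b | l < H b} := by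
    intro g hg
    rw [← lintegral_eq_lintegral_meas_lt]
    · rw [lintegral_withDensity_eq_lintegral_mul _ hg hHm.ennreal_ofReal]
      rfl
    · refine (withDensity_absolutelyContinuous _ _).ae_le ?_
      show ∀ᵐ b ∂(volume.restrict (Ioi a \ S)), (0 : ℝ) ≤ H b
      refine (ae_restrict_iff' hD).2 (Filter.Eventually.of_forall fun b hb => ?_)
      exact hH0 b hb.1
    · exact hHm.aemeasurable
  rw [hrep g₁ hg₁, hrep g₂ hg₂]
  refine lintegral_mono fun l => ?_
  have hU : MeasurableSet {b | l < H b} := measurableSet_lt measurable_const hHm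
  rw [withDensity_apply _ hU, withDensity_apply _ hU, Measure.restrict_restrict hU]
  -- the set `U = {b > a, l < H b}` is a ray
  set U : Set ℝ := {b | a < b ∧ l < H b} with hUdef
  have hset : {b | l < H b} ∩ (Ioi a \ S) = U \ S := by
    ext b
    constructor
    · rintro ⟨h1, h2, h3⟩
      exact ⟨⟨h2, h1⟩, h3⟩
    · rintro ⟨⟨h1, h2⟩, h3⟩
      exact ⟨h2, h1, h3⟩
  rw [hset]
  rcases U.eq_empty_or_nonempty with hemp | hne
  · rw [hemp]
    simp
  · have hbdd : BddBelow U := ⟨a, fun b hb => hb.1.le⟩
    set τ : ℝ := sInf U with hτ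
    have haτ : a ≤ τ := le_csInf hne fun b hb => hb.1.le
    have h1 : Ioi τ ⊆ U := by
      intro b hb
      obtain ⟨c, hc, hcb⟩ := exists_lt_of_csInf_lt hne hb
      exact ⟨lt_of_le_of_lt haτ hb, hc.2.trans_le (hH c b hc.1 hcb.le)⟩
    have h2 : U ⊆ Ici τ := fun b hb => csInf_le hbdd hb
    have hae : (U \ S : Set ℝ) =ᵐ[volume] (Ioi τ \ S : Set ℝ) := by
      refine ae_eq_set_sdiff ?_ (Filter.EventuallyEq.refl _ _)
      refine Filter.EventuallyLE.antisymm ?_ h1.eventuallyLE
      exact h2.eventuallyLE.trans Ioi_ae_eq_Ici.symm.le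
    rw [setLIntegral_congr hae, setLIntegral_congr hae]
    exact htail τ haτ

/-- region I: fixed left point -/
theorem region_one {f : ℝ → ℝ} (hf : Good f) {h : ℝ → ℝ} (hhm : Measurable h)
    (hh0 : ∀ r, 0 < r → 0 ≤ h r) (hh : ∀ r s, 0 < r → r ≤ s → h r ≤ h s) {a m : ℝ} (hm : 0 ≤ m)
    {Z : ℝ → ℝ} (hZ : ∀ b, a < b → m * deriv f b * h (b - a) ≤ Z b) :
    ∫⁻ b in Ioi a \ Lst f, ENNReal.ofReal (-(Z b)) ≤
      ∫⁻ b in Ioi a \ Lst f, ENNReal.ofReal (Z b) := by
  have hD : MeasurableSet (Ioi a \ Lst f) := measurableSet_Ioi.diff (measurableSet_Lst hf)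
  have hdm : Measurable (deriv f) := measurable_deriv f
  have key := mono_weight (g₁ := fun b => ENNReal.ofReal (-(deriv f b)))
    (g₂ := fun b => ENNReal.ofReal (deriv f b)) hdm.neg.ennreal_ofReal hdm.ennreal_ofReal
    (measurableSet_Lst hf) (a := a) (H := fun b => m * h (b - a))
    ((hhm.comp (measurable_id.sub_const a)).const_mul m)
    (fun b hb => mul_nonneg hm (hh0 _ (by linarith)))
    (fun b c hb hc => mul_le_mul_of_nonneg_left (hh _ _ (by linarith) (by linarith)) hm)
    (fun τ _ => tail_le hf τ)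
  calc ∫⁻ b in Ioi a \ Lst f, ENNReal.ofReal (-(Z b))
      ≤ ∫⁻ b in Ioi a \ Lst f, ENNReal.ofReal (-(deriv f b)) * ENNReal.ofReal (m * h (b - a)) := by
        refine setLIntegral_mono' hD fun b hb => ?_
        have hb' : a < b := hb.1
        have h1 : 0 ≤ m * h (b - a) := mul_nonneg hm (hh0 _ (by linarith))
        rw [mul_comm, ← ENNReal.ofReal_mul h1]
        apply ENNReal.ofReal_le_ofReal
        have := hZ b hb'
        nlinarith
    _ ≤ ∫⁻ b in Ioi a \ Lst f, ENNReal.ofReal (deriv f b) * ENNReal.ofReal (m * h (b - a)) := key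
    _ ≤ ∫⁻ b in Ioi a \ Lst f, ENNReal.ofReal (Z b) := by
        refine setLIntegral_mono' hD fun b hb => ?_
        have hb' : a < b := hb.1
        have h1 : 0 ≤ m * h (b - a) := mul_nonneg hm (hh0 _ (by linarith))
        rw [mul_comm, ← ENNReal.ofReal_mul h1]
        apply ENNReal.ofReal_le_ofReal
        have := hZ b hb'
        nlinarith

/-- region II: fixed right point -/
theorem region_two {f : ℝ → ℝ} (hf : Good f) {h : ℝ → ℝ} (hhm : Measurable h)
    (hh0 : ∀ r, 0 < r → 0 ≤ h r) (hh : ∀ r s, 0 < r → r ≤ s → h r ≤ h s) {b m : ℝ} (hm : 0 ≤ m)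
    {Z : ℝ → ℝ} (hZ : ∀ a, a < b → -(m * deriv f a * h (b - a)) ≤ Z a) :
    ∫⁻ a in Iio b \ Fst f, ENNReal.ofReal (-(Z a)) ≤
      ∫⁻ a in Iio b \ Fst f, ENNReal.ofReal (Z a) := by
  have hD : MeasurableSet (Ioi (-b) \ Lst (fun t => f (-t))) :=
    measurableSet_Ioi.diff (measurableSet_Lst hf.neg)
  have hD' : MeasurableSet (Iio b \ Fst f) := measurableSet_Iio.diff (measurableSet_Fst hf)
  have key := region_one hf.neg hhm hh0 hh (a := -b) hm (Z := fun t => Z (-t)) (by
    intro t ht
    have h1 := hZ (-t) (by linarith)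
    rw [deriv_comp_neg]
    have e : b - -t = t - -b := by ring
    rw [e] at h1
    have e2 : m * -deriv f (-t) * h (t - -b) = -(m * deriv f (-t) * h (t - -b)) := by ring
    rw [e2]
    exact h1)
  have conv : ∀ F : ℝ → ℝ≥0∞, ∫⁻ a in Iio b \ Fst f, F a =
      ∫⁻ t in Ioi (-b) \ Lst (fun t => f (-t)), F (-t) := by
    intro F
    rw [← lintegral_indicator hD', ← lintegral_indicator hD,
      ← lintegral_neg_eq_self]
    refine lintegral_congr fun t => ?_
    by_cases ht : t ∈ Ioi (-b) \ Lst (fun t => f (-t))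
    · have ht' : -t ∈ Iio b \ Fst f := by
        refine ⟨?_, fun hc => ht.2 ?_⟩
        · have : -b < t := ht.1
          show -t < b
          linarith
        · have := (mem_Fst_iff f (-t)).1 hc
          rwa [neg_neg] at this
      rw [indicator_of_mem ht, indicator_of_mem ht']
    · have ht' : -t ∉ Iio b \ Fst f := by
        rintro ⟨h1, h2⟩
        apply ht
        refine ⟨?_, fun hc => h2 ?_⟩
        · have : -t < b := h1
          show -b < t
          linarith
        · rw [mem_Fst_iff, neg_neg]
          exact hc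
      rw [indicator_of_notMem ht, indicator_of_notMem ht']
  rw [conv, conv]
  exact key

theorem fst_upper {f : ℝ → ℝ} (hf : Good f) :
    ∫⁻ a in Fst f, ENNReal.ofReal (deriv f a) ≤ 1 := by
  have key := lst_upper hf.neg
  rw [← lintegral_indicator (measurableSet_Lst hf.neg)] at key
  rw [← lintegral_indicator (measurableSet_Fst hf), ← lintegral_neg_eq_self]
  refine le_trans (le_of_eq (lintegral_congr fun t => ?_)) key
  by_cases ht : t ∈ Lst (fun t => f (-t))
  · have ht' : -t ∈ Fst f := by rw [mem_Fst_iff, neg_neg]; exact ht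
    rw [indicator_of_mem ht, indicator_of_mem ht', deriv_comp_neg, neg_neg]
  · have ht' : -t ∉ Fst f := fun hc => ht (by
      have := (mem_Fst_iff f (-t)).1 hc
      rwa [neg_neg] at this)
    rw [indicator_of_notMem ht, indicator_of_notMem ht']

theorem fst_lower {f : ℝ → ℝ} (hf : Good f) (τ : ℝ) :
    ENNReal.ofReal (f τ) ≤ ∫⁻ a in Fst f ∩ Iio τ, ENNReal.ofReal (deriv f a) := by
  have key := lst_lower hf.neg (-τ)
  rw [neg_neg, ← lintegral_indicator ((measurableSet_Lst hf.neg).inter measurableSet_Ioi)] at key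
  rw [← lintegral_indicator ((measurableSet_Fst hf).inter measurableSet_Iio),
    ← lintegral_neg_eq_self]
  refine le_trans key (le_of_eq (lintegral_congr fun t => ?_))
  by_cases ht : t ∈ Lst (fun t => f (-t)) ∩ Ioi (-τ)
  · have ht' : -t ∈ Fst f ∩ Iio τ := by
      refine ⟨?_, ?_⟩
      · rw [mem_Fst_iff, neg_neg]; exact ht.1
      · have : -τ < t := ht.2
        show -t < τ
        linarith
    rw [indicator_of_mem ht, indicator_of_mem ht', deriv_comp_neg, neg_neg]
  · have ht' : -t ∉ Fst f ∩ Iio τ := by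
      rintro ⟨h1, h2⟩
      apply ht
      refine ⟨?_, ?_⟩
      · have := (mem_Fst_iff f (-t)).1 h1
        rwa [neg_neg] at this
      · have : -t < τ := h2
        show -τ < t
        linarith
    rw [indicator_of_notMem ht, indicator_of_notMem ht']

/-- a first crossing lies before a last crossing -/
theorem lt_of_Fst_Lst {f : ℝ → ℝ} {a b : ℝ} (ha : a ∈ Fst f) (hb : b ∈ Lst f) :
    a < b := by
  by_contra hcon
  push Not at hcon
  have h1 : f a ≤ f b := hb.2 a hcon
  have h2 : f b ≤ f a := ha.2 b hcon
  have h3 : IsLocalMax f a := by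
    refine Filter.Eventually.of_forall fun t => ?_
    rcases le_total t a with ht | ht
    · exact ha.2 t ht
    · exact (hb.2 t (hcon.trans ht)).trans h2
  have h4 := h3.deriv_eq_zero
  have h5 := ha.1
  linarith

/-- the length term -/
theorem length_term {f : ℝ → ℝ} (hf : Good f) :
    ∫⁻ t, ENNReal.ofReal (f t ^ 2) ≤
      ∫⁻ a in Fst f, ∫⁻ b in Lst f, ENNReal.ofReal (deriv f a) * ENNReal.ofReal (-(deriv f b)) *
        ENNReal.ofReal (b - a) := by
  have hF := measurableSet_Fst hf
  have hL := measurableSet_Lst hf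
  have hdm : Measurable (deriv f) := measurable_deriv f
  set A : ℝ → ℝ≥0∞ := (Fst f).indicator (fun a => ENNReal.ofReal (deriv f a)) with hA
  set B : ℝ → ℝ≥0∞ := (Lst f).indicator (fun b => ENNReal.ofReal (-(deriv f b))) with hB
  have hAm : Measurable A := hdm.ennreal_ofReal.indicator hF
  have hBm : Measurable B := hdm.neg.ennreal_ofReal.indicator hL
  -- rewrite the right-hand side as a triple integral
  have e1 : ∫⁻ a in Fst f, ∫⁻ b in Lst f, ENNReal.ofReal (deriv f a) *
      ENNReal.ofReal (-(deriv f b)) * ENNReal.ofReal (b - a) =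
      ∫⁻ a, ∫⁻ b, ∫⁻ t, (Ioi a).indicator (fun _ => A a) t * (Iio b).indicator (fun _ => B b) t := by
    rw [← lintegral_indicator hF]
    refine lintegral_congr fun a => ?_
    by_cases ha : a ∈ Fst f
    · rw [indicator_of_mem ha, ← lintegral_indicator hL]
      refine lintegral_congr fun b => ?_
      have e2 : ∀ t, (Ioi a).indicator (fun _ => A a) t * (Iio b).indicator (fun _ => B b) t =
          (Ioo a b).indicator (fun _ => A a * B b) t := by
        intro t
        by_cases h1 : a < t
        · by_cases h2 : t < b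
          · rw [indicator_of_mem (show t ∈ Ioi a from h1), indicator_of_mem (show t ∈ Iio b from h2),
              indicator_of_mem (show t ∈ Ioo a b from ⟨h1, h2⟩)]
          · rw [indicator_of_notMem (show t ∉ Iio b from h2),
              indicator_of_notMem (show t ∉ Ioo a b from fun h => h2 h.2), mul_zero]
        · rw [indicator_of_notMem (show t ∉ Ioi a from h1),
            indicator_of_notMem (show t ∉ Ioo a b from fun h => h1 h.1), zero_mul]
      rw [lintegral_congr e2, lintegral_indicator measurableSet_Ioo, lintegral_const,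
        Measure.restrict_apply_univ, Real.volume_Ioo, hA, indicator_of_mem ha]
      by_cases hb : b ∈ Lst f
      · rw [indicator_of_mem hb, hB, indicator_of_mem hb]
      · rw [indicator_of_notMem hb, hB, indicator_of_notMem hb, mul_zero, zero_mul]
    · rw [indicator_of_notMem ha, hA, indicator_of_notMem ha]
      simp
  have hm3 : Measurable (fun p : (ℝ × ℝ) × ℝ =>
      (Ioi p.1.1).indicator (fun _ => A p.1.1) p.2 *
        (Iio p.1.2).indicator (fun _ => B p.1.2) p.2) := by
    have h1 : Measurable (fun p : (ℝ × ℝ) × ℝ => (Ioi p.1.1).indicator (fun _ => A p.1.1) p.2) := by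
      have : (fun p : (ℝ × ℝ) × ℝ => (Ioi p.1.1).indicator (fun _ => A p.1.1) p.2) =
          {p : (ℝ × ℝ) × ℝ | p.1.1 < p.2}.indicator (fun p => A p.1.1) := by
        funext p
        by_cases hp : p.1.1 < p.2
        · rw [indicator_of_mem (show p.2 ∈ Ioi p.1.1 from hp),
            indicator_of_mem (show p ∈ {p : (ℝ × ℝ) × ℝ | p.1.1 < p.2} from hp)]
        · rw [indicator_of_notMem (show p.2 ∉ Ioi p.1.1 from hp),
            indicator_of_notMem (show p ∉ {p : (ℝ × ℝ) × ℝ | p.1.1 < p.2} from hp)]
      rw [this]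
      exact (hAm.comp (measurable_fst.comp measurable_fst)).indicator
        (measurableSet_lt (measurable_fst.comp measurable_fst) measurable_snd)
    have h2 : Measurable (fun p : (ℝ × ℝ) × ℝ => (Iio p.1.2).indicator (fun _ => B p.1.2) p.2) := by
      have : (fun p : (ℝ × ℝ) × ℝ => (Iio p.1.2).indicator (fun _ => B p.1.2) p.2) =
          {p : (ℝ × ℝ) × ℝ | p.2 < p.1.2}.indicator (fun p => B p.1.2) := by
        funext p
        by_cases hp : p.2 < p.1.2
        · rw [indicator_of_mem (show p.2 ∈ Iio p.1.2 from hp),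
            indicator_of_mem (show p ∈ {p : (ℝ × ℝ) × ℝ | p.2 < p.1.2} from hp)]
        · rw [indicator_of_notMem (show p.2 ∉ Iio p.1.2 from hp),
            indicator_of_notMem (show p ∉ {p : (ℝ × ℝ) × ℝ | p.2 < p.1.2} from hp)]
      rw [this]
      exact (hBm.comp (measurable_snd.comp measurable_fst)).indicator
        (measurableSet_lt measurable_snd (measurable_snd.comp measurable_fst))
    exact h1.mul h2
  -- the inner integrals for fixed `t`
  have e3 : ∀ t, ENNReal.ofReal (f t ^ 2) ≤
      ∫⁻ p : ℝ × ℝ, (Ioi p.1).indicator (fun _ => A p.1) t * (Iio p.2).indicator (fun _ => B p.2) t := by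
    intro t
    have e4 : ∫⁻ p : ℝ × ℝ, (Ioi p.1).indicator (fun _ => A p.1) t *
        (Iio p.2).indicator (fun _ => B p.2) t =
        (∫⁻ a, (Ioi a).indicator (fun _ => A a) t) * ∫⁻ b, (Iio b).indicator (fun _ => B b) t := by
      rw [Measure.volume_eq_prod]
      have h1 : Measurable (fun a : ℝ => (Ioi a).indicator (fun _ => A a) t) := by
        have : (fun a : ℝ => (Ioi a).indicator (fun _ => A a) t) = (Iio t).indicator A := by
          funext a
          by_cases h : a < t
          · rw [indicator_of_mem (show t ∈ Ioi a from h), indicator_of_mem (show a ∈ Iio t from h)]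
          · rw [indicator_of_notMem (show t ∉ Ioi a from h),
              indicator_of_notMem (show a ∉ Iio t from h)]
        rw [this]
        exact hAm.indicator measurableSet_Iio
      have h2 : Measurable (fun b : ℝ => (Iio b).indicator (fun _ => B b) t) := by
        have : (fun b : ℝ => (Iio b).indicator (fun _ => B b) t) = (Ioi t).indicator B := by
          funext b
          by_cases h : t < b
          · rw [indicator_of_mem (show t ∈ Iio b from h), indicator_of_mem (show b ∈ Ioi t from h)]
          · rw [indicator_of_notMem (show t ∉ Iio b from h),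
              indicator_of_notMem (show b ∉ Ioi t from h)]
        rw [this]
        exact hBm.indicator measurableSet_Ioi
      exact lintegral_prod_mul h1.aemeasurable h2.aemeasurable
    rw [e4]
    have h5 : ENNReal.ofReal (f t) ≤ ∫⁻ a, (Ioi a).indicator (fun _ => A a) t := by
      refine (fst_lower hf t).trans (le_of_eq ?_)
      rw [← lintegral_indicator (hF.inter measurableSet_Iio)]
      refine lintegral_congr fun a => ?_
      by_cases h1 : a < t
      · rw [indicator_of_mem (show t ∈ Ioi a from h1)]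
        by_cases h2 : a ∈ Fst f
        · rw [indicator_of_mem (show a ∈ Fst f ∩ Iio t from ⟨h2, h1⟩), hA, indicator_of_mem h2]
        · rw [indicator_of_notMem (show a ∉ Fst f ∩ Iio t from fun h => h2 h.1), hA,
            indicator_of_notMem h2]
      · rw [indicator_of_notMem (show t ∉ Ioi a from h1),
          indicator_of_notMem (show a ∉ Fst f ∩ Iio t from fun h => h1 h.2)]
    have h6 : ENNReal.ofReal (f t) ≤ ∫⁻ b, (Iio b).indicator (fun _ => B b) t := by
      refine (lst_lower hf t).trans (le_of_eq ?_)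
      rw [← lintegral_indicator (hL.inter measurableSet_Ioi)]
      refine lintegral_congr fun b => ?_
      by_cases h1 : t < b
      · rw [indicator_of_mem (show t ∈ Iio b from h1)]
        by_cases h2 : b ∈ Lst f
        · rw [indicator_of_mem (show b ∈ Lst f ∩ Ioi t from ⟨h2, h1⟩), hB, indicator_of_mem h2]
        · rw [indicator_of_notMem (show b ∉ Lst f ∩ Ioi t from fun h => h2 h.1), hB,
            indicator_of_notMem h2]
      · rw [indicator_of_notMem (show t ∉ Iio b from h1),
          indicator_of_notMem (show b ∉ Lst f ∩ Ioi t from fun h => h1 h.2)]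
    rw [sq, ENNReal.ofReal_mul (hf.nonneg t)]
    exact mul_le_mul' h5 h6
  rw [e1]
  calc ∫⁻ t, ENNReal.ofReal (f t ^ 2)
      ≤ ∫⁻ t, ∫⁻ p : ℝ × ℝ, (Ioi p.1).indicator (fun _ => A p.1) t *
          (Iio p.2).indicator (fun _ => B p.2) t := lintegral_mono e3
    _ = ∫⁻ p : ℝ × ℝ, ∫⁻ t, (Ioi p.1).indicator (fun _ => A p.1) t *
          (Iio p.2).indicator (fun _ => B p.2) t := by
        refine lintegral_lintegral_swap ?_
        exact (hm3.comp measurable_swap).aemeasurable
    _ = ∫⁻ a, ∫⁻ b, ∫⁻ t, (Ioi a).indicator (fun _ => A a) t *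
          (Iio b).indicator (fun _ => B b) t := by
        rw [Measure.volume_eq_prod]
        exact lintegral_prod _ hm3.lintegral_prod_right'.aemeasurable

end Vale.Agent.Lib.P219.LL
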