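import Mathlib.Algebra.Order.Star.Real
import Vale.Agent.Lib.P219.K.LineMain

/-!
# P219, signed line lemma, assembly
-/

namespace Vale.Agent.Lib.P219.LL

open MeasureTheory Set
open scoped ENNReal

theorem tonelli_strip {F : ℝ → ℝ → ℝ≥0∞} (hF : Measurable (fun p : ℝ × ℝ => F p.1 p.2))
    {S T : Set ℝ} (hS : MeasurableSet S) (hT : MeasurableSet T) :
    ∫⁻ a in S, ∫⁻ b in Ioi a ∩ T, F a b = ∫⁻ b in T, ∫⁻ a in Iio b ∩ S, F a b := by
  have e1 : ∫⁻ a in S, ∫⁻ b in Ioi a ∩ T, F a b = ∫⁻ a, ∫⁻ b,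
      {p : ℝ × ℝ | p.1 < p.2 ∧ p.1 ∈ S ∧ p.2 ∈ T}.indicator (fun p => F p.1 p.2) (a, b) := by
    rw [← lintegral_indicator hS]
    refine lintegral_congr fun a => ?_
    by_cases ha : a ∈ S
    · rw [indicator_of_mem ha, ← lintegral_indicator (measurableSet_Ioi.inter hT)]
      refine lintegral_congr fun b => ?_
      by_cases hb : b ∈ Ioi a ∩ T
      · rw [indicator_of_mem hb, indicator_of_mem
          (show (a, b) ∈ {p : ℝ × ℝ | p.1 < p.2 ∧ p.1 ∈ S ∧ p.2 ∈ T} from ⟨hb.1, ha, hb.2⟩)]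
      · rw [indicator_of_notMem hb, indicator_of_notMem
          (show (a, b) ∉ {p : ℝ × ℝ | p.1 < p.2 ∧ p.1 ∈ S ∧ p.2 ∈ T} from
            fun h => hb ⟨h.1, h.2.2⟩)]
    · rw [indicator_of_notMem ha]
      symm
      rw [lintegral_congr (g := fun _ => 0)]
      · simp
      · intro b
        rw [indicator_of_notMem
          (show (a, b) ∉ {p : ℝ × ℝ | p.1 < p.2 ∧ p.1 ∈ S ∧ p.2 ∈ T} from fun h => ha h.2.1)]
  have e2 : ∫⁻ b in T, ∫⁻ a in Iio b ∩ S, F a b = ∫⁻ b, ∫⁻ a,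
      {p : ℝ × ℝ | p.1 < p.2 ∧ p.1 ∈ S ∧ p.2 ∈ T}.indicator (fun p => F p.1 p.2) (a, b) := by
    rw [← lintegral_indicator hT]
    refine lintegral_congr fun b => ?_
    by_cases hb : b ∈ T
    · rw [indicator_of_mem hb, ← lintegral_indicator (measurableSet_Iio.inter hS)]
      refine lintegral_congr fun a => ?_
      by_cases ha : a ∈ Iio b ∩ S
      · rw [indicator_of_mem ha, indicator_of_mem
          (show (a, b) ∈ {p : ℝ × ℝ | p.1 < p.2 ∧ p.1 ∈ S ∧ p.2 ∈ T} from ⟨ha.1, ha.2, hb⟩)]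
      · rw [indicator_of_notMem ha, indicator_of_notMem
          (show (a, b) ∉ {p : ℝ × ℝ | p.1 < p.2 ∧ p.1 ∈ S ∧ p.2 ∈ T} from
            fun h => ha ⟨h.1, h.2.1⟩)]
    · rw [indicator_of_notMem hb]
      symm
      rw [lintegral_congr (g := fun _ => 0)]
      · simp
      · intro a
        rw [indicator_of_notMem
          (show (a, b) ∉ {p : ℝ × ℝ | p.1 < p.2 ∧ p.1 ∈ S ∧ p.2 ∈ T} from fun h => hb h.2.2)]
  rw [e1, e2]
  refine lintegral_lintegral_swap ?_
  have hD : MeasurableSet {p : ℝ × ℝ | p.1 < p.2 ∧ p.1 ∈ S ∧ p.2 ∈ T} :=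
    (measurableSet_lt measurable_fst measurable_snd).inter
      ((measurable_fst hS).inter (measurable_snd hT))
  exact (hF.indicator hD).aemeasurable

/-- decomposition of the integral over `a < b` -/
theorem split_three {f : ℝ → ℝ} (hf : Good f) {F : ℝ → ℝ → ℝ≥0∞}
    (hF : Measurable (fun p : ℝ × ℝ => F p.1 p.2)) :
    ∫⁻ a, ∫⁻ b in Ioi a, F a b =
      (∫⁻ a, ∫⁻ b in Ioi a \ Lst f, F a b) + ((∫⁻ b in Lst f, ∫⁻ a in Iio b \ Fst f, F a b)
        + ∫⁻ a in Fst f, ∫⁻ b in Lst f, F a b) := by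
  have hFs := measurableSet_Fst hf
  have hLs := measurableSet_Lst hf
  have m1 : Measurable (fun a => ∫⁻ b in Ioi a \ Lst f, F a b) := by
    have : (fun a => ∫⁻ b in Ioi a \ Lst f, F a b) = fun a => ∫⁻ b,
        {p : ℝ × ℝ | p.1 < p.2 ∧ p.2 ∉ Lst f}.indicator (fun p => F p.1 p.2) (a, b) := by
      funext a
      rw [← lintegral_indicator (measurableSet_Ioi.diff hLs)]
      refine lintegral_congr fun b => ?_
      by_cases hb : b ∈ Ioi a \ Lst f
      · rw [indicator_of_mem hb, indicator_of_mem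
          (show (a, b) ∈ {p : ℝ × ℝ | p.1 < p.2 ∧ p.2 ∉ Lst f} from hb)]
      · rw [indicator_of_notMem hb, indicator_of_notMem
          (show (a, b) ∉ {p : ℝ × ℝ | p.1 < p.2 ∧ p.2 ∉ Lst f} from hb)]
    rw [this]
    have hD : MeasurableSet {p : ℝ × ℝ | p.1 < p.2 ∧ p.2 ∉ Lst f} :=
      (measurableSet_lt measurable_fst measurable_snd).inter (measurable_snd hLs.compl)
    exact (hF.indicator hD).lintegral_prod_right'
  have s1 : ∫⁻ a, ∫⁻ b in Ioi a, F a b =
      (∫⁻ a, ∫⁻ b in Ioi a \ Lst f, F a b) + ∫⁻ a, ∫⁻ b in Ioi a ∩ Lst f, F a b := by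
    rw [← lintegral_add_left m1]
    refine lintegral_congr fun a => ?_
    rw [add_comm]
    exact (lintegral_inter_add_sdiff (F a) (Ioi a) hLs).symm
  rw [s1]
  congr 1
  rw [← lintegral_add_compl (fun a => ∫⁻ b in Ioi a ∩ Lst f, F a b) hFs, add_comm]
  congr 1
  · rw [tonelli_strip hF hFs.compl hLs]
    rfl
  · refine setLIntegral_congr_fun hFs fun a ha => ?_
    have : Ioi a ∩ Lst f = Lst f := by
      refine Set.inter_eq_right.2 fun b hb => lt_of_Fst_Lst ha hb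
    show ∫⁻ b in Ioi a ∩ Lst f, F a b = _
    rw [this]

theorem dbl_le {S T : Set ℝ} (hS : MeasurableSet S) (hT : MeasurableSet T)
    {U V W X : ℝ → ℝ → ℝ≥0∞} (hV : Measurable (fun p : ℝ × ℝ => V p.1 p.2))
    (hW : Measurable (fun p : ℝ × ℝ => W p.1 p.2))
    (h : ∀ a ∈ S, ∀ b ∈ T, U a b + V a b ≤ W a b + X a b) :
    (∫⁻ a in S, ∫⁻ b in T, U a b) + (∫⁻ a in S, ∫⁻ b in T, V a b) ≤
      (∫⁻ a in S, ∫⁻ b in T, W a b) + ∫⁻ a in S, ∫⁻ b in T, X a b := by
  have mV : Measurable (fun a => ∫⁻ b in T, V a b) := hV.lintegral_prod_right'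
  have mW : Measurable (fun a => ∫⁻ b in T, W a b) := hW.lintegral_prod_right'
  rw [← lintegral_add_right _ mV, ← lintegral_add_left mW]
  refine setLIntegral_mono' hS fun a ha => ?_
  have nV : Measurable (fun b => V a b) := hV.comp (measurable_const.prodMk measurable_id)
  have nW : Measurable (fun b => W a b) := hW.comp (measurable_const.prodMk measurable_id)
  rw [← lintegral_add_right _ nV, ← lintegral_add_left nW]
  exact setLIntegral_mono' hT fun b hb => h a ha b hb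

theorem cost_split {S T : Set ℝ} {A B P : ℝ → ℝ≥0∞} (hA : Measurable A) (hB : Measurable B)
    (hP : Measurable P) (h1 : ∫⁻ a in S, A a ≤ 1) (h2 : ∫⁻ b in T, B b ≤ 1) :
    (∫⁻ a in S, ∫⁻ b in T, A a * B b * (P a + P b)) ≤
      (∫⁻ a in S, A a * P a) + ∫⁻ b in T, B b * P b := by
  have mBP : Measurable (fun b => B b * P b) := hB.mul hP
  have mAP : Measurable (fun b => A b * P b) := hA.mul hP
  have c1 : ∀ a, (∫⁻ b in T, A a * B b * (P a + P b)) ≤
      A a * P a + A a * ∫⁻ b in T, B b * P b := by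
    intro a
    have e : ∀ b, A a * B b * (P a + P b) = (A a * P a) * B b + A a * (B b * P b) := by
      intro b; ring
    have m1 : Measurable (fun b => (A a * P a) * B b) := hB.const_mul _
    rw [lintegral_congr e, lintegral_add_left m1, lintegral_const_mul _ hB,
      lintegral_const_mul _ mBP]
    refine add_le_add ?_ le_rfl
    calc A a * P a * ∫⁻ b in T, B b ≤ A a * P a * 1 := mul_le_mul' le_rfl h2
      _ = _ := mul_one _
  refine (lintegral_mono c1).trans ?_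
  rw [lintegral_add_left mAP, lintegral_mul_const _ hA]
  refine add_le_add le_rfl ?_
  calc (∫⁻ a in S, A a) * ∫⁻ b in T, B b * P b ≤ 1 * ∫⁻ b in T, B b * P b :=
        mul_le_mul' h1 le_rfl
    _ = _ := one_mul _

theorem measurable_trip {f : ℝ → ℝ} : Measurable (fun p : ℝ × ℝ => ENNReal.ofReal (deriv f p.1) *
    ENNReal.ofReal (-(deriv f p.2)) * ENNReal.ofReal (p.2 - p.1)) := by
  have hdm : Measurable (deriv f) := measurable_deriv f
  have h1 : Measurable (fun p : ℝ × ℝ => ENNReal.ofReal (deriv f p.1)) :=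
    (hdm.comp measurable_fst).ennreal_ofReal
  have h2 : Measurable (fun p : ℝ × ℝ => ENNReal.ofReal (-(deriv f p.2))) :=
    (hdm.comp measurable_snd).neg.ennreal_ofReal
  have h3 : Measurable (fun p : ℝ × ℝ => ENNReal.ofReal (p.2 - p.1)) :=
    (measurable_snd.sub measurable_fst).ennreal_ofReal
  exact (h1.mul h2).mul h3

theorem dbl_const_mul {S T : Set ℝ} (D : ℝ≥0∞) {G : ℝ → ℝ → ℝ≥0∞}
    (hG : Measurable (fun p : ℝ × ℝ => G p.1 p.2)) :
    D * (∫⁻ a in S, ∫⁻ b in T, G a b) = ∫⁻ a in S, ∫⁻ b in T, D * G a b := by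
  have mG : Measurable (fun a => ∫⁻ b in T, G a b) := hG.lintegral_prod_right'
  rw [← lintegral_const_mul _ mG]
  refine lintegral_congr fun a => ?_
  have nG : Measurable (fun b => G a b) := hG.comp (measurable_const.prodMk measurable_id)
  rw [lintegral_const_mul _ nG]

theorem length_term_mul {f : ℝ → ℝ} (hf : Good f) (D : ℝ≥0∞) :
    D * (∫⁻ t, ENNReal.ofReal (f t ^ 2)) ≤
      ∫⁻ a in Fst f, ∫⁻ b in Lst f, D * (ENNReal.ofReal (deriv f a) *
          ENNReal.ofReal (-(deriv f b)) * ENNReal.ofReal (b - a)) := by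
  rw [← dbl_const_mul (G := fun a b => ENNReal.ofReal (deriv f a) *
          ENNReal.ofReal (-(deriv f b)) * ENNReal.ofReal (b - a)) D measurable_trip]
  exact mul_le_mul' le_rfl (length_term hf)

theorem pt_three {A B D r x y z : ℝ} (hA : 0 ≤ A) (hB : 0 ≤ B) (hD : 0 ≤ D) (hr : 0 ≤ r)
    (hx : 0 ≤ x) (hy : 0 ≤ y) (hz : A * B * (D * r - x - y) ≤ z) :
    ENNReal.ofReal D * (ENNReal.ofReal A * ENNReal.ofReal B * ENNReal.ofReal r) +
      ENNReal.ofReal (-z) ≤
      ENNReal.ofReal z + ENNReal.ofReal A * ENNReal.ofReal B *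
        (ENNReal.ofReal x + ENNReal.ofReal y) := by
  have hAB := mul_nonneg hA hB
  rw [← ENNReal.ofReal_add hx hy, ← ENNReal.ofReal_mul hA,
    ← ENNReal.ofReal_mul hAB, ← ENNReal.ofReal_mul hAB, ← ENNReal.ofReal_mul hD]
  have h5 : 0 ≤ D * (A * B * r) := mul_nonneg hD (mul_nonneg hAB hr)
  have h6 : 0 ≤ A * B * (x + y) := mul_nonneg hAB (add_nonneg hx hy)
  rcases le_total 0 z with h0 | h0
  · rw [ENNReal.ofReal_of_nonpos (show -z ≤ 0 by linarith), add_zero,
      ← ENNReal.ofReal_add h0 h6]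
    apply ENNReal.ofReal_le_ofReal
    linarith
  · rw [ENNReal.ofReal_of_nonpos h0, zero_add, ← ENNReal.ofReal_add h5 (by linarith)]
    apply ENNReal.ofReal_le_ofReal
    linarith

/-- the sharp part -/
theorem region_three {f : ℝ → ℝ} (hf : Good f) {d : ℝ} (hd : 0 ≤ d) {ph : ℝ → ℝ}
    (hph : Measurable ph) (hph0 : ∀ t, 0 ≤ ph t)
    {Z : ℝ → ℝ → ℝ} (hZ : Measurable (fun p : ℝ × ℝ => Z p.1 p.2))
    (Zd : ∀ a b, a < b → 0 ≤ deriv f a → deriv f b ≤ 0 →
      deriv f a * (-deriv f b) * (d * (b - a) - ph a - ph b) ≤ Z a b) :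
    ENNReal.ofReal d * (∫⁻ t, ENNReal.ofReal (f t ^ 2))
        + (∫⁻ a in Fst f, ∫⁻ b in Lst f, ENNReal.ofReal (-(Z a b)))
      ≤ (∫⁻ a in Fst f, ∫⁻ b in Lst f, ENNReal.ofReal (Z a b))
        + ∫⁻ t, ENNReal.ofReal |deriv f t| * ENNReal.ofReal (ph t) := by
  have hFs := measurableSet_Fst hf
  have hLs := measurableSet_Lst hf
  have hdm : Measurable (deriv f) := measurable_deriv f
  have hA : Measurable (fun a => ENNReal.ofReal (deriv f a)) := hdm.ennreal_ofReal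
  have hB : Measurable (fun b => ENNReal.ofReal (-(deriv f b))) := hdm.neg.ennreal_ofReal
  -- costs
  have hcost : (∫⁻ a in Fst f, ∫⁻ b in Lst f, ENNReal.ofReal (deriv f a) *
      ENNReal.ofReal (-(deriv f b)) * (ENNReal.ofReal (ph a) + ENNReal.ofReal (ph b))) ≤
      ∫⁻ t, ENNReal.ofReal |deriv f t| * ENNReal.ofReal (ph t) := by
    have c2 := cost_split hA hB hph.ennreal_ofReal (fst_upper hf) (lst_upper hf)
    refine c2.trans ?_
    have c3 : (∫⁻ a in Fst f, ENNReal.ofReal (deriv f a) * ENNReal.ofReal (ph a)) ≤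
        ∫⁻ t in Fst f, ENNReal.ofReal |deriv f t| * ENNReal.ofReal (ph t) :=
      lintegral_mono fun t => mul_le_mul' (ENNReal.ofReal_le_ofReal (le_abs_self _)) le_rfl
    have c4 : (∫⁻ a in Lst f, ENNReal.ofReal (-(deriv f a)) * ENNReal.ofReal (ph a)) ≤
        ∫⁻ t in (Fst f)ᶜ, ENNReal.ofReal |deriv f t| * ENNReal.ofReal (ph t) := by
      refine (lintegral_mono fun t => mul_le_mul' (ENNReal.ofReal_le_ofReal
        (neg_le_abs _)) le_rfl).trans (lintegral_mono_set ?_)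
      intro b hb hb'
      exact lt_irrefl b (lt_of_Fst_Lst hb' hb)
    refine (add_le_add c3 c4).trans ?_
    rw [lintegral_add_compl _ hFs]
  have hmain : ENNReal.ofReal d * (∫⁻ t, ENNReal.ofReal (f t ^ 2))
        + (∫⁻ a in Fst f, ∫⁻ b in Lst f, ENNReal.ofReal (-(Z a b)))
      ≤ (∫⁻ a in Fst f, ∫⁻ b in Lst f, ENNReal.ofReal (Z a b))
        + ∫⁻ a in Fst f, ∫⁻ b in Lst f, ENNReal.ofReal (deriv f a) *
      ENNReal.ofReal (-(deriv f b)) * (ENNReal.ofReal (ph a) + ENNReal.ofReal (ph b)) := by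
    refine (add_le_add (length_term_mul hf (ENNReal.ofReal d)) le_rfl).trans ?_
    have hmZ : Measurable (fun p : ℝ × ℝ => ENNReal.ofReal (Z p.1 p.2)) := hZ.ennreal_ofReal
    have hmZ' : Measurable (fun p : ℝ × ℝ => ENNReal.ofReal (-(Z p.1 p.2))) :=
      hZ.neg.ennreal_ofReal
    refine dbl_le (U := fun a b => ENNReal.ofReal d * (ENNReal.ofReal (deriv f a) *
          ENNReal.ofReal (-(deriv f b)) * ENNReal.ofReal (b - a)))
      (V := fun a b => ENNReal.ofReal (-(Z a b))) (W := fun a b => ENNReal.ofReal (Z a b))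
      (X := fun a b => ENNReal.ofReal (deriv f a) *
      ENNReal.ofReal (-(deriv f b)) * (ENNReal.ofReal (ph a) + ENNReal.ofReal (ph b)))
      hFs hLs hmZ' hmZ fun a ha b hb => ?_
    have hab := lt_of_Fst_Lst ha hb
    have h2 := hb.1
    exact pt_three ha.1.le (by linarith) hd (by linarith) (hph0 a) (hph0 b)
      (Zd a b hab ha.1.le hb.1.le)
  exact hmain.trans (add_le_add le_rfl hcost)

/-- **Signed line lemma.** -/
theorem signed_line_lemma {f : ℝ → ℝ} (hf : Good f) {d : ℝ} (hd : 0 ≤ d) {ph : ℝ → ℝ}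
    (hph : Measurable ph) (hph0 : ∀ t, 0 ≤ ph t)
    {h : ℝ → ℝ} (hhm : Measurable h) (hh0 : ∀ r, 0 < r → 0 ≤ h r)
    (hh : ∀ r s, 0 < r → r ≤ s → h r ≤ h s)
    {m : ℝ → ℝ} (hm : ∀ t, 0 ≤ m t)
    {Z : ℝ → ℝ → ℝ} (hZ : Measurable (fun p : ℝ × ℝ => Z p.1 p.2))
    (Za : ∀ a b, a < b → 0 ≤ deriv f a → m a * deriv f b * h (b - a) ≤ Z a b)
    (Zb : ∀ a b, a < b → deriv f b ≤ 0 → -(m b * deriv f a * h (b - a)) ≤ Z a b)
    (Zc : ∀ a b, a < b → deriv f a ≤ 0 → 0 ≤ deriv f b → 0 ≤ Z a b)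
    (Zd : ∀ a b, a < b → 0 ≤ deriv f a → deriv f b ≤ 0 →
      deriv f a * (-deriv f b) * (d * (b - a) - ph a - ph b) ≤ Z a b) :
    ENNReal.ofReal d * (∫⁻ t, ENNReal.ofReal (f t ^ 2))
        + (∫⁻ a, ∫⁻ b in Ioi a, ENNReal.ofReal (-(Z a b)))
      ≤ (∫⁻ a, ∫⁻ b in Ioi a, ENNReal.ofReal (Z a b))
        + ∫⁻ t, ENNReal.ofReal |deriv f t| * ENNReal.ofReal (ph t) := by
  have hmZ : Measurable (fun p : ℝ × ℝ => ENNReal.ofReal (Z p.1 p.2)) := hZ.ennreal_ofReal
  have hmZ' : Measurable (fun p : ℝ × ℝ => ENNReal.ofReal (-(Z p.1 p.2))) :=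
    hZ.neg.ennreal_ofReal
  have hFs := measurableSet_Fst hf
  have hLs := measurableSet_Lst hf
  rw [split_three (F := fun a b => ENNReal.ofReal (Z a b)) hf hmZ,
    split_three (F := fun a b => ENNReal.ofReal (-(Z a b))) hf hmZ']
  have r1 : (∫⁻ a, ∫⁻ b in Ioi a \ Lst f, ENNReal.ofReal (-(Z a b))) ≤
      ∫⁻ a, ∫⁻ b in Ioi a \ Lst f, ENNReal.ofReal (Z a b) := by
    refine lintegral_mono fun a => ?_
    rcases le_total 0 (deriv f a) with ha | ha
    · exact region_one hf hhm hh0 hh (hm a) (Z := Z a) fun b hb => Za a b hb ha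
    · have : ∫⁻ b in Ioi a \ Lst f, ENNReal.ofReal (-(Z a b)) = 0 := by
        rw [setLIntegral_congr_fun (g := fun _ => 0) (measurableSet_Ioi.diff hLs)]
        · simp
        · intro b hb
          have hab : a < b := hb.1
          have : 0 ≤ Z a b := by
            rcases le_total 0 (deriv f b) with h1 | h1
            · exact Zc a b hab ha h1
            · have h2 := Zb a b hab h1
              have h3 : 0 ≤ -(m b * deriv f a * h (b - a)) := by
                have h4 : 0 ≤ h (b - a) := hh0 _ (by linarith)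
                have h5 : m b * deriv f a ≤ 0 := mul_nonpos_of_nonneg_of_nonpos (hm b) ha
                nlinarith
              linarith
          exact ENNReal.ofReal_of_nonpos (by linarith)
      rw [this]
      exact zero_le
  have r2 : (∫⁻ b in Lst f, ∫⁻ a in Iio b \ Fst f, ENNReal.ofReal (-(Z a b))) ≤
      ∫⁻ b in Lst f, ∫⁻ a in Iio b \ Fst f, ENNReal.ofReal (Z a b) := by
    refine setLIntegral_mono' hLs fun b hb => ?_
    exact region_two hf hhm hh0 hh (hm b) (Z := fun a => Z a b)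
      fun a ha => Zb a b ha hb.1.le
  have r3 := region_three hf hd hph hph0 hZ Zd
  calc _ = (∫⁻ a, ∫⁻ b in Ioi a \ Lst f, ENNReal.ofReal (-(Z a b))) +
        ((∫⁻ b in Lst f, ∫⁻ a in Iio b \ Fst f, ENNReal.ofReal (-(Z a b))) +
        (ENNReal.ofReal d * (∫⁻ t, ENNReal.ofReal (f t ^ 2)) +
          ∫⁻ a in Fst f, ∫⁻ b in Lst f, ENNReal.ofReal (-(Z a b)))) := by ring
    _ ≤ (∫⁻ a, ∫⁻ b in Ioi a \ Lst f, ENNReal.ofReal (Z a b)) +
        ((∫⁻ b in Lst f, ∫⁻ a in Iio b \ Fst f, ENNReal.ofReal (Z a b)) +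
        ((∫⁻ a in Fst f, ∫⁻ b in Lst f, ENNReal.ofReal (Z a b))
        + ∫⁻ t, ENNReal.ofReal |deriv f t| * ENNReal.ofReal (ph t))) :=
        add_le_add r1 (add_le_add r2 r3)
    _ = _ := by ring

end Vale.Agent.Lib.P219.LL
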