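import Vale.Agent.Lib.P219.K.PolarH
import Vale.Agent.Lib.P219.LLH.Main
import Vale.Agent.Lib.P219.A.Lower2

/-! # P219, curvature `≤ -1`: the inequality on one geodesic

Model: `A/Lower2`. Apply `LLH.line_signed_lint` to `f s = u (fl s v).1`, `p s = ‖gr u (fl s v).1‖`,
`c s = cs u (fl s v)`, `K r a b = B m r a b sinh^(n-1) r`, `φ = k.f`, `h = (m / Hm) k.h`, `d = k.d`,
and add the (finite) constant part. -/

namespace Vale.Agent.Lib.P219

open MeasureTheory Set Filter Topology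
open scoped ENNReal

namespace HDataH

variable {n : ℕ} (H : HDataH n) (k : KerH n)

private theorem lnh_hasDerivAt {u : Ev n → ℝ} (hu : ContDiff ℝ 1 u) (v : Ev n × Ev n) (t : ℝ) :
    HasDerivAt (fun s => u (H.fl s v).1)
      (fderiv ℝ u (H.fl t v).1 (H.L (H.fl t v).1 (H.fl t v).2)) t := by
  have h1 : HasFDerivAt u (fderiv ℝ u (H.fl t v).1) (H.fl t v).1 :=
    (hu.differentiable (by norm_num) _).hasFDerivAt
  exact h1.comp_hasDerivAt t (H.fl_deriv t v)

private theorem lnh_deriv {u : Ev n → ℝ} (hu : ContDiff ℝ 1 u) (v : Ev n × Ev n) (t : ℝ) :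
    deriv (fun s => u (H.fl s v).1) t
      = inner ℝ (H.gr u (H.fl t v).1) (H.fl t v).2 := by
  rw [(H.lnh_hasDerivAt hu v t).deriv]
  unfold HData.gr
  rw [InnerProductSpace.toDual_symm_apply]
  rfl

private theorem lnh_inner (u : Ev n → ℝ) (v : Ev n × Ev n) :
    inner ℝ (H.gr u v.1) v.2 = ‖H.gr u v.1‖ * H.cs u v := by
  unfold HData.cs
  by_cases h : ‖H.gr u v.1‖ = 0
  · have : H.gr u v.1 = 0 := norm_eq_zero.1 h
    rw [this]
    simp
  · field_simp

private theorem lnh_gr_zero {u : Ev n → ℝ} {x : Ev n} (hx : x ∉ tsupport u) : H.gr u x = 0 := by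
  have h1 : fderiv ℝ u x = 0 := by
    by_contra hne
    exact hx (support_fderiv_subset ℝ hne)
  unfold HData.gr
  rw [h1]
  simp

/-- the gradient along a unit speed geodesic has compact support -/
private theorem lnh_supp {K : Set (Ev n)} (hK : IsCompact K) {u : Ev n → ℝ}
    (hs : tsupport u ⊆ K) (v : Ev n × Ev n)
    (hv : ‖v.2‖ = 1) : HasCompactSupport (fun s => ‖H.gr u (H.fl s v).1‖) := by
  obtain ⟨R, hR⟩ := H.exp_proper K hK
  have hin : ∀ s : ℝ, ‖H.gr u (H.fl s v).1‖ ≠ 0 → (H.fl s v).1 ∈ K := by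
    intro s h
    by_contra hcon
    exact h (by rw [H.lnh_gr_zero (fun h' => hcon (hs h')), norm_zero])
  have key : ∀ s s' : ℝ, ‖H.gr u (H.fl s v).1‖ ≠ 0 → ‖H.gr u (H.fl s' v).1‖ ≠ 0 →
      |s' - s| ≤ R := by
    intro s s' h h'
    have m1 := hin s h
    have m2 := hin s' h'
    have e1 : (H.fl 1 ((H.fl s v).1, (s' - s) • (H.fl s v).2)).1 = (H.fl s' v).1 := by
      have := H.Ex_smul (s' - s) (H.fl s v).1 (H.fl s v).2
      unfold HData.Ex at this
      rw [this]
      have h6 : ((H.fl s v).1, (H.fl s v).2) = H.fl s v := rfl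
      rw [h6, ← H.fl_add, sub_add_cancel]
    have h7 := hR _ m1 ((s' - s) • (H.fl s v).2) (by rw [e1]; exact m2)
    rw [norm_smul, H.fl_norm, hv, mul_one, Real.norm_eq_abs] at h7
    exact h7
  by_cases hex : ∃ s, ‖H.gr u (H.fl s v).1‖ ≠ 0
  · obtain ⟨s₀, hs₀⟩ := hex
    refine HasCompactSupport.of_support_subset_isCompact
      (isCompact_Icc : IsCompact (Icc (s₀ - R) (s₀ + R))) ?_
    intro s hs'
    have := abs_le.1 (key s₀ s hs₀ hs')
    exact ⟨by linarith [this.1], by linarith [this.2]⟩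
  · push Not at hex
    refine HasCompactSupport.of_support_subset_isCompact isCompact_empty ?_
    intro s hs'
    exact absurd (hex s) hs'

/-- the setup for the signed line lemma along a geodesic -/
private theorem lnh_setup (hn : 2 ≤ n) {m : ℝ} (hm : 0 ≤ m) (hm' : m ≤ k.Hm) {C : ℝ}
    (hC : ∀ r c c', |c| ≤ 1 → |c'| ≤ 1 → |k.B m r c c'| ≤ C) {K : Set (Ev n)} (hK : IsCompact K)
    {u : Ev n → ℝ} (hu : ContDiff ℝ 1 u) (hs : tsupport u ⊆ K) (h0 : ∀ y, 0 ≤ u y)
    (h1 : ∀ y, u y ≤ 1) (v : Ev n × Ev n) (hv : ‖v.2‖ = 1) :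
    LLH.Setup (fun s => u (H.fl s v).1) (fun s => ‖H.gr u (H.fl s v).1‖)
      (fun s => H.cs u (H.fl s v)) (fun r a b => k.B m r a b * Real.sinh r ^ (n - 1))
      k.f (fun r => m / k.Hm * k.h r) k.d := by
  have hflc : Continuous (fun t : ℝ => H.fl t v) :=
    H.fl_cont.comp (continuous_id.prodMk continuous_const)
  have hgood := H.good_line hK hu hs h0 h1 v hv
  have hq : 0 ≤ m / k.Hm := div_nonneg hm k.Hm_pos.le
  have hC0 : 0 ≤ C := (abs_nonneg _).trans (hC 0 0 0 (by simp) (by simp))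
  refine
    { good := ⟨hgood.smooth, hgood.supp, hgood.nonneg, hgood.le_one⟩
      p_cont := ((H.gr_cont hu).comp (continuous_fst.comp hflc)).norm
      p_supp := H.lnh_supp hK hs v hv
      p_nonneg := fun s => norm_nonneg _
      c_meas := (H.cs_measurable hu).comp hflc.measurable
      c_le := fun s => H.cs_abs_le u _ (by rw [H.fl_norm, hv])
      deriv_eq := fun s => by rw [H.lnh_deriv hu v s, H.lnh_inner]
      K_meas := ?_
      K_bound := ?_
      K_nonneg := ?_
      K_symm := fun r a b => by rw [k.B_symm]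
      K_comp := fun r a b hr ha ha1 hb hb1 => k.B_comp_m hm hm' hr ha ha1 hb hb1
      K_comp' := fun r a b hr ha ha1 hb hb1 => k.B_comp'_m hm hm' hr ha ha1 hb hb1
      K_lower := fun r a b hr ha ha1 hb hb1 => k.B_lower_m hm hm' hr ha ha1 hb hb1
      h_smooth := contDiff_const.mul k.h_smooth
      h_nonneg := fun r hr => mul_nonneg hq (k.h_nonneg r hr)
      h_mono := fun r s hr hrs => mul_le_mul_of_nonneg_left (k.h_mono r s hr hrs) hq
      φ_cont := k.f_cont
      φ_nonneg := k.f_nonneg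
      d_nonneg := k.d_pos.le }
  · have h4 : Measurable (fun q : ℝ × ℝ × ℝ => Real.sinh q.1 ^ (n - 1)) :=
      (Real.continuous_sinh.measurable.comp measurable_fst).pow_const _
    exact (k.B_measurable hn m).mul h4
  · intro L
    refine ⟨C * Real.sinh L ^ (n - 1), ?_⟩
    intro r a b hr hrL ha hb
    have hsr : 0 < Real.sinh r := Real.sinh_pos_iff.2 hr
    rw [abs_mul, abs_of_pos (pow_pos hsr _)]
    exact mul_le_mul (hC r a b ha hb)
      (pow_le_pow_left₀ hsr.le (Real.sinh_le_sinh.2 hrL) _) (pow_pos hsr _).le hC0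
  · intro r a b hr ha hb hab
    exact mul_nonneg (k.B_nonneg_of_nonpos hm hm' hr ha hb hab)
      (pow_pos (Real.sinh_pos_iff.2 hr) _).le

private theorem lnh_shift (F : ℝ → ℝ≥0∞) (a : ℝ) :
    ∫⁻ b in Ioi a, F b = ∫⁻ t in Ioi (0 : ℝ), F (a + t) := by
  rw [← lintegral_indicator measurableSet_Ioi, ← lintegral_indicator measurableSet_Ioi,
    ← lintegral_add_left_eq_self _ a]
  refine lintegral_congr fun t => ?_
  by_cases ht : 0 < t
  · rw [indicator_of_mem (show a + t ∈ Ioi a by simpa using ht),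
      indicator_of_mem (show t ∈ Ioi (0:ℝ) from ht)]
  · rw [indicator_of_notMem (show a + t ∉ Ioi a by simpa using ht),
      indicator_of_notMem (show t ∉ Ioi (0:ℝ) from ht)]

private theorem lnh_pt {x y : ℝ} (hy : 0 ≤ y) (hxy : 0 ≤ x + y) :
    ENNReal.ofReal x + ENNReal.ofReal y = ENNReal.ofReal (x + y) + ENNReal.ofReal (-x) := by
  rcases le_total 0 x with hx | hx
  · rw [ENNReal.ofReal_of_nonpos (show -x ≤ 0 by linarith), add_zero, ENNReal.ofReal_add hx hy]
  · rw [ENNReal.ofReal_of_nonpos hx, zero_add, ← ENNReal.ofReal_add hxy (by linarith)]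
    congr 1
    ring

private theorem lnh_cancel {A N L₁ P L₂ D : ℝ≥0∞} (h1 : A + N ≤ P + D) (h2 : P + L₁ = L₂ + N)
    (hN : N ≠ ⊤) : A + L₁ ≤ L₂ + D := by
  have h3 : N + (A + L₁) ≤ N + (L₂ + D) := by
    calc N + (A + L₁) = (A + N) + L₁ := by ring
      _ ≤ (P + D) + L₁ := add_le_add h1 le_rfl
      _ = (P + L₁) + D := by ring
      _ = (L₂ + N) + D := by rw [h2]
      _ = N + (L₂ + D) := by ring
  exact (ENNReal.add_le_add_iff_left hN).1 h3

theorem line_ineqH (hn : 2 ≤ n) {m : ℝ} (hm : 0 ≤ m) (hm' : m ≤ k.Hm) {C : ℝ}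
    (hC : ∀ r c c', |c| ≤ 1 → |c'| ≤ 1 → |k.B m r c c'| ≤ C) {K : Set (Ev n)} (hK : IsCompact K)
    {u : Ev n → ℝ} (hu : ContDiff ℝ 1 u) (hs : tsupport u ⊆ K) (h0 : ∀ y, 0 ≤ u y)
    (h1 : ∀ y, u y ≤ 1) (v : Ev n × Ev n) (hv : ‖v.2‖ = 1) :
    ENNReal.ofReal k.d * (∫⁻ s : ℝ, ENNReal.ofReal (u (H.fl s v).1 ^ 2))
        + ∫⁻ s : ℝ, H.LkC C u (H.fl s v)
      ≤ (∫⁻ s : ℝ, H.LkH k m C u (H.fl s v))
        + ∫⁻ s : ℝ, ENNReal.ofReal (‖H.gr u (H.fl s v).1‖
          * (|H.cs u (H.fl s v)| * k.f |H.cs u (H.fl s v)|)) := by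
  have S := H.lnh_setup k hn hm hm' hC hK hu hs h0 h1 v hv
  have key := LLH.line_signed_lint S
  have htop := S.neg_ne_top
  have hmeas := S.meas
  have hflc : Continuous (fun t : ℝ => H.fl t v) :=
    H.fl_cont.comp (continuous_id.prodMk continuous_const)
  have hC0 : 0 ≤ C := (abs_nonneg _).trans (hC 0 0 0 (by simp) (by simp))
  refine lnh_cancel key ?_ htop
  -- the two outer functions
  have mC : Measurable (fun s : ℝ => H.LkC C u (H.fl s v)) :=
    (H.LkC_measurable C hu).comp hflc.measurable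
  have mH : Measurable (fun s : ℝ => H.LkH k m C u (H.fl s v)) :=
    (H.LkH_measurable k hn m C hu).comp hflc.measurable
  rw [← lintegral_add_right _ mC, ← lintegral_add_left mH]
  refine lintegral_congr fun s => ?_
  have sh := fun F : ℝ → ℝ≥0∞ => lnh_shift F s
  rw [sh, sh]
  unfold LkC LkH
  -- inner measurability
  have mN : Measurable (fun t : ℝ => ENNReal.ofReal (-(‖H.gr u (H.fl s v).1‖
      * ‖H.gr u (H.fl (s + t) v).1‖ * (k.B m (s + t - s) (-(H.cs u (H.fl (s + t) v)))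
        (H.cs u (H.fl s v)) * Real.sinh (s + t - s) ^ (n - 1))))) :=
    (hmeas.comp (measurable_const.prodMk (measurable_const.add measurable_id))).neg.ennreal_ofReal
  have mT : Measurable (fun t : ℝ => ENNReal.ofReal (‖H.gr u (H.fl s v).1‖
      * ‖H.gr u (H.fl t (H.fl s v)).1‖ * (C * (H.th (H.fl s v).1 (t • (H.fl s v).2)
        * t ^ (n - 1))))) := by
    have c1 : Continuous (fun t : ℝ => H.fl t (H.fl s v)) :=
      H.fl_cont.comp (continuous_id.prodMk continuous_const)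
    have c2 : Continuous (fun t : ℝ => ‖H.gr u (H.fl t (H.fl s v)).1‖) :=
      ((H.gr_cont hu).comp (continuous_fst.comp c1)).norm
    have c3 : Continuous (fun t : ℝ => H.th (H.fl s v).1 (t • (H.fl s v).2)) :=
      H.th_cont.comp (continuous_const.prodMk (continuous_id.smul continuous_const))
    exact ((continuous_const.mul c2).mul
      (continuous_const.mul (c3.mul (continuous_pow _)))).measurable.ennreal_ofReal
  rw [← lintegral_add_right _ mT, ← lintegral_add_right _ mN]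
  refine setLIntegral_congr_fun measurableSet_Ioi fun t ht => ?_
  have ht' : (0 : ℝ) < t := ht
  have e1 : s + t - s = t := by ring
  have e2 : H.fl (s + t) v = H.fl t (H.fl s v) := by rw [add_comm, H.fl_add]
  have hunit : ‖(H.fl s v).2‖ = 1 := by rw [H.fl_norm, hv]
  have hth := H.sinh_pow_le_th hn (H.fl s v).1 (H.fl s v).2 hunit ht'
  have hS : 0 < Real.sinh t ^ (n - 1) := pow_pos (Real.sinh_pos_iff.2 ht') _
  have hc1 : |H.cs u (H.fl s v)| ≤ 1 := H.cs_abs_le u _ hunit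
  have hc2 : |-(H.cs u (H.fl t (H.fl s v)))| ≤ 1 := by
    rw [abs_neg]
    exact H.cs_abs_le u _ (by rw [H.fl_norm]; exact hunit)
  have hB := (abs_le.1 (hC t _ _ hc2 hc1)).1
  simp only [e1, e2]
  set p₁ := ‖H.gr u (H.fl s v).1‖ with hp1
  set p₂ := ‖H.gr u (H.fl t (H.fl s v)).1‖ with hp2
  set θ := H.th (H.fl s v).1 (t • (H.fl s v).2) * t ^ (n - 1) with hθ
  set b := k.B m t (-(H.cs u (H.fl t (H.fl s v)))) (H.cs u (H.fl s v)) with hb
  have hpp : 0 ≤ p₁ * p₂ := mul_nonneg (norm_nonneg _) (norm_nonneg _)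
  have e3 : p₁ * p₂ * (b * Real.sinh t ^ (n - 1) + C * θ) =
      p₁ * p₂ * (b * Real.sinh t ^ (n - 1)) + p₁ * p₂ * (C * θ) := by ring
  rw [e3]
  refine lnh_pt (mul_nonneg hpp (mul_nonneg hC0 (hS.le.trans hth))) ?_
  rw [← e3]
  refine mul_nonneg hpp ?_
  have h5 : -(C * Real.sinh t ^ (n - 1)) ≤ b * Real.sinh t ^ (n - 1) := by
    have := mul_le_mul_of_nonneg_right hB hS.le
    linarith
  have h6 : C * Real.sinh t ^ (n - 1) ≤ C * θ := mul_le_mul_of_nonneg_left hth hC0
  linarith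

end HDataH

end Vale.Agent.Lib.P219
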