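import Vale.Agent.Lib.P219.K.LineH
import Vale.Agent.Lib.P219.A.Lower3

/-! # P219, curvature `≤ -1`: lower bound for the pair functional

Model: `A/Lower3`: `SM_weight` (sum of `line_ineqH` over all geodesics), `SM_base`, `SM_LkC`,
`SM_LkH_le`. -/

namespace Vale.Agent.Lib.P219

open MeasureTheory Set Filter Topology
open scoped ENNReal

namespace HDataH

variable {n : ℕ} (H : HDataH n) (k : KerH n)

private theorem LowerH_inner (u : Ev n → ℝ) (x : Ev n) :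
    ∫⁻ ω : Metric.sphere (0 : Ev n) 1, ENNReal.ofReal (‖H.gr u x‖
      * (|H.cs u (x, (ω : Ev n))| * k.f |H.cs u (x, (ω : Ev n))|))
      ∂(volume : Measure (Ev n)).toSphere
      ≤ ENNReal.ofReal ‖H.gr u x‖ * ENNReal.ofReal k.K' := by
  have := isFiniteMeasure_toSphere n
  have hc : 0 ≤ ‖H.gr u x‖ := norm_nonneg _
  by_cases hg : H.gr u x = 0
  · have h0 : ∀ ω : Metric.sphere (0 : Ev n) 1, ENNReal.ofReal (‖H.gr u x‖
      * (|H.cs u (x, (ω : Ev n))| * k.f |H.cs u (x, (ω : Ev n))|)) = 0 := by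
      intro ω
      rw [hg, norm_zero, zero_mul, ENNReal.ofReal_zero]
    rw [lintegral_congr h0, lintegral_zero]
    exact bot_le
  · have hg' : ‖H.gr u x‖ ≠ 0 := norm_ne_zero_iff.2 hg
    set e : Ev n := ‖H.gr u x‖⁻¹ • H.gr u x with he
    have he1 : ‖e‖ = 1 := by
      rw [he, norm_smul, norm_inv, norm_norm, inv_mul_cancel₀ hg']
    have hcs : ∀ ω : Metric.sphere (0 : Ev n) 1,
        H.cs u (x, (ω : Ev n)) = inner ℝ (ω : Ev n) e := by
      intro ω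
      rw [he, inner_smul_right, real_inner_comm]
      unfold HData.cs
      rw [div_eq_inv_mul]
    have hcont : Continuous (fun ω : Metric.sphere (0 : Ev n) 1 =>
        |inner ℝ (ω : Ev n) e| * k.f |inner ℝ (ω : Ev n) e|) := by
      have h1 : Continuous (fun ω : Metric.sphere (0 : Ev n) 1 => |inner ℝ (ω : Ev n) e|) :=
        (continuous_subtype_val.inner continuous_const).abs
      exact h1.mul (k.f_cont.comp h1)
    have hint : Integrable (fun ω : Metric.sphere (0 : Ev n) 1 =>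
        |inner ℝ (ω : Ev n) e| * k.f |inner ℝ (ω : Ev n) e|)
        (volume : Measure (Ev n)).toSphere :=
      hcont.integrable_of_hasCompactSupport (HasCompactSupport.of_compactSpace _)
    have h1 : ∀ ω : Metric.sphere (0 : Ev n) 1, ENNReal.ofReal (‖H.gr u x‖
      * (|H.cs u (x, (ω : Ev n))| * k.f |H.cs u (x, (ω : Ev n))|))
      = ENNReal.ofReal ‖H.gr u x‖ *
        ENNReal.ofReal (|inner ℝ (ω : Ev n) e| * k.f |inner ℝ (ω : Ev n) e|) := by
      intro ω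
      rw [← ENNReal.ofReal_mul hc, hcs ω]
    rw [lintegral_congr h1, lintegral_const_mul' _ _ ENNReal.ofReal_ne_top]
    refine mul_le_mul' le_rfl ?_
    rw [← ofReal_integral_eq_lintegral_ofReal hint (Filter.Eventually.of_forall fun ω =>
      mul_nonneg (abs_nonneg _) (k.f_nonneg _))]
    exact ENNReal.ofReal_le_ofReal (k.K'_bound e he1)

theorem SM_boundaryH (hn : 2 ≤ n) {u : Ev n → ℝ} (hu : ContDiff ℝ 1 u)
    (hs : HasCompactSupport u) :
    H.SM (fun v => ENNReal.ofReal (‖H.gr u v.1‖ * (|H.cs u v| * k.f |H.cs u v|)))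
      ≤ ENNReal.ofReal (k.K' * H.A u) := by
  have hgc : Continuous (fun x => ‖H.gr u x‖) := (H.gr_cont hu).norm
  have hgs : HasCompactSupport (fun x => ‖H.gr u x‖) := (H.gr_hasCompactSupport hs).norm
  have hgi : Integrable (fun x => ‖H.gr u x‖) H.vol := H.integrable_of_continuous hgc hgs
  have h1 : H.SM (fun v => ENNReal.ofReal (‖H.gr u v.1‖ * (|H.cs u v| * k.f |H.cs u v|)))
      ≤ ∫⁻ x, ENNReal.ofReal ‖H.gr u x‖ * ENNReal.ofReal k.K' ∂H.vol := by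
    unfold HData.SM
    exact lintegral_mono fun x => H.LowerH_inner k u x
  refine h1.trans (le_of_eq ?_)
  rw [lintegral_mul_const' _ _ ENNReal.ofReal_ne_top,
    ← ofReal_integral_eq_lintegral_ofReal hgi
      (Filter.Eventually.of_forall fun x => norm_nonneg _)]
  have hA : ∫ x, ‖H.gr u x‖ ∂H.vol = H.A u := rfl
  rw [hA, ← ENNReal.ofReal_mul (H.A_nonneg u)]
  congr 1
  ring

private theorem LowerH_add (Φ₁ Φ₂ : Ev n × Ev n → ℝ≥0∞) (h₁ : Measurable Φ₁) :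
    H.SM (fun v => Φ₁ v + Φ₂ v) = H.SM Φ₁ + H.SM Φ₂ := by
  have := isFiniteMeasure_toSphere n
  unfold HData.SM
  have hj : Measurable (fun p : Ev n × Metric.sphere (0 : Ev n) 1 => (p.1, (p.2 : Ev n))) :=
    measurable_fst.prodMk (measurable_subtype_coe.comp measurable_snd)
  have hi : ∀ x, ∫⁻ ω : Metric.sphere (0 : Ev n) 1, (Φ₁ (x, (ω : Ev n)) + Φ₂ (x, (ω : Ev n)))
      ∂(volume : Measure (Ev n)).toSphere
      = (∫⁻ ω : Metric.sphere (0 : Ev n) 1, Φ₁ (x, (ω : Ev n))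
          ∂(volume : Measure (Ev n)).toSphere)
        + ∫⁻ ω : Metric.sphere (0 : Ev n) 1, Φ₂ (x, (ω : Ev n))
          ∂(volume : Measure (Ev n)).toSphere := fun x =>
    lintegral_add_left ((h₁.comp hj).comp measurable_prodMk_left) _
  rw [lintegral_congr hi]
  exact lintegral_add_left (h₁.comp hj).lintegral_prod_right' _

private theorem LowerH_meas {Φ : Ev n × Ev n → ℝ≥0∞} (hΦ : Measurable Φ) :
    Measurable (fun v : Ev n × Ev n => ∫⁻ s : ℝ, Φ (H.fl s v)) := by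
  have hc : Continuous (fun p : (Ev n × Ev n) × ℝ => H.fl p.2 p.1) :=
    H.fl_cont.comp (continuous_snd.prodMk continuous_fst)
  have hm : Measurable (fun p : (Ev n × Ev n) × ℝ => Φ (H.fl p.2 p.1)) := hΦ.comp hc.measurable
  exact hm.lintegral_prod_right'

private theorem LowerH_const (c : ℝ≥0∞) (hc : c ≠ ∞) (Φ : Ev n × Ev n → ℝ≥0∞) :
    c * H.SM Φ = H.SM (fun v => c * Φ v) := by
  unfold HData.SM
  rw [← lintegral_const_mul' _ _ hc]
  refine lintegral_congr fun x => ?_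
  rw [← lintegral_const_mul' _ _ hc]

private theorem LowerH_mono {Φ₁ Φ₂ : Ev n × Ev n → ℝ≥0∞}
    (h : ∀ v : Ev n × Ev n, ‖v.2‖ = 1 → Φ₁ v ≤ Φ₂ v) : H.SM Φ₁ ≤ H.SM Φ₂ := by
  unfold HData.SM
  exact lintegral_mono fun x => lintegral_mono fun ω =>
    h (x, (ω : Ev n)) (norm_eq_of_mem_sphere ω)

theorem pair_lowerH (hn : 2 ≤ n) {m : ℝ} (hm : 0 ≤ m) (hm' : m ≤ k.Hm) {C : ℝ} (hC0 : 0 ≤ C)
    (hC : ∀ r c c', |c| ≤ 1 → |c'| ≤ 1 → |k.B m r c c'| ≤ C) {K : Set (Ev n)} (hK : IsCompact K)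
    {u : Ev n → ℝ} (hu : ContDiff ℝ 1 u) (hs : tsupport u ⊆ K) (h0 : ∀ y, 0 ≤ u y)
    (h1 : ∀ y, u y ≤ 1) :
    ENNReal.ofReal (k.d * (n * om n * ∫ x, u x ^ 2 ∂H.vol) + C * H.A u ^ 2)
      ≤ H.PairT k m C u + ENNReal.ofReal (k.K' * H.A u) := by
  have hn1 : 1 ≤ n := by omega
  have hsc : HasCompactSupport u := hK.of_isClosed_subset (isClosed_tsupport u) hs
  obtain ⟨W, hW, hW1⟩ := H.exists_weight_one hK
  -- the four functions
  set Φ₁ : Ev n × Ev n → ℝ≥0∞ := fun v => ENNReal.ofReal (u v.1 ^ 2) with hΦ₁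
  set Φ₃ : Ev n × Ev n → ℝ≥0∞ := fun v => ENNReal.ofReal (‖H.gr u v.1‖
      * (|H.cs u v| * k.f |H.cs u v|)) with hΦ₃
  have m₁ : Measurable Φ₁ :=
    (ENNReal.continuous_ofReal.comp ((hu.continuous.comp continuous_fst).pow 2)).measurable
  have m₂ : Measurable (H.LkH k m C u) := H.LkH_measurable k hn m C hu
  have m₄ : Measurable (H.LkC C u) := H.LkC_measurable C hu
  have m₃ : Measurable Φ₃ := by
    have hcs : Measurable (fun v => |H.cs u v|) := (H.cs_measurable hu).abs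
    have hg : Measurable (fun v : Ev n × Ev n => ‖H.gr u v.1‖) :=
      ((H.gr_cont hu).norm.comp continuous_fst).measurable
    exact (hg.mul (hcs.mul (k.f_cont.measurable.comp hcs))).ennreal_ofReal
  have z₁ : ∀ v : Ev n × Ev n, v.1 ∉ K → Φ₁ v = 0 := by
    intro v hv
    show ENNReal.ofReal (u v.1 ^ 2) = 0
    rw [image_eq_zero_of_notMem_tsupport (fun h => hv (hs h))]
    norm_num
  have z₂ : ∀ v : Ev n × Ev n, v.1 ∉ K → H.LkH k m C u v = 0 := by
    intro v hv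
    unfold HDataH.LkH
    rw [H.gr_zero_of_not_mem (fun h => hv (hs h))]
    simp
  have z₄ : ∀ v : Ev n × Ev n, v.1 ∉ K → H.LkC C u v = 0 := by
    intro v hv
    unfold HDataH.LkC
    rw [H.gr_zero_of_not_mem (fun h => hv (hs h))]
    simp
  have z₃ : ∀ v : Ev n × Ev n, v.1 ∉ K → Φ₃ v = 0 := by
    intro v hv
    show ENNReal.ofReal (‖H.gr u v.1‖ * (|H.cs u v| * k.f |H.cs u v|)) = 0
    rw [H.gr_zero_of_not_mem (fun h => hv (hs h)), norm_zero, zero_mul, ENNReal.ofReal_zero]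
  have w₁ := H.SM_weight hn1 W hW hW1 Φ₁ m₁ z₁
  have w₂ := H.SM_weight hn1 W hW hW1 (H.LkH k m C u) m₂ z₂
  have w₃ := H.SM_weight hn1 W hW hW1 Φ₃ m₃ z₃
  have w₄ := H.SM_weight hn1 W hW hW1 (H.LkC C u) m₄ z₄
  have hi0 : 0 ≤ (n : ℝ) * om n * ∫ x, u x ^ 2 ∂H.vol :=
    mul_nonneg (mul_nonneg (Nat.cast_nonneg n) ENNReal.toReal_nonneg)
      (integral_nonneg fun x => sq_nonneg _)
  have hL : ENNReal.ofReal (k.d * (n * om n * ∫ x, u x ^ 2 ∂H.vol) + C * H.A u ^ 2)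
      = ENNReal.ofReal k.d * H.SM Φ₁ + H.SM (H.LkC C u) := by
    rw [ENNReal.ofReal_add (mul_nonneg k.d_pos.le hi0) (mul_nonneg hC0 (sq_nonneg _)),
      ENNReal.ofReal_mul k.d_pos.le, H.SM_base hu.continuous hsc, H.SM_LkC hn hC0 hu hsc]
  have mA : Measurable (fun v => ENNReal.ofReal k.d * (W v * ∫⁻ s : ℝ, Φ₁ (H.fl s v))) :=
    (hW.mul (H.LowerH_meas m₁)).const_mul _
  rw [hL, ← w₁, ← w₄, H.LowerH_const _ ENNReal.ofReal_ne_top,
    ← H.LowerH_add (fun v => ENNReal.ofReal k.d * (W v * ∫⁻ s : ℝ, Φ₁ (H.fl s v)))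
      (fun v => W v * ∫⁻ s : ℝ, H.LkC C u (H.fl s v)) mA]
  have hmono : H.SM (fun v => ENNReal.ofReal k.d * (W v * ∫⁻ s : ℝ, Φ₁ (H.fl s v))
        + W v * ∫⁻ s : ℝ, H.LkC C u (H.fl s v))
      ≤ H.SM (fun v => W v * (∫⁻ s : ℝ, H.LkH k m C u (H.fl s v))
        + W v * ∫⁻ s : ℝ, Φ₃ (H.fl s v)) := by
    refine H.LowerH_mono fun v hv => ?_
    rw [mul_left_comm, ← mul_add, ← mul_add]
    exact mul_le_mul' le_rfl (H.line_ineqH k hn hm hm' hC hK hu hs h0 h1 v hv)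
  refine hmono.trans ?_
  rw [H.LowerH_add (fun v => W v * ∫⁻ s : ℝ, H.LkH k m C u (H.fl s v))
    (fun v => W v * ∫⁻ s : ℝ, Φ₃ (H.fl s v)) (hW.mul (H.LowerH_meas m₂)), w₂, w₃]
  exact add_le_add (H.SM_LkH_le k hn hm hm' hC hu) (H.SM_boundaryH k hn hu hsc)

end HDataH

end Vale.Agent.Lib.P219
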