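import Vale.Agent.Lib.P219.A.NearEx

/-! # P219: near minimisers of `A / Φ(V)`

Model: `A/NearEx`. `m(h) = inf {A v / Φ (V v) : v ∈ Adm K h}` is nonincreasing in `h`, bounded above
by `c₁` and below by a positive number (`gns_adm` and `V ≤ vol K` for `V ≥ V₀`, `hsm` for `V < V₀`);
`c₀ = lim_{h → 0} m(h)`; `Vs` is a cluster point of `V (u_j)` (all in the compact
`[V₀, vol K]` unless `A u_j ≥ c₁ Φ (V u_j)`). -/

namespace Vale.Agent.Lib.P219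

open MeasureTheory Set Filter Topology

namespace HData

variable {n : ℕ} (H : HData n)

/-- `c₀` is the limit of the constants of almost indicator functions in `K` for the profile `Φ`,
approached at volume `Vs` -/
def NearPhi (K : Set (Ev n)) (Φ : ℝ → ℝ) (c₀ Vs : ℝ) : Prop :=
  0 < c₀ ∧ 0 < Vs ∧ ∀ ε > 0, ∃ h₀ > 0,
    (∀ v, H.Adm K h₀ v → (1 - ε) * c₀ * Φ (H.V v) ≤ H.A v) ∧
    (∀ h > 0, ∃ u, H.Adm K h u ∧ H.A u ≤ (1 + ε) * c₀ * Φ (H.V u) ∧ |H.V u - Vs| ≤ ε)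

theorem exists_nearPhi (hn : 2 ≤ n) {K : Set (Ev n)} (hK : IsCompact K) {Φ : ℝ → ℝ}
    (hΦc : ContinuousOn Φ (Ioi 0)) (hΦp : ∀ V, 0 < V → 0 < Φ V) {c₁ : ℝ} (hc₁ : 0 < c₁)
    (hex : ∀ h > 0, ∃ u, H.Adm K h u ∧ H.A u < c₁ * Φ (H.V u))
    (hsm : ∃ V₀ > 0, ∃ h₁ > 0, ∀ u, H.Adm K h₁ u → H.V u < V₀ → c₁ * Φ (H.V u) ≤ H.A u) :
    ∃ c₀, c₀ ≤ c₁ ∧ ∃ Vs, H.NearPhi K Φ c₀ Vs := by
  have hnR : (2 : ℝ) ≤ n := by exact_mod_cast hn
  obtain ⟨V₀, hV₀, h₁, hh₁, hsm⟩ := hsm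
  obtain ⟨cG, hcG, hG⟩ := H.gns_adm hn hK
  set a : ℝ := ((n : ℝ) - 1) / n with ha
  have ha0 : 0 < a := by
    rw [ha]
    apply div_pos <;> linarith
  obtain ⟨M, hM⟩ : ∃ M : ℝ, M = max V₀ (H.vol K).toReal := ⟨_, rfl⟩
  have hVM : ∀ h v, H.Adm K h v → H.V v ≤ M := fun h v hv => by
    rw [hM]
    exact (H.V_le hK hv).trans (le_max_right _ _)
  -- `Φ` is bounded on `[V₀, M]`
  have hΦI : ContinuousOn Φ (Icc V₀ M) := hΦc.mono fun x hx => hV₀.trans_le hx.1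
  obtain ⟨B₀, hB₀⟩ := isCompact_Icc.exists_bound_of_continuousOn hΦI
  obtain ⟨B, hB⟩ : ∃ B : ℝ, B = max B₀ 1 := ⟨_, rfl⟩
  have hB1 : 0 < B := by rw [hB]; exact lt_of_lt_of_le one_pos (le_max_right _ _)
  have hΦB : ∀ V ∈ Icc V₀ M, Φ V ≤ B := fun V hV => by
    rw [hB]
    exact ((le_abs_self _).trans (hB₀ V hV)).trans (le_max_left _ _)
  obtain ⟨S, hS⟩ : ∃ S : Set ℝ, S = {c | 0 < c ∧ ∃ h > 0, ∀ v, H.Adm K h v →
      c * Φ (H.V v) ≤ H.A v} := ⟨_, rfl⟩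
  have hmem : ∀ c, c ∈ S ↔ (0 < c ∧ ∃ h > 0, ∀ v, H.Adm K h v →
      c * Φ (H.V v) ≤ H.A v) := fun c => by rw [hS]; rfl
  have hSG : min c₁ (cG * V₀ ^ a / B) ∈ S := by
    refine (hmem _).2 ⟨lt_min hc₁ (by positivity), min h₁ (1 / 2), lt_min hh₁ (by norm_num),
      fun v hv => ?_⟩
    have hΦv := hΦp _ hv.mass_pos
    rcases lt_or_ge (H.V v) V₀ with h | h
    · exact (mul_le_mul_of_nonneg_right (min_le_left _ _) hΦv.le).trans
        (hsm v (Adm.mono H hv (min_le_left _ _)) h)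
    · have h2 := hG _ (min_le_right _ _) v hv
      have h3 := hΦB _ ⟨h, hVM _ v hv⟩
      have h4 : V₀ ^ a ≤ H.V v ^ a := Real.rpow_le_rpow hV₀.le h ha0.le
      calc min c₁ (cG * V₀ ^ a / B) * Φ (H.V v) ≤ cG * V₀ ^ a / B * B :=
            mul_le_mul (min_le_right _ _) h3 hΦv.le (by positivity)
        _ = cG * V₀ ^ a := by field_simp
        _ ≤ cG * H.V v ^ a := by gcongr
        _ ≤ H.A v := h2
  have hSle : ∀ c ∈ S, c ≤ c₁ := by
    intro c hc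
    obtain ⟨-, h, hh, hcv⟩ := (hmem c).1 hc
    obtain ⟨u, hu, hAu⟩ := hex h hh
    have h1 := (hcv u hu).trans_lt hAu
    exact (lt_of_mul_lt_mul_right h1 (hΦp _ hu.mass_pos).le).le
  have hbdd : BddAbove S := ⟨c₁, hSle⟩
  have hne : S.Nonempty := ⟨_, hSG⟩
  obtain ⟨c₀, hc₀⟩ : ∃ c₀ : ℝ, c₀ = sSup S := ⟨_, rfl⟩
  have hpos : 0 < c₀ := by
    rw [hc₀]
    exact ((hmem _).1 hSG).1.trans_le (le_csSup hbdd hSG)
  have hc₀₁ : c₀ ≤ c₁ := by
    rw [hc₀]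
    exact csSup_le hne hSle
  -- key claim
  have key : ∀ ε > 0, ∀ h > 0, ∃ u, H.Adm K h u ∧ V₀ ≤ H.V u ∧
      H.A u ≤ (1 + ε) * c₀ * Φ (H.V u) := by
    intro ε hε h hh
    by_contra hcon
    push Not at hcon
    have h2 : min c₁ ((1 + ε) * c₀) ∈ S := by
      refine (hmem _).2 ⟨lt_min hc₁ (by positivity), min h h₁, lt_min hh hh₁, fun v hv => ?_⟩
      have hΦv := hΦp _ hv.mass_pos
      rcases lt_or_ge (H.V v) V₀ with h' | h'
      · exact (mul_le_mul_of_nonneg_right (min_le_left _ _) hΦv.le).trans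
          (hsm v (Adm.mono H hv (min_le_right _ _)) h')
      · exact (mul_le_mul_of_nonneg_right (min_le_right _ _) hΦv.le).trans
          (hcon v (Adm.mono H hv (min_le_left _ _)) h').le
    have h3 : min c₁ ((1 + ε) * c₀) ≤ c₀ := by
      rw [hc₀] at h2 ⊢
      exact le_csSup hbdd h2
    have h4 : c₁ ≤ c₀ := by
      rcases min_le_iff.1 h3 with h5 | h5
      · exact h5
      · nlinarith
    obtain ⟨u, hu, hAu⟩ := hex (min h h₁) (lt_min hh hh₁)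
    have hΦu := hΦp _ hu.mass_pos
    rcases lt_or_ge (H.V u) V₀ with h' | h'
    · exact absurd (hsm u (Adm.mono H hu (min_le_right _ _)) h') (not_le.2 hAu)
    · have h5 := hcon u (Adm.mono H hu (min_le_left _ _)) h'
      have h6 : c₁ * Φ (H.V u) ≤ (1 + ε) * c₀ * Φ (H.V u) := by
        apply mul_le_mul_of_nonneg_right _ hΦu.le
        nlinarith
      linarith
  -- a convergent sequence of volumes
  have hk : ∀ k : ℕ, (0 : ℝ) < 1 / ((k : ℝ) + 1) := fun k => by positivity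
  choose u hu1 hu2 hu3 using fun k : ℕ => key (1 / ((k : ℝ) + 1)) (hk k) (1 / ((k : ℝ) + 1)) (hk k)
  have hVI : ∀ k, H.V (u k) ∈ Icc V₀ M := fun k => ⟨hu2 k, hVM _ _ (hu1 k)⟩
  obtain ⟨Vs, hVs, φ, hφ, hlim⟩ := isCompact_Icc.tendsto_subseq hVI
  refine ⟨c₀, hc₀₁, Vs, hpos, hV₀.trans_le hVs.1, fun ε hε => ?_⟩
  have h1 : (1 - ε) * c₀ < sSup S := by
    rw [← hc₀]
    nlinarith
  obtain ⟨c, hcS, hc⟩ := exists_lt_of_lt_csSup hne h1
  obtain ⟨-, h, hh, hcv⟩ := (hmem c).1 hcS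
  refine ⟨h, hh, fun v hv => ?_, fun h' hh' => ?_⟩
  · exact (mul_le_mul_of_nonneg_right hc.le (hΦp _ hv.mass_pos).le).trans (hcv v hv)
  · have e1 : ∀ᶠ k in atTop, |H.V (u (φ k)) - Vs| ≤ ε := by
      have := (Metric.tendsto_nhds.1 hlim) ε hε
      filter_upwards [this] with k hk'
      rw [Function.comp_apply, Real.dist_eq] at hk'
      exact hk'.le
    have e2 : ∀ᶠ k in atTop, 1 / ((φ k : ℝ) + 1) < min ε h' := by
      have t1 : Tendsto (fun k : ℕ => 1 / ((k : ℝ) + 1)) atTop (𝓝 0) :=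
        tendsto_one_div_add_atTop_nhds_zero_nat
      exact (t1.comp hφ.tendsto_atTop).eventually_lt_const (lt_min hε hh')
    obtain ⟨k, hk1, hk2⟩ := (e1.and e2).exists
    refine ⟨u (φ k), Adm.mono H (hu1 (φ k)) (hk2.le.trans (min_le_right _ _)), ?_, hk1⟩
    refine (hu3 (φ k)).trans ?_
    apply mul_le_mul_of_nonneg_right _ (hΦp _ (hu1 (φ k)).mass_pos).le
    apply mul_le_mul_of_nonneg_right _ hpos.le
    have := hk2.le.trans (min_le_left _ _)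
    linarith

end HData

end Vale.Agent.Lib.P219
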