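import Vale.Agent.Lib.P219.K.LowerH
import Vale.Agent.Lib.P219.K.FirstVarH
import Vale.Agent.Lib.P219.K.NearPhi

/-! # P219, curvature `≤ -1`: contradiction for near minimisers

Model: `A/Concl`. `m = c₀ Φ' Vs`. For `u` nearly minimising, `h → 0`, `V u → Vs`:
`d n ω (1 - h) V u + C A² ≤ (a + C) A² + ε A + K' A` and `A ≤ (1 + ε) c₀ Φ (V u)`; in the limit
`d n ω Vs ≤ a (c₀ Φ Vs)² + K' c₀ Φ Vs`. (`∫ u² ≥ (1 - h) V u`.) -/

namespace Vale.Agent.Lib.P219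

open MeasureTheory Set Filter Topology
open scoped ENNReal

namespace HDataH

variable {n : ℕ} (H : HDataH n) (k : KerH n)

private theorem mainH_K'_nonneg (hn : 2 ≤ n) : 0 ≤ k.K' := by
  have he : ‖(EuclideanSpace.single (⟨0, by omega⟩ : Fin n) (1 : ℝ) : Ev n)‖ = 1 := by
    rw [EuclideanSpace.norm_single, norm_one]
  refine le_trans ?_ (k.K'_bound _ he)
  exact integral_nonneg fun ω => mul_nonneg (abs_nonneg _) (k.f_nonneg _)

private theorem mainH_sq (H : HData n) {K : Set (Ev n)} (hK : IsCompact K) {h : ℝ} {u : Ev n → ℝ}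
    (hu : H.Adm K h u) : (1 - h) * H.V u ≤ ∫ x, u x ^ 2 ∂H.vol := by
  have hs : HasCompactSupport u := hK.of_isClosed_subset (isClosed_tsupport u) hu.supp
  have hi : Integrable u H.vol := H.integrable_of_continuous hu.smooth.continuous hs
  have hs2 : HasCompactSupport (fun x => u x ^ 2) := by
    refine HasCompactSupport.intro hs fun x hx => ?_
    rw [image_eq_zero_of_notMem_tsupport hx]
    norm_num
  have hi2 : Integrable (fun x => u x ^ 2) H.vol :=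
    H.integrable_of_continuous (hu.smooth.continuous.pow 2) hs2
  have h1 : ∫ x, u x * (1 - u x) ∂H.vol = H.V u - ∫ x, u x ^ 2 ∂H.vol := by
    unfold HData.V
    rw [← integral_sub hi hi2]
    refine integral_congr_ae (Filter.Eventually.of_forall fun x => ?_)
    show u x * (1 - u x) = u x - u x ^ 2
    ring
  have h2 := hu.layer
  rw [h1] at h2
  linarith

private theorem mainH_A_nonneg (H : HData n) (u : Ev n → ℝ) : 0 ≤ H.A u := by
  unfold HData.A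
  exact integral_nonneg fun x => norm_nonneg _

/-- numerical inequality for one near minimiser -/
private theorem mainH_ineq (hn : 2 ≤ n) {m : ℝ} (hm : 0 ≤ m) (hm' : m ≤ k.Hm) {K : Set (Ev n)}
    (hK : IsCompact K) {h : ℝ} {u : Ev n → ℝ} (hu : H.Adm K h u) {ε : ℝ} (hε : 0 ≤ ε)
    (hE : ∀ x ∈ K, ∀ e : Ev n, ‖e‖ = 1 → H.FV k.gh u 1 x e + H.FX k u x e
      - m * H.FV (fun r c c' => c * k.η r c') u 1 x e ≤ ε) :
    k.d * (n * om n * ((1 - h) * H.V u)) ≤ k.a * H.A u ^ 2 + (ε + k.K') * H.A u := by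
  obtain ⟨C, hC0, hC⟩ := k.exists_bound hn
  have hL := H.pair_lowerH k hn hm hm' hC0.le (fun r c c' hc hc' => (hC m hm hm' r c c' hc hc').2.2)
    hK hu.smooth hu.supp hu.nonneg hu.le_one
  have hU := H.pairT_upper k hn hm hm' (fun r c c' hc hc' => hC m hm hm' r c c' hc hc') hK
    hu.smooth hu.supp hε hE
  have hK' : 0 ≤ k.K' := mainH_K'_nonneg k hn
  have hA : 0 ≤ H.A u := mainH_A_nonneg H.toHData u
  have ha := k.a_pos
  have hd := k.d_pos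
  have hom : 0 ≤ om n := ENNReal.toReal_nonneg
  have h2 := hL.trans (add_le_add_left hU _)
  have h3 : 0 ≤ (k.a + C) * H.A u ^ 2 + ε * H.A u := by positivity
  have h4 : 0 ≤ k.K' * H.A u := by positivity
  rw [← ENNReal.ofReal_add h3 h4] at h2
  have h5 := (ENNReal.ofReal_le_ofReal_iff (by positivity)).1 h2
  have h6 : k.d * (n * om n * ((1 - h) * H.V u)) ≤ k.d * (n * om n * ∫ x, u x ^ 2 ∂H.vol) := by
    refine mul_le_mul_of_nonneg_left ?_ hd.le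
    exact mul_le_mul_of_nonneg_left (mainH_sq H.toHData hK hu) (by positivity)
  nlinarith [h5, h6]

theorem not_nearPhi (hn : 2 ≤ n) {K : Set (Ev n)} (hK : IsCompact K) (hc : H.Conv K)
    {Φ Φ' : ℝ → ℝ} {c₀ Vs : ℝ} (hΦ : ∀ᶠ V in 𝓝 Vs, HasDerivAt Φ (Φ' V) V)
    (hΦc : ContinuousAt Φ' Vs) (hΦ0 : 0 ≤ Φ' Vs) (hΦp : 0 < Φ Vs) (hm : c₀ * Φ' Vs ≤ k.Hm)
    (hk : k.a * (c₀ * Φ Vs) ^ 2 + k.K' * (c₀ * Φ Vs) < k.d * (n * om n * Vs)) :
    ¬ H.NearPhi K Φ c₀ Vs := by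
  rintro ⟨hc₀, hVs, hN⟩
  have hm0 : 0 ≤ c₀ * Φ' Vs := mul_nonneg hc₀.le hΦ0
  have hK' : 0 ≤ k.K' := mainH_K'_nonneg k hn
  have ha := k.a_pos
  have hΦcont : ContinuousAt Φ Vs := hΦ.self_of_nhds.continuousAt
  -- the limit inequality
  have hF : ContinuousAt (fun p : ℝ × ℝ => k.d * (n * om n * ((1 - p.1) * p.2))
      - k.a * ((1 + p.1) * c₀ * Φ p.2) ^ 2 - (p.1 + k.K') * ((1 + p.1) * c₀ * Φ p.2)) (0, Vs) := by
    have h1 : ContinuousAt (fun p : ℝ × ℝ => Φ p.2) (0, Vs) :=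
      ContinuousAt.comp (f := fun p : ℝ × ℝ => p.2) (x := ((0 : ℝ), Vs)) hΦcont
        continuous_snd.continuousAt
    fun_prop
  have hF0 : 0 < k.d * (n * om n * ((1 - (0 : ℝ)) * Vs))
      - k.a * ((1 + (0 : ℝ)) * c₀ * Φ Vs) ^ 2 - (0 + k.K') * ((1 + (0 : ℝ)) * c₀ * Φ Vs) := by
    have h1 : k.d * (n * om n * ((1 - (0 : ℝ)) * Vs)) = k.d * (n * om n * Vs) := by ring
    have h2 : k.a * ((1 + (0 : ℝ)) * c₀ * Φ Vs) ^ 2 = k.a * (c₀ * Φ Vs) ^ 2 := by ring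
    have h3 : (0 + k.K') * ((1 + (0 : ℝ)) * c₀ * Φ Vs) = k.K' * (c₀ * Φ Vs) := by ring
    rw [h1, h2, h3]
    linarith
  have hev := hF.eventually (lt_mem_nhds hF0)
  obtain ⟨δ, hδ, hball⟩ := Metric.eventually_nhds_iff.1 hev
  obtain ⟨ε, hεd⟩ : ∃ ε, ε = δ / 2 := ⟨_, rfl⟩
  have hε : 0 < ε := by rw [hεd]; linarith
  have hεδ : ε < δ := by rw [hεd]; linarith
  obtain ⟨ε₁, hε₁, hFV⟩ := H.first_varH k hn hK hc hVs hΦ hΦc hΦ0 hΦp hc₀ hε
  obtain ⟨ε₂, hε₂⟩ : ∃ ε₂, ε₂ = min ε₁ ε := ⟨_, rfl⟩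
  have e0 : 0 < ε₂ := by rw [hε₂]; positivity
  have e1 : ε₂ ≤ ε₁ := by rw [hε₂]; exact min_le_left _ _
  have e2 : ε₂ ≤ ε := by rw [hε₂]; exact min_le_right _ _
  obtain ⟨h₀, hh₀, hlow, -⟩ := hN ε₁ hε₁
  obtain ⟨-, -, -, hup⟩ := hN ε₂ e0
  obtain ⟨h, hh⟩ : ∃ h, h = min (h₀ / 4) ε := ⟨_, rfl⟩
  have f0 : 0 < h := by rw [hh]; positivity
  have f1 : h ≤ h₀ / 4 := by rw [hh]; exact min_le_left _ _
  have f2 : h ≤ ε := by rw [hh]; exact min_le_right _ _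
  obtain ⟨u, hu, hAu, hVu⟩ := hup h f0
  have hA : 0 ≤ H.A u := mainH_A_nonneg H.toHData u
  have hV : 0 < H.V u := hu.mass_pos
  have hΦu : 0 ≤ Φ (H.V u) := by
    by_contra hcon
    have h1 : (1 + ε₂) * c₀ * Φ (H.V u) < 0 :=
      mul_neg_of_pos_of_neg (by positivity) (not_le.1 hcon)
    linarith
  have hmono : ∀ t, ε₂ ≤ t → (1 + ε₂) * c₀ * Φ (H.V u) ≤ (1 + t) * c₀ * Φ (H.V u) := by
    intro t ht
    refine mul_le_mul_of_nonneg_right ?_ hΦu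
    exact mul_le_mul_of_nonneg_right (by linarith) hc₀.le
  have hE := hFV h f0.le u hu (hVu.trans e1) (hAu.trans (hmono ε₁ e1))
    (fun v hv => hlow v (hv.mono H.toHData (by linarith)))
  have hmain := mainH_ineq H k hn hm0 hm hK hu hε.le hE
  have hX : H.A u ≤ (1 + ε) * c₀ * Φ (H.V u) := hAu.trans (hmono ε e2)
  have hdist : dist ((ε, H.V u) : ℝ × ℝ) (0, Vs) < δ := by
    rw [Prod.dist_eq]
    refine max_lt ?_ ?_
    · rw [Real.dist_eq, sub_zero, abs_of_pos hε]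
      exact hεδ
    · rw [Real.dist_eq]
      exact lt_of_le_of_lt (hVu.trans e2) hεδ
  have hpos := hball hdist
  simp only at hpos
  have g1 : k.a * H.A u ^ 2 ≤ k.a * ((1 + ε) * c₀ * Φ (H.V u)) ^ 2 :=
    mul_le_mul_of_nonneg_left (pow_le_pow_left₀ hA hX 2) ha.le
  have g2 : (ε + k.K') * H.A u ≤ (ε + k.K') * ((1 + ε) * c₀ * Φ (H.V u)) :=
    mul_le_mul_of_nonneg_left hX (by linarith)
  have hom : 0 ≤ om n := ENNReal.toReal_nonneg
  have hd := k.d_pos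
  have g3 : k.d * (n * om n * ((1 - ε) * H.V u)) ≤ k.d * (n * om n * ((1 - h) * H.V u)) := by
    refine mul_le_mul_of_nonneg_left ?_ hd.le
    refine mul_le_mul_of_nonneg_left ?_ (by positivity)
    exact mul_le_mul_of_nonneg_right (by linarith) hV.le
  linarith

end HDataH

end Vale.Agent.Lib.P219
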