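import Vale.Agent.Lib.P219.K.BtLower
import Vale.Agent.Lib.P219.K.FX
import Vale.Agent.Lib.P219.A.Pair

/-! # P219, curvature `≤ -1`: from the first variation to the pair inequality

Model: `A/Pair`. With `Ψ(x,w,c,c') = g m ‖w‖ c c' + C + c² η(‖w‖,c') ex x w ≥ 0`, integrate the first
variation inequality at `e = gr u x / ‖gr u x‖` against `‖gr u x‖`; `swap` exchanges
`(x, w)` and `(Ex x w, -ve x w)`, `c` and `c'`; `Bt + C = a + (Ψ + Ψ∘swap)/2`. -/

namespace Vale.Agent.Lib.P219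

open MeasureTheory Set Filter Topology
open scoped ENNReal

namespace HDataH

variable {n : ℕ} (H : HDataH n) (k : KerH n)

/-- pair functional with the true kernel, shifted by the constant `C` -/
noncomputable def PairT (m C : ℝ) (u : Ev n → ℝ) : ℝ≥0∞ :=
  ∫⁻ x, (∫⁻ w, ENNReal.ofReal (‖H.gr u x‖ * ‖H.gr u (H.Ex x w)‖
    * (H.Bt k m x w (H.cy u x w) (H.cx u x w) + C) * H.th x w)) ∂H.vol

private theorem ph_abs_cy (u : Ev n → ℝ) (x w : Ev n) : |H.cy u x w| ≤ 1 := by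
  unfold HData.cy
  have h := abs_real_inner_div_norm_mul_norm_le_one (H.gr u (H.Ex x w)) (H.ve x w)
  rw [H.norm_ve] at h
  rwa [neg_div, abs_neg]

private theorem ph_abs_cx (u : Ev n → ℝ) (x w : Ev n) : |H.cx u x w| ≤ 1 := by
  unfold HData.cx
  exact abs_real_inner_div_norm_mul_norm_le_one (H.gr u x) w

private theorem ph_abs_e (w e : Ev n) (he : ‖e‖ = 1) : |inner ℝ w e / ‖w‖| ≤ 1 := by
  have h := abs_real_inner_div_norm_mul_norm_le_one w e
  rwa [he, mul_one] at h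

/-- one half of the shifted pair kernel -/
private noncomputable def phPsi (m C : ℝ) (x w : Ev n) (c c' : ℝ) : ℝ :=
  k.g m ‖w‖ c c' + C + c ^ 2 * k.η ‖w‖ c' * H.ex x w

private theorem phPsi_nonneg (hn : 1 ≤ n) {m C : ℝ}
    (hC : ∀ r c c', |c| ≤ 1 → |c'| ≤ 1 →
      |k.gh r c c'| ≤ C ∧ |k.g m r c c'| ≤ C ∧ |k.B m r c c'| ≤ C) (x w : Ev n) {c c' : ℝ}
    (hc : |c| ≤ 1) (hc' : |c'| ≤ 1) : 0 ≤ H.phPsi k m C x w c c' := by
  unfold phPsi
  have h1 := (abs_le.1 (hC ‖w‖ c c' hc hc').2.1).1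
  have h2 : 0 ≤ c ^ 2 * k.η ‖w‖ c' * H.ex x w :=
    mul_nonneg (mul_nonneg (sq_nonneg _) (k.η_nonneg _ _ hc')) (H.ex_nonneg hn x w)
  linarith

private theorem ph_Bt_eq (m C : ℝ) (x w : Ev n) (c c' : ℝ) :
    H.Bt k m x w c c' + C + (H.Bt k m x w c c' + C)
      = (k.a + k.a) + (H.phPsi k m C x w c c'
        + H.phPsi k m C (H.Ex x w) (-(H.ve x w)) c' c) := by
  unfold Bt phPsi KerH.B
  rw [norm_neg, H.norm_ve]
  ring

/-- the weighted half kernel on pairs -/
private noncomputable def phG (m C : ℝ) (u : Ev n → ℝ) (p : Ev n × Ev n) : ℝ :=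
  ‖H.gr u p.1‖ * ‖H.gr u (H.Ex p.1 p.2)‖
    * H.phPsi k m C p.1 p.2 (H.cy u p.1 p.2) (H.cx u p.1 p.2)

private theorem phG_measurable (hn : 2 ≤ n) (m C : ℝ) {u : Ev n → ℝ} (hu : ContDiff ℝ 1 u) :
    Measurable (H.phG k m C u) := by
  have h1 : Measurable (fun p : Ev n × Ev n => ‖H.gr u p.1‖) :=
    ((H.gr_cont hu).comp continuous_fst).norm.measurable
  have h2 : Measurable (fun p : Ev n × Ev n => ‖H.gr u (H.Ex p.1 p.2)‖) :=
    ((H.gr_cont hu).comp H.Ex_cont).norm.measurable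
  have h3 : Measurable (fun p : Ev n × Ev n => ‖p.2‖) := continuous_snd.norm.measurable
  have hcy := H.cy_measurable hu
  have hcx := H.cx_measurable hu
  have h4 : Measurable (fun p : Ev n × Ev n => k.g m ‖p.2‖ (H.cy u p.1 p.2) (H.cx u p.1 p.2)) :=
    (k.g_measurable hn m).comp (h3.prodMk (hcy.prodMk hcx))
  have h5 : Measurable (fun p : Ev n × Ev n => k.η ‖p.2‖ (H.cx u p.1 p.2)) :=
    k.η_cont.measurable.comp (h3.prodMk hcx)
  have h6 : Measurable (fun p : Ev n × Ev n =>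
      H.phPsi k m C p.1 p.2 (H.cy u p.1 p.2) (H.cx u p.1 p.2)) :=
    (h4.add_const C).add (((hcy.pow_const 2).mul h5).mul H.ex_measurable)
  exact (h1.mul h2).mul h6

private theorem ph_ofReal_th (a : ℝ) (x w : Ev n) :
    ENNReal.ofReal (a * H.th x w) = ENNReal.ofReal a * ENNReal.ofReal (H.th x w) :=
  ENNReal.ofReal_mul' (zero_le_one.trans (H.one_le_th x w))

/-- exchange of the two points -/
private theorem ph_swap (hn : 2 ≤ n) (m C : ℝ) {u : Ev n → ℝ} (hu : ContDiff ℝ 1 u) :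
    ∫⁻ x, (∫⁻ w, ENNReal.ofReal (H.phG k m C u (x, w) * H.th x w)) ∂H.vol
      = ∫⁻ x, (∫⁻ w, ENNReal.ofReal (‖H.gr u x‖ * ‖H.gr u (H.Ex x w)‖
        * H.phPsi k m C (H.Ex x w) (-(H.ve x w)) (H.cx u x w) (H.cy u x w)
        * H.th x w)) ∂H.vol := by
  have key := H.swap (fun p : Ev n × Ev n => ENNReal.ofReal (H.phG k m C u p))
    (H.phG_measurable k hn m C hu).ennreal_ofReal
  have e1 : ∀ (a : ℝ) (x w : Ev n),
      ENNReal.ofReal (a * H.th x w) = ENNReal.ofReal a * ENNReal.ofReal (H.th x w) :=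
    fun a x w => H.ph_ofReal_th a x w
  simp only [e1]
  rw [key]
  refine lintegral_congr fun x => lintegral_congr fun w => ?_
  congr 2
  unfold phG
  simp only
  have c1 : H.cy u (H.Ex x w) (-(H.ve x w)) = H.cx u x w := by
    unfold HData.cy HData.cx
    rw [H.Ex_reverse, H.ve_reverse, norm_neg, H.norm_ve, inner_neg_right, neg_neg]
  have c2 : H.cx u (H.Ex x w) (-(H.ve x w)) = H.cy u x w := by
    unfold HData.cy HData.cx
    rw [norm_neg, H.norm_ve, inner_neg_right]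
  rw [c1, c2, H.Ex_reverse]
  ring

private theorem ph_A {u : Ev n → ℝ} (hu : ContDiff ℝ 1 u) (hs : HasCompactSupport u) :
    ∫⁻ x, ENNReal.ofReal ‖H.gr u x‖ ∂H.vol = ENNReal.ofReal (H.A u) := by
  unfold HData.A
  rw [ofReal_integral_eq_lintegral_ofReal]
  · exact H.integrable_of_continuous (H.gr_cont hu).norm (H.gr_hasCompactSupport hs).norm
  · exact Filter.Eventually.of_forall fun x => norm_nonneg _

/-- the first variation inequality with the half kernel -/
private theorem ph_point (hn : 2 ≤ n) {m C : ℝ}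
    (hC : ∀ r c c', |c| ≤ 1 → |c'| ≤ 1 →
      |k.gh r c c'| ≤ C ∧ |k.g m r c c'| ≤ C ∧ |k.B m r c c'| ≤ C)
    {K : Set (Ev n)} (hK : IsCompact K) {u : Ev n → ℝ} (hu : ContDiff ℝ 1 u) (hs : tsupport u ⊆ K)
    {ε : ℝ}
    (hE : ∀ x ∈ K, ∀ e : Ev n, ‖e‖ = 1 → H.FV k.gh u 1 x e + H.FX k u x e
      - m * H.FV (fun r c c' => c * k.η r c') u 1 x e ≤ ε) {x : Ev n} (hx : x ∈ K)
    {e : Ev n} (he : ‖e‖ = 1) :
    Integrable (fun w => ‖H.gr u (H.Ex x w)‖
        * H.phPsi k m C x w (H.cy u x w) (inner ℝ w e / ‖w‖) * H.th x w) ∧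
    ∫ w, ‖H.gr u (H.Ex x w)‖ * H.phPsi k m C x w (H.cy u x w) (inner ℝ w e / ‖w‖) * H.th x w
      ≤ ε + C * H.A u := by
  have hcs : HasCompactSupport u := hK.of_isClosed_subset (isClosed_tsupport u) hs
  have i1 := H.FV_integrable (k.gh_measurable hn) (C := C)
    (fun r c c' h h' => (hC r c c' h h').1) hu hcs 1 x he.le
  have hm2 : Measurable (fun p : ℝ × ℝ × ℝ => p.2.1 * k.η p.1 p.2.2) := by
    have h2 : Measurable (fun p : ℝ × ℝ × ℝ => k.η p.1 p.2.2) :=
      k.η_cont.measurable.comp (measurable_fst.prodMk (measurable_snd.comp measurable_snd))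
    exact (measurable_fst.comp measurable_snd).mul h2
  have i2 := H.FV_integrable (F := fun r c c' => c * k.η r c') hm2 (C := k.M)
    (fun r c c' h h' => by
      rw [abs_mul, abs_of_nonneg (k.η_nonneg r c' h')]
      calc |c| * k.η r c' ≤ 1 * k.M :=
            mul_le_mul h (k.η_le r c' h') (k.η_nonneg r c' h') zero_le_one
        _ = k.M := one_mul _) hu hcs 1 x he.le
  have i3 := H.FX_integrable k hn hK hu hs hx he.le
  have i4 : Integrable (fun w => C * (‖H.gr u (H.Ex x w)‖ * H.th x w)) := by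
    have h3 : Integrable (fun y => ‖H.gr u y‖) H.vol :=
      H.integrable_of_continuous (H.gr_cont hu).norm (H.gr_hasCompactSupport hcs).norm
    have h4 := (H.integrable_exp_iff x _).1 h3
    refine (h4.const_mul C).congr (Filter.Eventually.of_forall fun w => ?_)
    simp only
    ring
  have hfun : (fun w => ‖H.gr u (H.Ex x w)‖
        * H.phPsi k m C x w (H.cy u x w) (inner ℝ w e / ‖w‖) * H.th x w)
      = fun w => (‖H.gr u (H.Ex x w)‖ * k.gh (‖w‖ / 1) (H.cy u x w) (inner ℝ w e / ‖w‖)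
          * H.th x w
        + ‖H.gr u (H.Ex x w)‖
          * (H.cy u x w ^ 2 * k.η ‖w‖ (inner ℝ w e / ‖w‖) * H.ex x w) * H.th x w
        - m * (‖H.gr u (H.Ex x w)‖ * (H.cy u x w * k.η (‖w‖ / 1) (inner ℝ w e / ‖w‖))
          * H.th x w))
        + C * (‖H.gr u (H.Ex x w)‖ * H.th x w) := by
    funext w
    unfold phPsi KerH.g
    rw [div_one]
    ring
  have i12 := (i1.add i3).sub (i2.const_mul m)
  refine ⟨?_, ?_⟩
  · rw [hfun]
    exact i12.add i4
  · rw [hfun]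
    have e1 := integral_add i12 i4
    have e2 := integral_sub (i1.add i3) (i2.const_mul m)
    have e3 := integral_add i1 i3
    have e4 : ∫ w, m * (‖H.gr u (H.Ex x w)‖ * (H.cy u x w * k.η (‖w‖ / 1) (inner ℝ w e / ‖w‖))
          * H.th x w) = m * H.FV (fun r c c' => c * k.η r c') u 1 x e :=
      integral_const_mul _ _
    have e5 : ∫ w, C * (‖H.gr u (H.Ex x w)‖ * H.th x w) = C * H.A u := by
      rw [H.A_eq_exp u x]
      exact integral_const_mul _ _
    have hmain := hE x hx e he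
    have e6 : H.FV k.gh u 1 x e = ∫ w, ‖H.gr u (H.Ex x w)‖
        * k.gh (‖w‖ / 1) (H.cy u x w) (inner ℝ w e / ‖w‖) * H.th x w := rfl
    have e7 : H.FX k u x e = ∫ w, ‖H.gr u (H.Ex x w)‖
        * (H.cy u x w ^ 2 * k.η ‖w‖ (inner ℝ w e / ‖w‖) * H.ex x w) * H.th x w := rfl
    simp only [Pi.add_apply, Pi.sub_apply] at e1 e2 e3
    rw [e1, e2, e3, e4, e5, ← e6, ← e7]
    linarith

/-- integration of the one point inequality against `‖gr u x‖` -/
private theorem ph_half (hn : 2 ≤ n) {m C : ℝ}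
    (hC : ∀ r c c', |c| ≤ 1 → |c'| ≤ 1 →
      |k.gh r c c'| ≤ C ∧ |k.g m r c c'| ≤ C ∧ |k.B m r c c'| ≤ C)
    {K : Set (Ev n)} (hK : IsCompact K) {u : Ev n → ℝ} (hu : ContDiff ℝ 1 u) (hs : tsupport u ⊆ K)
    {ε : ℝ}
    (hE : ∀ x ∈ K, ∀ e : Ev n, ‖e‖ = 1 → H.FV k.gh u 1 x e + H.FX k u x e
      - m * H.FV (fun r c c' => c * k.η r c') u 1 x e ≤ ε) :
    ∫⁻ x, (∫⁻ w, ENNReal.ofReal (H.phG k m C u (x, w) * H.th x w)) ∂H.vol
      ≤ ENNReal.ofReal ((ε + C * H.A u) * H.A u) := by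
  have hcs : HasCompactSupport u := hK.of_isClosed_subset (isClosed_tsupport u) hs
  have key : ∀ x : Ev n, ∫⁻ w, ENNReal.ofReal (H.phG k m C u (x, w) * H.th x w)
      ≤ ENNReal.ofReal ‖H.gr u x‖ * ENNReal.ofReal (ε + C * H.A u) := by
    intro x
    rcases eq_or_ne (H.gr u x) 0 with hx | hx
    · simp [phG, hx]
    · have hn0 : 0 < ‖H.gr u x‖ := norm_pos_iff.2 hx
      have hxK : x ∈ K := by
        by_contra hcon
        exact hx (H.gr_zero_of_not_mem fun h => hcon (hs h))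
      set e : Ev n := ‖H.gr u x‖⁻¹ • H.gr u x with he
      have he1 : ‖e‖ = 1 := by
        rw [he, norm_smul, norm_inv, norm_norm, inv_mul_cancel₀ hn0.ne']
      have hcx : ∀ w : Ev n, H.cx u x w = inner ℝ w e / ‖w‖ := by
        intro w
        unfold HData.cx
        rw [he, inner_smul_right, real_inner_comm]
        rw [mul_comm ‖H.gr u x‖ ‖w‖, ← div_div, div_right_comm]
        congr 1
        rw [div_eq_inv_mul]
      have e1 : ∀ w : Ev n, ENNReal.ofReal (H.phG k m C u (x, w) * H.th x w)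
          = ENNReal.ofReal ‖H.gr u x‖ * ENNReal.ofReal (‖H.gr u (H.Ex x w)‖
          * H.phPsi k m C x w (H.cy u x w) (inner ℝ w e / ‖w‖) * H.th x w) := by
        intro w
        rw [← ENNReal.ofReal_mul hn0.le]
        congr 1
        unfold phG
        simp only
        rw [hcx w]
        ring
      simp only [e1]
      rw [lintegral_const_mul' _ _ ENNReal.ofReal_ne_top]
      refine mul_le_mul_right ?_ _
      obtain ⟨h2, h3⟩ := H.ph_point k hn hC hK hu hs hE hxK he1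
      rw [← ofReal_integral_eq_lintegral_ofReal h2]
      · exact ENNReal.ofReal_le_ofReal h3
      · refine Filter.Eventually.of_forall fun w => ?_
        exact mul_nonneg (mul_nonneg (norm_nonneg _)
          (H.phPsi_nonneg k (by omega) hC x w (H.ph_abs_cy u x w) (ph_abs_e w e he1)))
          (zero_le_one.trans (H.one_le_th x w))
  refine (lintegral_mono key).trans ?_
  rw [lintegral_mul_const' _ _ ENNReal.ofReal_ne_top, H.ph_A hu hcs, mul_comm (ε + C * H.A u),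
    ENNReal.ofReal_mul (H.A_nonneg u)]

theorem pairT_upper (hn : 2 ≤ n) {m : ℝ} (hm : 0 ≤ m) (hm' : m ≤ k.Hm) {C : ℝ}
    (hC : ∀ r c c', |c| ≤ 1 → |c'| ≤ 1 →
      |k.gh r c c'| ≤ C ∧ |k.g m r c c'| ≤ C ∧ |k.B m r c c'| ≤ C)
    {K : Set (Ev n)} (hK : IsCompact K) {u : Ev n → ℝ} (hu : ContDiff ℝ 1 u) (hs : tsupport u ⊆ K)
    {ε : ℝ} (hε : 0 ≤ ε)
    (hE : ∀ x ∈ K, ∀ e : Ev n, ‖e‖ = 1 → H.FV k.gh u 1 x e + H.FX k u x e
      - m * H.FV (fun r c c' => c * k.η r c') u 1 x e ≤ ε) :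
    H.PairT k m C u ≤ ENNReal.ofReal ((k.a + C) * H.A u ^ 2 + ε * H.A u) := by
  have hcs : HasCompactSupport u := hK.of_isClosed_subset (isClosed_tsupport u) hs
  have hAn := H.A_nonneg u
  have ha := k.a_pos
  have hC0 : 0 ≤ C := (abs_nonneg _).trans (hC 0 0 0 (by simp) (by simp)).1
  have hn1 : 1 ≤ n := by omega
  have hhalf := H.ph_half k hn hC hK hu hs hE
  have hswap := H.ph_swap k hn m C hu
  have hG0 : ∀ x w : Ev n, 0 ≤ H.phG k m C u (x, w) := by
    intro x w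
    unfold phG
    simp only
    exact mul_nonneg (mul_nonneg (norm_nonneg _) (norm_nonneg _))
      (H.phPsi_nonneg k hn1 hC x w (H.ph_abs_cy u x w) (H.ph_abs_cx u x w))
  have hmeas2 : Measurable (fun p : Ev n × Ev n =>
      ENNReal.ofReal (H.phG k m C u p * H.th p.1 p.2)) :=
    ((H.phG_measurable k hn m C hu).mul H.th_cont.measurable).ennreal_ofReal
  have hmeasx : ∀ x : Ev n, Measurable (fun w : Ev n =>
      ENNReal.ofReal (H.phG k m C u (x, w) * H.th x w)) := fun x =>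
    Measurable.comp (g := fun p : Ev n × Ev n => ENNReal.ofReal (H.phG k m C u p * H.th p.1 p.2))
      (f := fun w : Ev n => (x, w)) hmeas2 (measurable_const.prodMk measurable_id)
  have hmeasI : Measurable (fun x : Ev n => ∫⁻ w : Ev n,
      ENNReal.ofReal (H.phG k m C u (x, w) * H.th x w)) :=
    Measurable.lintegral_prod_right' (f := fun p : Ev n × Ev n =>
      ENNReal.ofReal (H.phG k m C u p * H.th p.1 p.2)) hmeas2
  -- constants
  have hconst : ∫⁻ x, (∫⁻ w, ENNReal.ofReal (‖H.gr u x‖ * ‖H.gr u (H.Ex x w)‖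
      * (k.a + k.a) * H.th x w)) ∂H.vol = ENNReal.ofReal ((k.a + k.a) * H.A u ^ 2) :=
    H.Pair_const hu hcs 1 (by linarith)
  -- the pointwise identity
  have hpt : ∀ x w : Ev n,
      ENNReal.ofReal (‖H.gr u x‖ * ‖H.gr u (H.Ex x w)‖
        * (H.Bt k m x w (H.cy u x w) (H.cx u x w) + C) * H.th x w)
      + ENNReal.ofReal (‖H.gr u x‖ * ‖H.gr u (H.Ex x w)‖
        * (H.Bt k m x w (H.cy u x w) (H.cx u x w) + C) * H.th x w)
      = ENNReal.ofReal (H.phG k m C u (x, w) * H.th x w)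
      + (ENNReal.ofReal (‖H.gr u x‖ * ‖H.gr u (H.Ex x w)‖
        * H.phPsi k m C (H.Ex x w) (-(H.ve x w)) (H.cx u x w) (H.cy u x w) * H.th x w)
      + ENNReal.ofReal (‖H.gr u x‖ * ‖H.gr u (H.Ex x w)‖ * (k.a + k.a) * H.th x w)) := by
    intro x w
    have ht : 0 ≤ H.th x w := zero_le_one.trans (H.one_le_th x w)
    have hp1 := H.phPsi_nonneg k hn1 hC x w (H.ph_abs_cy u x w) (H.ph_abs_cx u x w)
    have hp2 := H.phPsi_nonneg k hn1 hC (H.Ex x w) (-(H.ve x w)) (H.ph_abs_cx u x w)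
      (H.ph_abs_cy u x w)
    have hB := H.ph_Bt_eq k m C x w (H.cy u x w) (H.cx u x w)
    have hB0 : 0 ≤ H.Bt k m x w (H.cy u x w) (H.cx u x w) + C := by linarith
    have hg1 := norm_nonneg (H.gr u x)
    have hg2 := norm_nonneg (H.gr u (H.Ex x w))
    rw [← ENNReal.ofReal_add (by positivity) (by positivity),
      ← ENNReal.ofReal_add (by positivity) (by positivity),
      ← ENNReal.ofReal_add (mul_nonneg (hG0 x w) ht) (by positivity)]
    congr 1
    unfold phG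
    simp only
    linear_combination (‖H.gr u x‖ * ‖H.gr u (H.Ex x w)‖ * H.th x w) * hB
  -- measurability of the constant term
  have hmc2 : Measurable (fun p : Ev n × Ev n => ENNReal.ofReal (‖H.gr u p.1‖
      * ‖H.gr u (H.Ex p.1 p.2)‖ * (k.a + k.a) * H.th p.1 p.2)) := by
    have h1 : Continuous (fun p : Ev n × Ev n => ‖H.gr u p.1‖) :=
      ((H.gr_cont hu).comp continuous_fst).norm
    have h2 : Continuous (fun p : Ev n × Ev n => ‖H.gr u (H.Ex p.1 p.2)‖) :=
      ((H.gr_cont hu).comp H.Ex_cont).norm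
    exact (((h1.mul h2).mul continuous_const).mul H.th_cont).measurable.ennreal_ofReal
  have hmcx : ∀ x : Ev n, Measurable (fun w : Ev n => ENNReal.ofReal (‖H.gr u x‖
      * ‖H.gr u (H.Ex x w)‖ * (k.a + k.a) * H.th x w)) := fun x =>
    Measurable.comp (g := fun p : Ev n × Ev n => ENNReal.ofReal (‖H.gr u p.1‖
      * ‖H.gr u (H.Ex p.1 p.2)‖ * (k.a + k.a) * H.th p.1 p.2))
      (f := fun w : Ev n => (x, w)) hmc2 (measurable_const.prodMk measurable_id)
  have hmcI : Measurable (fun x : Ev n => ∫⁻ w : Ev n, ENNReal.ofReal (‖H.gr u x‖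
      * ‖H.gr u (H.Ex x w)‖ * (k.a + k.a) * H.th x w)) :=
    Measurable.lintegral_prod_right' (f := fun p : Ev n × Ev n => ENNReal.ofReal (‖H.gr u p.1‖
      * ‖H.gr u (H.Ex p.1 p.2)‖ * (k.a + k.a) * H.th p.1 p.2)) hmc2
  -- integrate the identity
  have hsum : 2 * H.PairT k m C u
      = ∫⁻ x, (∫⁻ w, ENNReal.ofReal (H.phG k m C u (x, w) * H.th x w)) ∂H.vol
      + (∫⁻ x, (∫⁻ w, ENNReal.ofReal (‖H.gr u x‖ * ‖H.gr u (H.Ex x w)‖
        * H.phPsi k m C (H.Ex x w) (-(H.ve x w)) (H.cx u x w) (H.cy u x w)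
        * H.th x w)) ∂H.vol
      + ∫⁻ x, (∫⁻ w, ENNReal.ofReal (‖H.gr u x‖ * ‖H.gr u (H.Ex x w)‖
        * (k.a + k.a) * H.th x w)) ∂H.vol) := by
    rw [← lintegral_add_right _ hmcI, ← lintegral_add_left hmeasI]
    unfold PairT
    rw [← lintegral_const_mul' _ _ ENNReal.ofNat_ne_top]
    refine lintegral_congr fun x => ?_
    rw [← lintegral_add_right _ (hmcx x), ← lintegral_add_left (hmeasx x),
      ← lintegral_const_mul' _ _ ENNReal.ofNat_ne_top]
    refine lintegral_congr fun w => ?_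
    rw [two_mul]
    exact hpt x w
  have hle : 2 * H.PairT k m C u
      ≤ 2 * ENNReal.ofReal ((k.a + C) * H.A u ^ 2 + ε * H.A u) := by
    rw [hsum, ← hswap, hconst]
    refine (add_le_add hhalf (add_le_add hhalf le_rfl)).trans (le_of_eq ?_)
    have h1 : 0 ≤ (ε + C * H.A u) * H.A u := by positivity
    have h2 : 0 ≤ (k.a + k.a) * H.A u ^ 2 := by positivity
    have h3 : 0 ≤ (k.a + C) * H.A u ^ 2 + ε * H.A u := by positivity
    rw [← ENNReal.ofReal_add h1 h2, ← ENNReal.ofReal_add h1 (add_nonneg h1 h2), two_mul,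
      ← ENNReal.ofReal_add h3 h3]
    congr 1
    ring
  exact (ENNReal.mul_le_mul_iff_right two_ne_zero ENNReal.ofNat_ne_top).1 hle

end HDataH

end Vale.Agent.Lib.P219
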