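import Vale.Agent.Lib.P219.K.PairH
import Vale.Agent.Lib.P219.A.Lower1

/-! # P219, curvature `≤ -1`: the pair functional along geodesics

Model: `A/Lower1`. Polar coordinates, `Bt_lower`, `th x (t ω) t^(n-1) ≥ sinh^(n-1) t` (`one_le_Qn`). -/

namespace Vale.Agent.Lib.P219

open MeasureTheory Set Filter Topology
open scoped ENNReal

namespace HDataH

variable {n : ℕ} (H : HDataH n) (k : KerH n)

/-- the pair kernel along a geodesic: model kernel plus the constant `C` times the true Jacobian -/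
noncomputable def LkH (m C : ℝ) (u : Ev n → ℝ) (v : Ev n × Ev n) : ℝ≥0∞ :=
  ∫⁻ t in Ioi (0 : ℝ), ENNReal.ofReal (‖H.gr u v.1‖ * ‖H.gr u (H.fl t v).1‖
    * (k.B m t (-(H.cs u (H.fl t v))) (H.cs u v) * Real.sinh t ^ (n - 1)
      + C * (H.th v.1 (t • v.2) * t ^ (n - 1))))

/-- the constant part -/
noncomputable def LkC (C : ℝ) (u : Ev n → ℝ) (v : Ev n × Ev n) : ℝ≥0∞ :=
  ∫⁻ t in Ioi (0 : ℝ), ENNReal.ofReal (‖H.gr u v.1‖ * ‖H.gr u (H.fl t v).1‖
    * (C * (H.th v.1 (t • v.2) * t ^ (n - 1))))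

private theorem ph_fl_meas : Measurable (fun p : (Ev n × Ev n) × ℝ => H.fl p.2 p.1) :=
  (H.fl_cont.comp (continuous_snd.prodMk continuous_fst)).measurable

private theorem ph_th_meas : Measurable (fun p : (Ev n × Ev n) × ℝ =>
    H.th p.1.1 (p.2 • p.1.2) * p.2 ^ (n - 1)) := by
  have h1 : Continuous (fun p : (Ev n × Ev n) × ℝ => H.th p.1.1 (p.2 • p.1.2)) :=
    H.th_cont.comp ((continuous_fst.comp continuous_fst).prodMk
      (continuous_snd.smul (continuous_snd.comp continuous_fst)))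
  exact h1.measurable.mul (measurable_snd.pow_const _)

private theorem ph_gg_meas {u : Ev n → ℝ} (hu : ContDiff ℝ 1 u) :
    Measurable (fun p : (Ev n × Ev n) × ℝ => ‖H.gr u p.1.1‖ * ‖H.gr u (H.fl p.2 p.1).1‖) := by
  have hgr : Measurable (fun x => ‖H.gr u x‖) := (H.gr_cont hu).norm.measurable
  exact (hgr.comp (measurable_fst.comp measurable_fst)).mul
    (hgr.comp (measurable_fst.comp H.ph_fl_meas))

private theorem ph_meas3 {α : Type*} [MeasurableSpace α] {F : ℝ → ℝ → ℝ → ℝ}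
    (hF : Measurable (fun p : ℝ × ℝ × ℝ => F p.1 p.2.1 p.2.2)) {a b c : α → ℝ}
    (ha : Measurable a) (hb : Measurable b) (hc : Measurable c) :
    Measurable (fun x => F (a x) (b x) (c x)) :=
  hF.comp (ha.prodMk (hb.prodMk hc))

private theorem ph_meas2 {α : Type*} [MeasurableSpace α] {F : ℝ → ℝ → ℝ}
    (hF : Measurable (fun p : ℝ × ℝ => F p.1 p.2)) {a b : α → ℝ}
    (ha : Measurable a) (hb : Measurable b) :
    Measurable (fun x => F (a x) (b x)) :=
  hF.comp (ha.prodMk hb)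

theorem LkH_measurable (hn : 2 ≤ n) (m C : ℝ) {u : Ev n → ℝ} (hu : ContDiff ℝ 1 u) :
    Measurable (H.LkH k m C u) := by
  have hfl := H.ph_fl_meas
  have hcs := H.cs_measurable hu
  have h3 : Measurable (fun p : (Ev n × Ev n) × ℝ =>
      k.B m p.2 (-(H.cs u (H.fl p.2 p.1))) (H.cs u p.1)) :=
    ph_meas3 (k.B_measurable hn m) measurable_snd (hcs.comp hfl).neg
      (hcs.comp measurable_fst)
  have h4 : Measurable (fun p : (Ev n × Ev n) × ℝ => Real.sinh p.2 ^ (n - 1)) :=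
    (Real.continuous_sinh.measurable.comp measurable_snd).pow_const _
  have h5 : Measurable (fun p : (Ev n × Ev n) × ℝ =>
      ENNReal.ofReal (‖H.gr u p.1.1‖ * ‖H.gr u (H.fl p.2 p.1).1‖
        * (k.B m p.2 (-(H.cs u (H.fl p.2 p.1))) (H.cs u p.1) * Real.sinh p.2 ^ (n - 1)
          + C * (H.th p.1.1 (p.2 • p.1.2) * p.2 ^ (n - 1))))) :=
    ((H.ph_gg_meas hu).mul ((h3.mul h4).add (H.ph_th_meas.const_mul C))).ennreal_ofReal
  exact h5.lintegral_prod_right'

theorem LkC_measurable (C : ℝ) {u : Ev n → ℝ} (hu : ContDiff ℝ 1 u) :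
    Measurable (H.LkC C u) := by
  have h5 : Measurable (fun p : (Ev n × Ev n) × ℝ =>
      ENNReal.ofReal (‖H.gr u p.1.1‖ * ‖H.gr u (H.fl p.2 p.1).1‖
        * (C * (H.th p.1.1 (p.2 • p.1.2) * p.2 ^ (n - 1))))) :=
    ((H.ph_gg_meas hu).mul (H.ph_th_meas.const_mul C)).ennreal_ofReal
  exact h5.lintegral_prod_right'

theorem sinh_pow_le_th (hn : 2 ≤ n) (x ω : Ev n) (hω : ‖ω‖ = 1) {t : ℝ} (ht : 0 < t) :
    Real.sinh t ^ (n - 1) ≤ H.th x (t • ω) * t ^ (n - 1) := by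
  have e1 : ‖t • ω‖ = t := by
    rw [norm_smul, hω, mul_one, Real.norm_of_nonneg ht.le]
  have hne : t • ω ≠ 0 := by
    rw [← norm_pos_iff, e1]
    exact ht
  have hs : 0 < Real.sinh t := Real.sinh_pos_iff.2 ht
  have h1 := H.one_le_Qn (by omega) x (t • ω) hne
  unfold Qn at h1
  rw [e1, div_pow, mul_div_assoc', le_div_iff₀ (by positivity), one_mul] at h1
  exact h1

private theorem ph_cy_smul (u : Ev n → ℝ) (x ω : Ev n) (hω : ‖ω‖ = 1) {t : ℝ} (ht : 0 < t) :
    H.cy u x (t • ω) = -(H.cs u (H.fl t (x, ω))) := by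
  unfold HData.cy HData.cs
  rw [H.Ex_smul, H.ve_smul, norm_smul, hω, mul_one, Real.norm_of_nonneg ht.le,
    real_inner_smul_right, neg_div]
  congr 1
  rw [mul_comm t, mul_div_mul_right _ _ ht.ne']

private theorem ph_cx_smul (u : Ev n → ℝ) (x ω : Ev n) (hω : ‖ω‖ = 1) {t : ℝ} (ht : 0 < t) :
    H.cx u x (t • ω) = H.cs u (x, ω) := by
  unfold HData.cx HData.cs
  rw [norm_smul, hω, mul_one, Real.norm_of_nonneg ht.le, real_inner_smul_right]
  rw [mul_comm t, mul_div_mul_right _ _ ht.ne']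

/-- the integrand of `PairT` in the inner variable -/
private noncomputable def phF (m C : ℝ) (u : Ev n → ℝ) (x w : Ev n) : ℝ≥0∞ :=
  ENNReal.ofReal (‖H.gr u x‖ * ‖H.gr u (H.Ex x w)‖
    * (H.Bt k m x w (H.cy u x w) (H.cx u x w) + C) * H.th x w)

private theorem ph_hEx_meas (x : Ev n) : Measurable (fun w => H.Ex x w) :=
  (H.Ex_cont.comp (continuous_const.prodMk continuous_id)).measurable

private theorem ph_hve_meas (x : Ev n) : Measurable (fun w => H.ve x w) :=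
  (H.ve_cont.comp (continuous_const.prodMk continuous_id)).measurable

private theorem ph_hth_meas (x : Ev n) : Measurable (fun w => H.th x w) :=
  (H.th_cont.comp (continuous_const.prodMk continuous_id)).measurable

private theorem ph_slice {F : Ev n → Ev n → ℝ}
    (hF : Measurable (fun p : Ev n × Ev n => F p.1 p.2)) (x : Ev n) : Measurable (F x) :=
  hF.comp measurable_prodMk_left

private theorem ph_gg2_meas {u : Ev n → ℝ} (hu : ContDiff ℝ 1 u) (x : Ev n) :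
    Measurable (fun w => ‖H.gr u x‖ * ‖H.gr u (H.Ex x w)‖) := by
  have hgr : Measurable (fun x => ‖H.gr u x‖) := (H.gr_cont hu).norm.measurable
  exact (hgr.comp (H.ph_hEx_meas x)).const_mul _

private theorem phF_meas (hn : 2 ≤ n) (m C : ℝ) {u : Ev n → ℝ} (hu : ContDiff ℝ 1 u)
    (x : Ev n) : Measurable (H.phF k m C u x) := by
  have hcy : Measurable (H.cy u x) := ph_slice (H.cy_measurable hu) x
  have hcx : Measurable (H.cx u x) := ph_slice (H.cx_measurable hu) x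
  have hB : Measurable (fun w : Ev n => k.B m ‖w‖ (H.cy u x w) (H.cx u x w)) :=
    ph_meas3 (k.B_measurable hn m) measurable_norm hcy hcx
  have hη : ∀ c : Ev n → ℝ, Measurable c → Measurable (fun w : Ev n => k.η ‖w‖ (c w)) :=
    fun c hc => ph_meas2 k.η_cont.measurable measurable_norm hc
  have hex1 : Measurable (fun w : Ev n => H.ex x w) := ph_slice H.ex_measurable x
  have hex2 : Measurable (fun w : Ev n => H.ex (H.Ex x w) (-(H.ve x w))) :=
    H.ex_measurable.comp ((H.ph_hEx_meas x).prodMk (H.ph_hve_meas x).neg)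
  have hBt : Measurable (fun w : Ev n => H.Bt k m x w (H.cy u x w) (H.cx u x w)) := by
    unfold Bt
    exact hB.add (((((hcy.pow_const 2).mul (hη _ hcx)).mul hex1).add
      (((hcx.pow_const 2).mul (hη _ hcy)).mul hex2)).div_const 2)
  unfold phF
  exact (((H.ph_gg2_meas hu x).mul (hBt.add_const C)).mul (H.ph_hth_meas x)).ennreal_ofReal

private theorem phF_ge (hn : 2 ≤ n) {m : ℝ} (hm : 0 ≤ m) (hm' : m ≤ k.Hm) (C : ℝ)
    (u : Ev n → ℝ) (x ω : Ev n) (hω : ‖ω‖ = 1) {t : ℝ} (ht : 0 < t) :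
    ENNReal.ofReal (‖H.gr u x‖ * ‖H.gr u (H.fl t (x, ω)).1‖
      * (k.B m t (-(H.cs u (H.fl t (x, ω)))) (H.cs u (x, ω)) * Real.sinh t ^ (n - 1)
        + C * (H.th x (t • ω) * t ^ (n - 1)))) ≤
    H.phF k m C u x (t • ω) * ENNReal.ofReal (t ^ (n - 1)) := by
  have e1 : ‖t • ω‖ = t := by
    rw [norm_smul, hω, mul_one, Real.norm_of_nonneg ht.le]
  have hne : t • ω ≠ 0 := by
    rw [← norm_pos_iff, e1]
    exact ht
  have hc1 : |H.cs u (x, ω)| ≤ 1 := H.cs_abs_le u _ hω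
  have hc2 : |-(H.cs u (H.fl t (x, ω)))| ≤ 1 := by
    rw [abs_neg]
    apply H.cs_abs_le
    rw [H.fl_norm]
    exact hω
  have hB := H.Bt_lower k hn hm hm' x (t • ω) hne hc2 hc1
  rw [e1] at hB
  have hB2 := mul_le_mul_of_nonneg_right hB (show (0 : ℝ) ≤ t ^ (n - 1) by positivity)
  have e2 : k.B m t (-(H.cs u (H.fl t (x, ω)))) (H.cs u (x, ω)) * (Real.sinh t / t) ^ (n - 1)
      * t ^ (n - 1) =
      k.B m t (-(H.cs u (H.fl t (x, ω)))) (H.cs u (x, ω)) * Real.sinh t ^ (n - 1) := by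
    rw [div_pow, mul_assoc, div_mul_cancel₀ _ (by positivity)]
  rw [e2] at hB2
  unfold phF
  rw [H.Ex_smul, H.ph_cy_smul u x ω hω ht, H.ph_cx_smul u x ω hω ht,
    ← ENNReal.ofReal_mul' (by positivity)]
  apply ENNReal.ofReal_le_ofReal
  have e3 : ‖H.gr u x‖ * ‖H.gr u (H.fl t (x, ω)).1‖
      * (H.Bt k m x (t • ω) (-(H.cs u (H.fl t (x, ω)))) (H.cs u (x, ω)) + C)
      * H.th x (t • ω) * t ^ (n - 1) =
      ‖H.gr u x‖ * ‖H.gr u (H.fl t (x, ω)).1‖
      * (H.Bt k m x (t • ω) (-(H.cs u (H.fl t (x, ω)))) (H.cs u (x, ω)) * H.th x (t • ω)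
        * t ^ (n - 1) + C * (H.th x (t • ω) * t ^ (n - 1))) := by ring
  rw [e3]
  refine mul_le_mul_of_nonneg_left ?_ (by positivity)
  linarith

theorem SM_LkH_le (hn : 2 ≤ n) {m : ℝ} (hm : 0 ≤ m) (hm' : m ≤ k.Hm) {C : ℝ}
    (hC : ∀ r c c', |c| ≤ 1 → |c'| ≤ 1 → |k.B m r c c'| ≤ C)
    {u : Ev n → ℝ} (hu : ContDiff ℝ 1 u) : H.SM (H.LkH k m C u) ≤ H.PairT k m C u := by
  have h1 : H.PairT k m C u = ∫⁻ x, (∫⁻ w, H.phF k m C u x w) ∂H.vol := rfl
  rw [h1]
  unfold HData.SM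
  apply lintegral_mono
  intro x
  show _ ≤ ∫⁻ w, H.phF k m C u x w
  rw [lintegral_polar (by omega) _ (H.phF_meas k hn m C hu x)]
  apply lintegral_mono
  intro ω
  have hω : ‖(ω : Ev n)‖ = 1 := by simp
  show H.LkH k m C u (x, (ω : Ev n)) ≤ _
  unfold LkH
  apply setLIntegral_mono' measurableSet_Ioi
  intro t ht
  exact H.phF_ge k hn hm hm' C u x ω hω ht

theorem SM_LkC (hn : 2 ≤ n) {C : ℝ} (hC : 0 ≤ C) {u : Ev n → ℝ} (hu : ContDiff ℝ 1 u)
    (hs : HasCompactSupport u) : H.SM (H.LkC C u) = ENNReal.ofReal (C * H.A u ^ 2) := by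
  rw [← H.Pair_const hu hs 1 hC]
  unfold HData.SM HData.Pair
  refine lintegral_congr fun x => ?_
  have hF : Measurable (fun w : Ev n => ENNReal.ofReal (‖H.gr u x‖ * ‖H.gr u (H.Ex x w)‖
      * C * H.th x w)) :=
    (((H.ph_gg2_meas hu x).mul_const C).mul (H.ph_hth_meas x)).ennreal_ofReal
  rw [lintegral_polar (by omega) _ hF]
  refine lintegral_congr fun ω => ?_
  unfold LkC
  refine setLIntegral_congr_fun measurableSet_Ioi fun t ht => ?_
  have ht' : (0 : ℝ) < t := ht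
  simp only
  rw [H.Ex_smul, ← ENNReal.ofReal_mul' (by positivity)]
  congr 1
  ring

end HDataH

end Vale.Agent.Lib.P219
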